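import Vale.Agent.P244.ST.Geo
import Vale.Agent.P244.ST.Sys

/-!
# P244-ST, block A : explicit jet formulas for the geometric quantities

For `|x| < 1` all quantities of `Geo.lean` are explicit functions of the 2-jets of `w` and `f`.
-/

open Set Filter Topology
open scoped ContDiff

namespace Vale.Agent.P244.ST.Tip

open Vale.Agent.P244.BB (smoothAlg dom mem_dom ext dz ext_continuousOn hasDerivWithinAt_z)

/-- 2-jet of `h` at `x`: derivative `h1` near `x`, second derivative `h2` at `x`. -/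
structure Jet (h h1 : ℝ → ℝ) (h2 x : ℝ) : Prop where
  d1 : ∀ᶠ y in 𝓝 x, HasDerivAt h (h1 y) y
  d2 : HasDerivAt h1 h2 x

theorem Jet.at {h h1 : ℝ → ℝ} {h2 x : ℝ} (H : Jet h h1 h2 x) : HasDerivAt h (h1 x) x :=
  H.d1.self_of_nhds

theorem Jet.add {h h1 k k1 : ℝ → ℝ} {h2 k2 x : ℝ} (H : Jet h h1 h2 x) (K : Jet k k1 k2 x) :
    Jet (fun y => h y + k y) (fun y => h1 y + k1 y) (h2 + k2) x :=
  ⟨(H.d1.and K.d1).mono fun _ hy => hy.1.add hy.2, H.d2.add K.d2⟩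

theorem Jet.sub {h h1 k k1 : ℝ → ℝ} {h2 k2 x : ℝ} (H : Jet h h1 h2 x) (K : Jet k k1 k2 x) :
    Jet (fun y => h y - k y) (fun y => h1 y - k1 y) (h2 - k2) x :=
  ⟨(H.d1.and K.d1).mono fun _ hy => hy.1.sub hy.2, H.d2.sub K.d2⟩

theorem sx_pos {x : ℝ} (hx : x ∈ Ioo (-1 : ℝ) 1) : 0 < sx x := by
  have : 0 < 1 - x ^ 2 := by nlinarith only [hx, hx.1, hx.2]
  exact Real.sqrt_pos.2 this

theorem sx_sq {x : ℝ} (hx : x ∈ Ioo (-1 : ℝ) 1) : sx x ^ 2 = 1 - x ^ 2 := by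
  have : 0 ≤ 1 - x ^ 2 := by nlinarith only [hx, hx.1, hx.2]
  exact Real.sq_sqrt this

theorem one_sub_pos {x : ℝ} (hx : x ∈ Ioo (-1 : ℝ) 1) : 0 < 1 - x ^ 2 := by
  nlinarith only [hx, hx.1, hx.2]

theorem hasDerivAt_sx {x : ℝ} (hx : x ∈ Ioo (-1 : ℝ) 1) : HasDerivAt sx (-x / sx x) x := by
  have h1 : HasDerivAt (fun y : ℝ => 1 - y ^ 2) (-(2 * x)) x := by
    simpa using ((hasDerivAt_id x).pow 2).const_sub 1
  have h2 := h1.sqrt (one_sub_pos hx).ne'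
  have e : -(2 * x) / (2 * Real.sqrt (1 - x ^ 2)) = -x / sx x := by
    unfold sx
    have := (sx_pos hx).ne'
    unfold sx at this
    field_simp
  rw [e] at h2
  exact h2

/-- the jet of `log (1 - x^2) / 2` -/
theorem jet_log {x : ℝ} (hx : x ∈ Ioo (-1 : ℝ) 1) :
    Jet (fun y => Real.log (1 - y ^ 2) / 2) (fun y => -(y / (1 - y ^ 2)))
      (-((1 + x ^ 2) / (1 - x ^ 2) ^ 2)) x := by
  have hpoly : ∀ y : ℝ, HasDerivAt (fun y : ℝ => 1 - y ^ 2) (-(2 * y)) y := fun y => by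
    simpa using ((hasDerivAt_id y).pow 2).const_sub 1
  refine ⟨?_, ?_⟩
  · filter_upwards [Ioo_mem_nhds hx.1 hx.2] with y hy
    have h2 := ((hpoly y).log (one_sub_pos hy).ne').div_const 2
    refine h2.congr_deriv ?_
    have := (one_sub_pos hy).ne'
    field_simp
  · have h2 := ((hasDerivAt_id x).div (hpoly x) (one_sub_pos hx).ne').neg
    refine h2.congr_deriv ?_
    simp only [id]
    ring

section

variable {w f : Fn} {t x : ℝ} {w1 f1 : ℝ → ℝ} {w2 f2 : ℝ}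

theorem jet_uu (hx : x ∈ Ioo (-1 : ℝ) 1) (hw : Jet (w t) w1 w2 x) (hf : Jet (f t) f1 f2 x) :
    Jet (uu w f t) (fun y => f1 y - w1 y + y / (1 - y ^ 2))
      (f2 - w2 + (1 + x ^ 2) / (1 - x ^ 2) ^ 2) x := by
  have h := (hf.sub hw).sub (jet_log hx)
  refine ⟨h.d1.mono fun y hy => ?_, ?_⟩
  · refine hy.congr_deriv ?_
    ring
  · refine (h.d2.congr_of_eventuallyEq (Eventually.of_forall fun y => ?_)).congr_deriv ?_
    · ring
    · ring

theorem jet_rho (hx : x ∈ Ioo (-1 : ℝ) 1) (hw : Jet (w t) w1 w2 x) (hf : Jet (f t) f1 f2 x) :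
    Jet (rho w f t) (fun y => (f1 y + w1 y - y / (1 - y ^ 2)) / 2)
      ((f2 + w2 - (1 + x ^ 2) / (1 - x ^ 2) ^ 2) / 2) x := by
  have h := (hf.add hw).add (jet_log hx)
  refine ⟨h.d1.mono fun y hy => ?_, ?_⟩
  · have h3 := (hy.sub_const (Real.log zeta0)).div_const 2
    refine h3.congr_deriv ?_
    ring
  · have h3 := h.d2.div_const 2
    refine (h3.congr_of_eventuallyEq (Eventually.of_forall fun y => ?_)).congr_deriv ?_
    · ring
    · ring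

theorem Ds_eq {H : Fn} {H1 : ℝ → ℝ} {H2 : ℝ} (hH : Jet (H t) H1 H2 x) :
    Ds w H t x = -(sx x * Real.exp (-w t x)) * H1 x := by
  unfold Ds Dx
  rw [hH.at.deriv]

theorem DsDs_eq (hx : x ∈ Ioo (-1 : ℝ) 1) (hw : Jet (w t) w1 w2 x) {H : Fn} {H1 : ℝ → ℝ} {H2 : ℝ}
    (hH : Jet (H t) H1 H2 x) :
    Ds w (Ds w H) t x = Real.exp (-2 * w t x) *
      ((1 - x ^ 2) * H2 - x * H1 x - (1 - x ^ 2) * w1 x * H1 x) := by
  have he : (Ds w H t) =ᶠ[𝓝 x] fun y => -(sx y * Real.exp (-w t y)) * H1 y := by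
    filter_upwards [hH.d1] with y hy
    unfold Ds Dx
    rw [hy.deriv]
  have hs := hasDerivAt_sx hx
  have hexp : HasDerivAt (fun y => Real.exp (-w t y)) (Real.exp (-w t x) * -w1 x) x :=
    (hw.at.neg).exp
  have hd : HasDerivAt (Ds w H t) (-(-x / sx x * Real.exp (-w t x) +
      sx x * (Real.exp (-w t x) * -w1 x)) * H1 x + -(sx x * Real.exp (-w t x)) * H2) x :=
    (((hs.mul hexp).neg).mul hH.d2).congr_of_eventuallyEq he
  have e1 : Ds w (Ds w H) t x = -(sx x * Real.exp (-w t x)) * deriv (Ds w H t) x := rfl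
  rw [e1, hd.deriv]
  have hs2 := sx_sq hx
  have hs0 := (sx_pos hx).ne'
  have e2 : Real.exp (-2 * w t x) = Real.exp (-w t x) * Real.exp (-w t x) := by
    rw [← Real.exp_add]
    ring_nf
  rw [e2, ← hs2]
  field_simp
  ring

/-- `ρ_s` -/
theorem rs_eq (hx : x ∈ Ioo (-1 : ℝ) 1) (hw : Jet (w t) w1 w2 x) (hf : Jet (f t) f1 f2 x) :
    rs w f t x = Real.exp (-w t x) * (x - (1 - x ^ 2) * (f1 x + w1 x)) / (2 * sx x) := by
  unfold rs
  rw [Ds_eq (jet_rho hx hw hf)]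
  have hs2 := sx_sq hx
  have hs0 := (sx_pos hx).ne'
  have h1 := (one_sub_pos hx).ne'
  rw [← hs2] at h1 ⊢
  field_simp
  ring

/-- `P` -/
theorem PP_eq (hx : x ∈ Ioo (-1 : ℝ) 1) (hw : Jet (w t) w1 w2 x) (hf : Jet (f t) f1 f2 x) :
    PP w f t x = -(Real.exp (-w t x) * (x + (1 - x ^ 2) * (f1 x - w1 x)) / sx x) := by
  unfold PP
  rw [Ds_eq (jet_uu hx hw hf)]
  have hs2 := sx_sq hx
  have hs0 := (sx_pos hx).ne'
  have h1 := (one_sub_pos hx).ne'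
  rw [← hs2] at h1 ⊢
  field_simp
  ring

theorem Lp_eq (hx : x ∈ Ioo (-1 : ℝ) 1) (hw : Jet (w t) w1 w2 x) (hf : Jet (f t) f1 f2 x)
    {H : Fn} {H1 : ℝ → ℝ} {H2 : ℝ} (hH : Jet (H t) H1 H2 x) :
    Lp w f H t x = Real.exp (-2 * w t x) *
      ((1 - x ^ 2) * H2 - 21 * x * H1 x + (1 - x ^ 2) * (19 * w1 x + 20 * f1 x) * H1 x) := by
  unfold Lp
  have h2 : Ds w (rho w f) t x = rs w f t x := rfl
  rw [DsDs_eq hx hw hH, h2, rs_eq hx hw hf, Ds_eq hH]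
  have hs2 := sx_sq hx
  have hs0 := (sx_pos hx).ne'
  have e2 : Real.exp (-2 * w t x) = Real.exp (-w t x) * Real.exp (-w t x) := by
    rw [← Real.exp_add]
    ring_nf
  rw [e2]
  field_simp
  ring

/-- `G` -/
theorem GG_eq (hx : x ∈ Ioo (-1 : ℝ) 1) (hw : Jet (w t) w1 w2 x) (hf : Jet (f t) f1 f2 x) :
    GG w f t x = 2 * (x + (1 - x ^ 2) * (f1 x - w1 x)) / (x - (1 - x ^ 2) * (f1 x + w1 x)) := by
  unfold GG
  rw [rs_eq hx hw hf, PP_eq hx hw hf]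
  have hs0 := (sx_pos hx).ne'
  have he := (Real.exp_pos (-w t x)).ne'
  rcases eq_or_ne (x - (1 - x ^ 2) * (f1 x + w1 x)) 0 with h | h
  · rw [h]
    simp
  · field_simp

end

section

variable (w f : Fn) {t x : ℝ}

theorem exp_half_log (hx : x ∈ Ioo (-1 : ℝ) 1) : Real.exp (Real.log (1 - x ^ 2) / 2) = sx x := by
  rw [Real.exp_half, Real.exp_log (one_sub_pos hx)]
  rfl

theorem exp_uu (hx : x ∈ Ioo (-1 : ℝ) 1) :
    Real.exp (uu w f t x) = Real.exp (f t x) / (Real.exp (w t x) * sx x) := by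
  unfold uu
  rw [Real.exp_sub, Real.exp_sub, exp_half_log hx, div_div]

theorem exp_neg_uu (hx : x ∈ Ioo (-1 : ℝ) 1) :
    Real.exp (-uu w f t x) = Real.exp (w t x) * sx x / Real.exp (f t x) := by
  rw [Real.exp_neg, exp_uu w f hx, inv_div]

theorem rr_sq (hx : x ∈ Ioo (-1 : ℝ) 1) :
    rr w f t x ^ 2 = Real.exp (f t x) * Real.exp (w t x) * sx x / zeta0 := by
  have hz : (0 : ℝ) < zeta0 := by unfold zeta0; norm_num
  unfold rr
  rw [← Real.exp_nat_mul]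
  have e : ((2 : ℕ) : ℝ) * rho w f t x =
      f t x + w t x + Real.log (1 - x ^ 2) / 2 - Real.log zeta0 := by
    unfold rho
    push_cast
    ring
  rw [e, Real.exp_sub, Real.exp_add, Real.exp_add, exp_half_log hx, Real.exp_log hz]

theorem sinh_div (hx : x ∈ Ioo (-1 : ℝ) 1) :
    78 * Real.sinh (uu w f t x) / rr w f t x ^ 2 =
      19 * (Real.exp (-2 * w t x) / (1 - x ^ 2) - Real.exp (-2 * f t x)) := by
  rw [Real.sinh_eq, exp_uu w f hx, exp_neg_uu w f hx, rr_sq w f hx]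
  have e1 : Real.exp (-2 * w t x) = (Real.exp (w t x) * Real.exp (w t x))⁻¹ := by
    rw [← Real.exp_add, ← Real.exp_neg]
    ring_nf
  have e2 : Real.exp (-2 * f t x) = (Real.exp (f t x) * Real.exp (f t x))⁻¹ := by
    rw [← Real.exp_add, ← Real.exp_neg]
    ring_nf
  rw [e1, e2, ← sx_sq hx]
  have hs0 := (sx_pos hx).ne'
  have hw := (Real.exp_pos (w t x)).ne'
  have hf := (Real.exp_pos (f t x)).ne'
  unfold zeta0
  field_simp
  ring

theorem cosh_div (hx : x ∈ Ioo (-1 : ℝ) 1) :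
    39 * Real.cosh (uu w f t x) / rr w f t x ^ 2 =
      19 / 2 * (Real.exp (-2 * w t x) / (1 - x ^ 2) + Real.exp (-2 * f t x)) := by
  rw [Real.cosh_eq, exp_uu w f hx, exp_neg_uu w f hx, rr_sq w f hx]
  have e1 : Real.exp (-2 * w t x) = (Real.exp (w t x) * Real.exp (w t x))⁻¹ := by
    rw [← Real.exp_add, ← Real.exp_neg]
    ring_nf
  have e2 : Real.exp (-2 * f t x) = (Real.exp (f t x) * Real.exp (f t x))⁻¹ := by
    rw [← Real.exp_add, ← Real.exp_neg]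
    ring_nf
  rw [e1, e2, ← sx_sq hx]
  have hs0 := (sx_pos hx).ne'
  have hw := (Real.exp_pos (w t x)).ne'
  have hf := (Real.exp_pos (f t x)).ne'
  unfold zeta0
  field_simp

end

/-! ### jets of a solution -/

section

variable {p : ℕ} {w f : Fn} {T t x : ℝ}

theorem smooth_jet {u : Fn} (hu : ContDiffOn ℝ ∞ (fun z : ℝ × ℝ => u z.1 z.2)
    (Ico 0 T ×ˢ Icc (-1) 1)) (ht : t ∈ Ico 0 T) (hx : x ∈ Ioo (-1 : ℝ) 1) :
    Jet (u t) (dx (u t)) (dx (dx (u t)) x) x := by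
  have key : ∀ y ∈ Icc (-1 : ℝ) 1, u t y = ext (el u hu) (y, t) := fun y hy =>
    (ext_el hu (mem_dom hy ht)).symm
  have k1 : ∀ y ∈ Icc (-1 : ℝ) 1, dx (u t) y = ext (dz (el u hu)) (y, t) := fun y hy =>
    dx_eq_ext _ hy ht key
  have k2 : ∀ y ∈ Icc (-1 : ℝ) 1, dx (dx (u t)) y = ext (dz (dz (el u hu))) (y, t) := fun y hy =>
    dx_eq_ext _ hy ht k1
  refine ⟨?_, ?_⟩
  · filter_upwards [Ioo_mem_nhds hx.1 hx.2] with y hy
    have hy' : y ∈ Icc (-1 : ℝ) 1 := ⟨hy.1.le, hy.2.le⟩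
    have h1 := hasDerivWithinAt_z (el u hu) hy' ht
    have h2 : HasDerivWithinAt (u t) (ext (dz (el u hu)) (y, t)) (Icc (-1) 1) y :=
      h1.congr (fun z hz => key z hz) (key y hy')
    rw [k1 y hy']
    exact h2.hasDerivAt (Icc_mem_nhds hy.1 hy.2)
  · have hy' : x ∈ Icc (-1 : ℝ) 1 := ⟨hx.1.le, hx.2.le⟩
    have h1 := hasDerivWithinAt_z (dz (el u hu)) hy' ht
    have h2 : HasDerivWithinAt (dx (u t)) (ext (dz (dz (el u hu))) (x, t)) (Icc (-1) 1) x :=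
      h1.congr (fun z hz => k1 z hz) (k1 x hy')
    rw [k2 x hy']
    exact h2.hasDerivAt (Icc_mem_nhds hx.1 hx.2)

/-- continuity of `u`, `u_x`, `u_xx` up to the tip, as functions of `(t,x)` -/
theorem smooth_cont {u : Fn} (hu : ContDiffOn ℝ ∞ (fun z : ℝ × ℝ => u z.1 z.2)
    (Ico 0 T ×ˢ Icc (-1) 1)) :
    ContinuousOn (fun z : ℝ × ℝ => u z.1 z.2) (Ico 0 T ×ˢ Icc (-1) 1) ∧
    ContinuousOn (fun z : ℝ × ℝ => dx (u z.1) z.2) (Ico 0 T ×ˢ Icc (-1) 1) ∧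
    ContinuousOn (fun z : ℝ × ℝ => dx (dx (u z.1)) z.2) (Ico 0 T ×ˢ Icc (-1) 1) := by
  have key : ∀ t ∈ Ico 0 T, ∀ y ∈ Icc (-1 : ℝ) 1, u t y = ext (el u hu) (y, t) :=
    fun t ht y hy => (ext_el hu (mem_dom hy ht)).symm
  have k1 : ∀ t ∈ Ico 0 T, ∀ y ∈ Icc (-1 : ℝ) 1, dx (u t) y = ext (dz (el u hu)) (y, t) :=
    fun t ht y hy => dx_eq_ext _ hy ht (key t ht)
  have k2 : ∀ t ∈ Ico 0 T, ∀ y ∈ Icc (-1 : ℝ) 1,
      dx (dx (u t)) y = ext (dz (dz (el u hu))) (y, t) :=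
    fun t ht y hy => dx_eq_ext _ hy ht (k1 t ht)
  have hsw : ∀ g : smoothAlg T,
      ContinuousOn (fun z : ℝ × ℝ => ext g (z.2, z.1)) (Ico 0 T ×ˢ Icc (-1) 1) := fun g =>
    (ext_continuousOn g).comp (continuous_snd.prodMk continuous_fst).continuousOn
      (fun z hz => mem_dom hz.2 hz.1)
  refine ⟨hu.continuousOn, ?_, ?_⟩
  · exact (hsw _).congr fun z hz => k1 z.1 hz.1 z.2 hz.2
  · exact (hsw _).congr fun z hz => k2 z.1 hz.1 z.2 hz.2

variable (h : ConfSol 20 w f T)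

include h

theorem jw (ht : t ∈ Ico 0 T) (hx : x ∈ Ioo (-1 : ℝ) 1) :
    Jet (w t) (dx (w t)) (dx (dx (w t)) x) x := smooth_jet h.smooth_w ht hx

theorem jf (ht : t ∈ Ico 0 T) (hx : x ∈ Ioo (-1 : ℝ) 1) :
    Jet (f t) (dx (f t)) (dx (dx (f t)) x) x := smooth_jet h.smooth_f ht hx

theorem VV_eq (ht : t ∈ Ico 0 T) (hx : x ∈ Ioo (-1 : ℝ) 1) :
    VV w f t x = ric2 20 (w t) (f t) x - ric1 20 (w t) (f t) x := by
  unfold VV
  rw [Lp_eq hx (jw h ht hx) (jf h ht hx) (jet_uu hx (jw h ht hx) (jf h ht hx)), sinh_div w f hx]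
  unfold ric2 ric1 lap gx
  have h1 := (one_sub_pos hx).ne'
  push_cast
  field_simp
  ring

theorem yy_eq (ht : t ∈ Ico 0 T) (hx : x ∈ Ioo (-1 : ℝ) 1) :
    yy w f t x = -(ric1 20 (w t) (f t) x + ric2 20 (w t) (f t) x) / 2 := by
  unfold yy
  rw [Lp_eq hx (jw h ht hx) (jf h ht hx) (jet_rho hx (jw h ht hx) (jf h ht hx)), cosh_div w f hx]
  unfold ric2 ric1 lap gx
  have h1 := (one_sub_pos hx).ne'
  push_cast
  field_simp
  ring

theorem E0_eq (ht : t ∈ Ico 0 T) (hx : x ∈ Ioo (-1 : ℝ) 1) :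
    E0 w f t x = ric0 20 (w t) (f t) x := by
  unfold E0
  have e1 : Ds w (rs w f) t x = Ds w (Ds w (rho w f)) t x := rfl
  rw [e1, DsDs_eq hx (jw h ht hx) (jet_rho hx (jw h ht hx) (jf h ht hx)),
    rs_eq hx (jw h ht hx) (jf h ht hx), PP_eq hx (jw h ht hx) (jf h ht hx)]
  unfold ric0 ric2 lap gx
  have hs0 := (sx_pos hx).ne'
  have hs2 := sx_sq hx
  have h1 := (one_sub_pos hx).ne'
  have e2 : Real.exp (-2 * w t x) = Real.exp (-w t x) ^ 2 := by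
    rw [← Real.exp_nat_mul]
    ring_nf
  rw [e2, neg_sq, div_pow, div_pow, mul_pow 2 (sx x), hs2]
  push_cast
  field_simp
  ring

theorem RR_eq (ht : t ∈ Ico 0 T) (hx : x ∈ Ioo (-1 : ℝ) 1) :
    RR w f t x = scal 20 (w t) (f t) x := by
  unfold RR scal
  rw [E0_eq h ht hx, yy_eq h ht hx]
  push_cast
  ring

end

end Vale.Agent.P244.ST.Tip
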