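import Vale.Agent.P244.ST.A.EvLem
import Vale.Agent.P244.ST.A.TipJet
import Vale.Agent.P244.ST.PureF

/-!
# P244-ST, block A: the bootstrap is a closed condition (helper936)
-/

open Set Filter Topology
open scoped ContDiff

namespace Vale.Agent.P244.ST.Clo

open Vale.Agent.P244.ST.Tip

/-! ### continuity in `(t,x)` of the geometric quantities on `[0,T) × (-1,1)` -/

section cont

variable {w f : Fn} {T : ℝ} (h : ConfSol 20 w f T)

theorem sub_strip : Ico 0 T ×ˢ Ioo (-1 : ℝ) 1 ⊆ Ico 0 T ×ˢ Icc (-1 : ℝ) 1 :=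
  prod_mono_right Ioo_subset_Icc_self

theorem ne_log {z : ℝ × ℝ} (hz : z ∈ Ico 0 T ×ˢ Ioo (-1 : ℝ) 1) : (1 - z.2 ^ 2) ≠ 0 :=
  (one_sub_pos hz.2).ne'

theorem cont_log : ContinuousOn (fun z : ℝ × ℝ => Real.log (1 - z.2 ^ 2))
    (Ico 0 T ×ˢ Ioo (-1 : ℝ) 1) :=
  ContinuousOn.log (by fun_prop) fun _ hz => ne_log hz

theorem cont_sx : ContinuousOn (fun z : ℝ × ℝ => sx z.2) (Ico 0 T ×ˢ Ioo (-1 : ℝ) 1) := by
  unfold sx
  fun_prop

include h

theorem cw : ContinuousOn (fun z : ℝ × ℝ => w z.1 z.2) (Ico 0 T ×ˢ Ioo (-1 : ℝ) 1) :=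
  (smooth_cont h.smooth_w).1.mono sub_strip

theorem cf : ContinuousOn (fun z : ℝ × ℝ => f z.1 z.2) (Ico 0 T ×ˢ Ioo (-1 : ℝ) 1) :=
  (smooth_cont h.smooth_f).1.mono sub_strip

theorem cont_uu : ContinuousOn (fun z : ℝ × ℝ => uu w f z.1 z.2)
    (Ico 0 T ×ˢ Ioo (-1 : ℝ) 1) := by
  unfold uu
  exact ((cf h).sub (cw h)).sub (cont_log.div_const 2)

theorem cont_rho : ContinuousOn (fun z : ℝ × ℝ => rho w f z.1 z.2)
    (Ico 0 T ×ˢ Ioo (-1 : ℝ) 1) := by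
  unfold rho
  exact ((((cf h).add (cw h)).add (cont_log.div_const 2)).sub continuousOn_const).div_const 2

theorem cont_rr : ContinuousOn (fun z : ℝ × ℝ => rr w f z.1 z.2)
    (Ico 0 T ×ˢ Ioo (-1 : ℝ) 1) := by
  unfold rr
  exact (cont_rho h).rexp

theorem cont_yv (hT : T ≤ 1) : ContinuousOn (fun z : ℝ × ℝ => yv w f z.1 z.2)
    (Ico 0 T ×ˢ Ioo (-1 : ℝ) 1) := by
  unfold yv tau
  refine (cont_rr h).div (by fun_prop) fun z hz => ?_
  have : 0 < 1 - z.1 := by linarith only [hT, hz, hz.1.2]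
  exact (Real.sqrt_pos.2 this).ne'

theorem cont_dx : ContinuousOn (fun z : ℝ × ℝ => dx (w z.1) z.2) (Ico 0 T ×ˢ Ioo (-1 : ℝ) 1) ∧
    ContinuousOn (fun z : ℝ × ℝ => dx (f z.1) z.2) (Ico 0 T ×ˢ Ioo (-1 : ℝ) 1) ∧
    ContinuousOn (fun z : ℝ × ℝ => dx (dx (w z.1)) z.2) (Ico 0 T ×ˢ Ioo (-1 : ℝ) 1) ∧
    ContinuousOn (fun z : ℝ × ℝ => dx (dx (f z.1)) z.2) (Ico 0 T ×ˢ Ioo (-1 : ℝ) 1) :=
  ⟨(smooth_cont h.smooth_w).2.1.mono sub_strip, (smooth_cont h.smooth_f).2.1.mono sub_strip,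
    (smooth_cont h.smooth_w).2.2.mono sub_strip, (smooth_cont h.smooth_f).2.2.mono sub_strip⟩

theorem cont_rs : ContinuousOn (fun z : ℝ × ℝ => rs w f z.1 z.2)
    (Ico 0 T ×ˢ Ioo (-1 : ℝ) 1) := by
  obtain ⟨c1, c2, c3, c4⟩ := cont_dx h
  have c0 := cw h
  have cs := cont_sx (T := T)
  refine ContinuousOn.congr (f := fun z : ℝ × ℝ => Real.exp (-w z.1 z.2) *
    (z.2 - (1 - z.2 ^ 2) * (dx (f z.1) z.2 + dx (w z.1) z.2)) / (2 * sx z.2)) ?_
    fun z hz => rs_eq hz.2 (jw h hz.1 hz.2) (jf h hz.1 hz.2)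
  refine ContinuousOn.div (by fun_prop) (by fun_prop) fun z hz => ?_
  have := sx_pos hz.2
  positivity

theorem cont_PP : ContinuousOn (fun z : ℝ × ℝ => PP w f z.1 z.2)
    (Ico 0 T ×ˢ Ioo (-1 : ℝ) 1) := by
  obtain ⟨c1, c2, c3, c4⟩ := cont_dx h
  have c0 := cw h
  have cs := cont_sx (T := T)
  refine ContinuousOn.congr (f := fun z : ℝ × ℝ => -(Real.exp (-w z.1 z.2) *
    (z.2 + (1 - z.2 ^ 2) * (dx (f z.1) z.2 - dx (w z.1) z.2)) / sx z.2)) ?_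
    fun z hz => PP_eq hz.2 (jw h hz.1 hz.2) (jf h hz.1 hz.2)
  refine (ContinuousOn.div (by fun_prop) cs fun z hz => (sx_pos hz.2).ne').neg

theorem cont_ric : ContinuousOn (fun z : ℝ × ℝ => ric1 20 (w z.1) (f z.1) z.2)
      (Ico 0 T ×ˢ Ioo (-1 : ℝ) 1) ∧
    ContinuousOn (fun z : ℝ × ℝ => ric2 20 (w z.1) (f z.1) z.2) (Ico 0 T ×ˢ Ioo (-1 : ℝ) 1) ∧
    ContinuousOn (fun z : ℝ × ℝ => ric0 20 (w z.1) (f z.1) z.2) (Ico 0 T ×ˢ Ioo (-1 : ℝ) 1) := by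
  obtain ⟨c1, c2, c3, c4⟩ := cont_dx h
  have c0 := cw h
  have c0' := cf h
  unfold ric0 ric1 ric2 lap gx
  refine ⟨?_, ?_, ?_⟩ <;> fun_prop

theorem cont_VV : ContinuousOn (fun z : ℝ × ℝ => VV w f z.1 z.2)
    (Ico 0 T ×ˢ Ioo (-1 : ℝ) 1) := by
  obtain ⟨c1, c2, c3⟩ := cont_ric h
  exact (c2.sub c1).congr fun z hz => VV_eq h hz.1 hz.2

theorem cont_RR : ContinuousOn (fun z : ℝ × ℝ => RR w f z.1 z.2)
    (Ico 0 T ×ˢ Ioo (-1 : ℝ) 1) := by
  obtain ⟨c1, c2, c3⟩ := cont_ric h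
  refine ContinuousOn.congr (f := fun z : ℝ × ℝ => scal 20 (w z.1) (f z.1) z.2) ?_
    fun z hz => RR_eq h hz.1 hz.2
  unfold scal
  fun_prop

end cont

/-! ### the closure principle -/

/-- limits in time at a fixed point -/
theorem tend_s {I : Set ℝ} {T t x : ℝ} (ht : t ∈ Ioo 0 T) (hx : x ∈ I) {H : ℝ → ℝ → ℝ}
    (hH : ContinuousOn (fun z : ℝ × ℝ => H z.1 z.2) (Ico 0 T ×ˢ I)) :
    Tendsto (fun s => H s x) (𝓝[<] t) (𝓝 (H t x)) := by
  have h1 : ContinuousWithinAt (fun z : ℝ × ℝ => H z.1 z.2) (Ico 0 T ×ˢ I) (t, x) :=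
    hH _ ⟨⟨ht.1.le, ht.2⟩, hx⟩
  have h2 : Tendsto (fun s : ℝ => (s, x)) (𝓝[<] t) (𝓝[Ico 0 T ×ˢ I] (t, x)) := by
    refine tendsto_nhdsWithin_iff.2 ⟨?_, ?_⟩
    · exact ((continuous_id.prodMk continuous_const).tendsto' t (t, x) rfl).mono_left
        nhdsWithin_le_nhds
    · filter_upwards [Ioo_mem_nhdsLT ht.1] with s hs
      exact ⟨⟨hs.1.le, hs.2.trans ht.2⟩, hx⟩
  exact h1.tendsto.comp h2

/-- limits in space at a fixed time -/
theorem tend_x {I : Set ℝ} {T t x : ℝ} (ht : t ∈ Ico 0 T) (hx : x ∈ I) {H : ℝ → ℝ → ℝ}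
    (hH : ContinuousOn (fun z : ℝ × ℝ => H z.1 z.2) (Ico 0 T ×ˢ I)) :
    Tendsto (fun y => H t y) (𝓝[I] x) (𝓝 (H t x)) := by
  have h1 : ContinuousWithinAt (fun z : ℝ × ℝ => H z.1 z.2) (Ico 0 T ×ˢ I) (t, x) :=
    hH _ ⟨ht, hx⟩
  have h2 : Tendsto (fun y : ℝ => (t, y)) (𝓝[I] x) (𝓝[Ico 0 T ×ˢ I] (t, x)) := by
    refine tendsto_nhdsWithin_iff.2 ⟨?_, ?_⟩
    · exact ((continuous_const.prodMk continuous_id).tendsto' x (t, x) rfl).mono_left
        nhdsWithin_le_nhds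
    · filter_upwards [self_mem_nhdsWithin] with s hs
      exact ⟨ht, hs⟩
  exact h1.tendsto.comp h2

/-- the closure principle -/
theorem clo {I : Set ℝ} {T t x0 : ℝ} (ht : t ∈ Ioo 0 T) (hx0 : x0 ∈ I) {F : Filter ℝ}
    [F.NeBot] (hF : F ≤ 𝓝[I] x0) {H1 H2 : ℝ → ℝ → ℝ}
    (c1 : ContinuousOn (fun z : ℝ × ℝ => H1 z.1 z.2) (Ico 0 T ×ˢ I))
    (c2 : ContinuousOn (fun z : ℝ × ℝ => H2 z.1 z.2) (Ico 0 T ×ˢ I)) {C : ℝ → ℝ → Prop}
    (hC : ∀ᶠ x in F, ∀ᶠ s in 𝓝[<] t, C s x)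
    (hyp : ∀ s ∈ Ico 0 t, ∀ x ∈ I, C s x → H1 s x ≤ H2 s x) : H1 t x0 ≤ H2 t x0 := by
  have htT : t ∈ Ico 0 T := ⟨ht.1.le, ht.2⟩
  have step : ∀ᶠ x in F, H1 t x ≤ H2 t x := by
    have hI : ∀ᶠ x in F, x ∈ I := hF self_mem_nhdsWithin
    filter_upwards [hC, hI] with x hx hxI
    refine le_of_tendsto_of_tendsto (tend_s ht hxI c1) (tend_s ht hxI c2) ?_
    filter_upwards [hx, Ioo_mem_nhdsLT ht.1] with s hs hs'
    exact hyp s ⟨hs'.1.le, hs'.2⟩ x hxI hs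
  exact le_of_tendsto_of_tendsto ((tend_x htT hx0 c1).mono_left hF)
    ((tend_x htT hx0 c2).mono_left hF) step

/-! ### monotonicity of `y` in `x` -/

section anti

variable {w f : Fn} {T t : ℝ} (h : ConfSol 20 w f T) (Q : Qual w f T)

include h Q

theorem rho_anti (ht : t ∈ Ico 0 T) : StrictAntiOn (rho w f t) (Ico 0 1) := by
  refine strictAntiOn_of_deriv_neg (convex_Ico 0 1) ?_ ?_
  · have h1 := cont_rho h
    have h2 : ContinuousOn (fun x : ℝ => ((t, x) : ℝ × ℝ)) (Ico 0 1) := by fun_prop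
    exact h1.comp h2 fun x hx => ⟨ht, by linarith only [hx, hx.1], hx.2⟩
  · intro x hx
    rw [interior_Ico] at hx
    have h1 := Q.rs_pos t ht x hx
    have h2 : rs w f t x = -(sx x * Real.exp (-w t x)) * deriv (rho w f t) x := rfl
    have h3 : 0 < sx x * Real.exp (-w t x) :=
      mul_pos (sx_pos ⟨by linarith only [hx, hx.1], hx.2⟩) (Real.exp_pos _)
    by_contra h4
    push Not at h4
    nlinarith only [h1, h2, h3, h4]

theorem yv_anti (hT : T ≤ 1) (ht : t ∈ Ico 0 T) : StrictAntiOn (yv w f t) (Ico 0 1) := by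
  intro x hx y hy hxy
  have h1 := rho_anti h Q ht hx hy hxy
  unfold yv rr
  have h2 : 0 < tau t := by unfold tau; linarith only [hT, ht, ht.2]
  have h3 := Real.sqrt_pos.2 h2
  exact div_lt_div_of_pos_right (Real.exp_lt_exp.2 h1) h3

end anti

/-! ### the bubble function extended by zero -/

/-- `g` extended by zero -/
noncomputable def gz (g : ℝ → ℝ) (u : ℝ) : ℝ := if 0 < u then g u else 0

theorem gz_pos {g : ℝ → ℝ} {u : ℝ} (hu : 0 < u) : gz g u = g u := if_pos hu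

theorem gz_bound {g : ℝ → ℝ} (hg : IsBub g) (u : ℝ) : |gz g u| ≤ kap * |Real.tanh u| := by
  unfold gz
  have hk : 0 < kap := by
    have h1 := hg.lower 1 one_pos
    have h2 := hg.upper 1 one_pos
    have h3 : 0 < Real.tanh 1 := PureF.tanh_pos one_pos
    by_contra h4
    push Not at h4
    nlinarith only [h1, h2, h3, h4]
  split_ifs with h
  · have h1 := PureF.g_pos hg h
    have h2 := hg.upper u h
    rw [abs_of_pos h1, abs_of_pos (PureF.tanh_pos h)]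
    exact h2.le
  · rw [abs_zero]
    positivity

theorem continuous_tanh : Continuous Real.tanh :=
  continuous_iff_continuousAt.2 fun u => (PureF.hasDerivAt_tanh u).continuousAt

theorem continuous_gz {g : ℝ → ℝ} (hg : IsBub g) : Continuous (gz g) := by
  rw [continuous_iff_continuousAt]
  intro u
  rcases lt_trichotomy u 0 with h | h | h
  · have h1 : gz g =ᶠ[𝓝 u] fun _ => 0 := by
      filter_upwards [Iio_mem_nhds h] with v hv
      exact if_neg (not_lt.2 (le_of_lt hv))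
    exact (continuousAt_const.congr h1.symm)
  · subst h
    have h1 : gz g 0 = 0 := if_neg (lt_irrefl 0)
    rw [ContinuousAt, h1]
    refine squeeze_zero_norm (a := fun u => kap * |Real.tanh u|) (fun v => ?_) ?_
    · rw [Real.norm_eq_abs]
      exact gz_bound hg v
    · have h2 : Continuous fun u => kap * |Real.tanh u| := continuous_const.mul continuous_tanh.abs
      have h3 := h2.tendsto 0
      simpa using h3
  · have h1 : gz g =ᶠ[𝓝 u] g := by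
      filter_upwards [Ioi_mem_nhds h] with v hv
      exact if_pos hv
    exact (PureF.g_deriv hg h).continuousAt.congr h1.symm

/-! ### continuity of the barriers -/

section bar

variable {w f : Fn} {T : ℝ} (h : ConfSol 20 w f T) (hT : T ≤ 1) {q : Par}

theorem tau_pos' (hT : T ≤ 1) {z : ℝ × ℝ} (hz : z ∈ Ico 0 T ×ˢ Ioo (-1 : ℝ) 1) :
    0 < tau z.1 := by
  unfold tau
  linarith only [hT, hz, hz.1.2]

theorem cont_tau : ContinuousOn (fun z : ℝ × ℝ => tau z.1) (Ico 0 T ×ˢ Ioo (-1 : ℝ) 1) := by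
  unfold tau
  fun_prop

include hT in
theorem cont_A (q : Par) : ContinuousOn (fun z : ℝ × ℝ => q.A z.1)
    (Ico 0 T ×ˢ Ioo (-1 : ℝ) 1) := by
  unfold Par.A
  exact continuousOn_const.mul
    (cont_tau.rpow_const fun z hz => Or.inl (tau_pos' hT hz).ne')

include hT in
theorem cont_T0 (q : Par) : ContinuousOn (fun z : ℝ × ℝ => q.T0 z.1)
    (Ico 0 T ×ˢ Ioo (-1 : ℝ) 1) := by
  unfold Par.T0
  exact (cont_A hT q).mul continuousOn_const

include hT in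
theorem T0_pos (he : 0 < q.eps) (hr : 0 < q.rho0) {z : ℝ × ℝ}
    (hz : z ∈ Ico 0 T ×ˢ Ioo (-1 : ℝ) 1) : 0 < q.T0 z.1 := by
  have h1 := tau_pos' hT hz
  unfold Par.T0 Par.A
  positivity

include h hT

theorem cont_frac (he : 0 < q.eps) (hr : 0 < q.rho0) :
    ContinuousOn (fun z : ℝ × ℝ => (Real.tanh (uu w f z.1 z.2) / q.T0 z.1) ^ aa)
    (Ico 0 T ×ˢ Ioo (-1 : ℝ) 1) := by
  have c1 := (continuous_tanh.comp_continuousOn (cont_uu h))
  have c2 := cont_T0 (T := T) hT q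
  refine ContinuousOn.rpow_const (ContinuousOn.div c1 c2 fun z hz =>
    (T0_pos hT he hr hz).ne') fun z hz => Or.inr ?_
  unfold aa
  norm_num

theorem cont_fb (he : 0 < q.eps) (hr : 0 < q.rho0) :
    ContinuousOn (fun z : ℝ × ℝ => q.fb z.1 (uu w f z.1 z.2)) (Ico 0 T ×ˢ Ioo (-1 : ℝ) 1) := by
  unfold Par.fb
  refine ((continuousOn_const.div cont_tau fun z hz => (tau_pos' hT hz).ne').mul
    (cont_frac h hT he hr)).mul ?_
  exact (Real.continuous_cosh.comp_continuousOn (cont_uu h)).rpow_const fun z hz =>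
    Or.inl (Real.cosh_pos _).ne'

theorem cont_Vb (he : 0 < q.eps) (hr : 0 < q.rho0) :
    ContinuousOn (fun z : ℝ × ℝ => q.Vb z.1 (uu w f z.1 z.2)) (Ico 0 T ×ˢ Ioo (-1 : ℝ) 1) := by
  unfold Par.Vb
  refine (((continuousOn_const.div cont_tau fun z hz => (tau_pos' hT hz).ne').mul
    (cont_frac h hT he hr)).mul (continuous_tanh.comp_continuousOn (cont_uu h))).mul ?_
  exact (Real.continuous_cosh.comp_continuousOn (cont_uu h)).rpow_const fun z hz =>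
    Or.inl (Real.cosh_pos _).ne'

theorem cont_RB (q : Par) :
    ContinuousOn (fun z : ℝ × ℝ => q.RB z.1 (rr w f z.1 z.2) (uu w f z.1 z.2))
      (Ico 0 T ×ˢ Ioo (-1 : ℝ) 1) := by
  unfold Par.RB
  have c1 := cont_rr h
  have c2 := (Real.continuous_cosh.comp_continuousOn (cont_uu h))
  have c3 := cont_tau (T := T)
  refine ContinuousOn.add (by fun_prop) (((((continuousOn_const.mul (c1.pow 2)).mul
    (c2.sub continuousOn_const)).mul continuousOn_const)).mul ?_)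
  refine (c3.add ((c1.pow 2).div_const 100)).rpow_const fun z hz => Or.inl ?_
  have h1 := tau_pos' hT hz
  have h2 := sq_nonneg (rr w f z.1 z.2)
  have h3 : 0 < tau z.1 + rr w f z.1 z.2 ^ 2 / 100 := by linarith only [h1, h2]
  exact h3.ne'

omit hT in
theorem cont_rpow (a : ℝ) : ContinuousOn (fun z : ℝ × ℝ => (rr w f z.1 z.2) ^ a)
    (Ico 0 T ×ˢ Ioo (-1 : ℝ) 1) :=
  (cont_rr h).rpow_const fun _ _ => Or.inl (Real.exp_pos _).ne'

omit hT in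
theorem cont_UPV (q : Par) :
    ContinuousOn (fun z : ℝ × ℝ => q.UB z.1 (rr w f z.1 z.2)) (Ico 0 T ×ˢ Ioo (-1 : ℝ) 1) ∧
    ContinuousOn (fun z : ℝ × ℝ => q.PB z.1 (rr w f z.1 z.2)) (Ico 0 T ×ˢ Ioo (-1 : ℝ) 1) ∧
    ContinuousOn (fun z : ℝ × ℝ => q.VB z.1 (rr w f z.1 z.2)) (Ico 0 T ×ˢ Ioo (-1 : ℝ) 1) := by
  unfold Par.UB Par.PB Par.VB tau
  have d1 := cont_rpow h bb
  have d2 := cont_rpow h (bb - 2)
  have d3 := cont_rpow h (bb - 1)
  have d4 := cont_rpow h (bb - 3)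
  have d5 := cont_rpow h (bb - 4)
  refine ⟨?_, ?_, ?_⟩
  · fun_prop
  · fun_prop
  · fun_prop

end bar

/-! ### `u > 0` is preserved in the limit -/

theorem sinh_le_mul_cosh {u : ℝ} (hu : 0 ≤ u) : Real.sinh u ≤ u * Real.cosh u := by
  have hd : ∀ v : ℝ, HasDerivAt (fun v => v * Real.cosh v - Real.sinh v)
      (v * Real.sinh v) v := fun v => by
    have := ((hasDerivAt_id v).mul (Real.hasDerivAt_cosh v)).sub (Real.hasDerivAt_sinh v)
    refine this.congr_deriv ?_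
    simp
  have hm : MonotoneOn (fun v => v * Real.cosh v - Real.sinh v) (Ici 0) := by
    refine monotoneOn_of_deriv_nonneg (convex_Ici 0)
      (fun v _ => (hd v).continuousAt.continuousWithinAt)
      (fun v _ => (hd v).differentiableAt.differentiableWithinAt) fun v hv => ?_
    rw [interior_Ici] at hv
    rw [(hd v).deriv]
    exact mul_nonneg (le_of_lt hv) (Real.sinh_nonneg_iff.2 (le_of_lt hv))
  have h1 := hm (mem_Ici.2 le_rfl) (mem_Ici.2 hu) hu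
  simp at h1
  linarith only [h1]

/-- near the tip `u` is large -/
theorem uu_tip {w f : Fn} {T t : ℝ} (h : ConfSol 20 w f T) (ht : t ∈ Ico 0 T) :
    ∀ᶠ x in 𝓝[<] (1 : ℝ), 0 < uu w f t x := by
  have hc : ContinuousOn (fun x => f t x - w t x) (Icc (-1) 1) := by
    have c1 := (smooth_cont h.smooth_w).1
    have c2 := (smooth_cont h.smooth_f).1
    have c3 : ContinuousOn (fun x : ℝ => ((t, x) : ℝ × ℝ)) (Icc (-1) 1) := by fun_prop
    exact (c2.comp c3 fun x hx => ⟨ht, hx⟩).sub (c1.comp c3 fun x hx => ⟨ht, hx⟩)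
  obtain ⟨M, hM⟩ := (isCompact_Icc.image_of_continuousOn hc).bddBelow
  have h1 : Tendsto (fun x : ℝ => 1 - x ^ 2) (𝓝[<] (1 : ℝ)) (𝓝[>] 0) := by
    refine tendsto_nhdsWithin_iff.2 ⟨?_, ?_⟩
    · have : Tendsto (fun x : ℝ => 1 - x ^ 2) (𝓝 (1 : ℝ)) (𝓝 (1 - 1 ^ 2)) := by
        apply Continuous.tendsto
        fun_prop
      norm_num at this
      exact this.mono_left nhdsWithin_le_nhds
    · filter_upwards [Ioo_mem_nhdsLT (show (0 : ℝ) < 1 by norm_num)] with x hx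
      have := hx.1
      have := hx.2
      change 0 < 1 - x ^ 2
      nlinarith
  have h2 := Real.tendsto_log_nhdsGT_zero.comp h1
  have h3 := h2.eventually (eventually_lt_atBot (2 * M))
  filter_upwards [h3, Ioo_mem_nhdsLT (show (0 : ℝ) < 1 by norm_num)] with x hx hx'
  have h4 : M ≤ f t x - w t x := hM ⟨x, ⟨by linarith only [hx', hx'.1], hx'.2.le⟩, rfl⟩
  simp only [Function.comp] at hx
  unfold uu
  linarith only [hx, h4]

theorem pos_of_bound {w f : Fn} {T t x0 : ℝ} (h : ConfSol 20 w f T) (Q : Qual w f T)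
    (ht : t ∈ Ico 0 T) (hx0 : x0 ∈ Ioo (0 : ℝ) 1) {B : ℝ → ℝ}
    (hB : ContinuousOn B (Ico x0 1))
    (h0 : ∀ x ∈ Ico x0 1, 0 ≤ uu w f t x)
    (h1 : ∀ x ∈ Ico x0 1, |GG w f t x| ≤ B x * Real.tanh (uu w f t x)) :
    0 < uu w f t x0 := by
  by_contra hne
  have hu0 : uu w f t x0 = 0 := le_antisymm (not_lt.1 hne) (h0 x0 ⟨le_rfl, hx0.2⟩)
  obtain ⟨b, hb, hb2⟩ : ∃ b, b ∈ Ioo x0 1 ∧ 0 < uu w f t b :=
    (Filter.Eventually.and (Ioo_mem_nhdsLT hx0.2) (uu_tip h ht)).exists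
  have hsub : ∀ x ∈ Icc x0 b, x ∈ Ioo (-1 : ℝ) 1 := fun x hx =>
    ⟨by linarith only [hx0, hx, hx.1, hx0.1], by linarith only [hb, hx, hx.2, hb.2]⟩
  have hsub' : ∀ x ∈ Icc x0 b, x ∈ Ico x0 1 := fun x hx => ⟨hx.1, by linarith only [hb, hx, hx.2, hb.2]⟩
  have sl : ∀ H : ℝ → ℝ → ℝ, ContinuousOn (fun z : ℝ × ℝ => H z.1 z.2)
      (Ico 0 T ×ˢ Ioo (-1 : ℝ) 1) → ContinuousOn (H t) (Icc x0 b) := by
    intro H hH
    have c3 : ContinuousOn (fun x : ℝ => ((t, x) : ℝ × ℝ)) (Icc x0 b) := by fun_prop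
    exact hH.comp c3 fun x hx => ⟨ht, hsub x hx⟩
  set r1 : ℝ → ℝ := fun x => (dx (f t) x + dx (w t) x - x / (1 - x ^ 2)) / 2 with hr1
  set u1 : ℝ → ℝ := fun x => dx (f t) x - dx (w t) x + x / (1 - x ^ 2) with hu1
  have cr1 : ContinuousOn r1 (Icc x0 b) := by
    obtain ⟨c1, c2, -, -⟩ := cont_dx h
    have d1 := sl (fun t x => dx (w t) x) c1
    have d2 := sl (fun t x => dx (f t) x) c2
    have d3 : ContinuousOn (fun x : ℝ => x / (1 - x ^ 2)) (Icc x0 b) :=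
      continuousOn_id.div (by fun_prop) fun x hx => (one_sub_pos (hsub x hx)).ne'
    exact ((d2.add d1).sub d3).div_const 2
  have cK : ContinuousOn (fun x => |B x| * |r1 x|) (Icc x0 b) :=
    ((hB.mono fun x hx => hsub' x hx).abs).mul cr1.abs
  obtain ⟨K, hK⟩ := (isCompact_Icc.image_of_continuousOn cK).bddAbove
  have hder : ∀ x ∈ Icc x0 b, HasDerivAt (uu w f t) (u1 x) x := fun x hx =>
    (jet_uu (hsub x hx) (jw h ht (hsub x hx)) (jf h ht (hsub x hx))).at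
  have hG : ∀ x ∈ Icc x0 b, u1 x = -GG w f t x * r1 x := by
    intro x hx
    have hx1 : x ∈ Ioo (0 : ℝ) 1 := ⟨by linarith only [hx0, hx, hx.1, hx0.1], by linarith only [hb, hx, hx.2, hb.2]⟩
    have e1 : PP w f t x = -(sx x * Real.exp (-w t x)) * u1 x :=
      Ds_eq (jet_uu (hsub x hx) (jw h ht (hsub x hx)) (jf h ht (hsub x hx)))
    have e2 : rs w f t x = -(sx x * Real.exp (-w t x)) * r1 x :=
      Ds_eq (jet_rho (hsub x hx) (jw h ht (hsub x hx)) (jf h ht (hsub x hx)))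
    have e3 := Q.rs_pos t ht x hx1
    have e4 : 0 < sx x * Real.exp (-w t x) :=
      mul_pos (sx_pos (hsub x hx)) (Real.exp_pos _)
    have e5 : r1 x ≠ 0 := by
      intro e
      rw [e2, e] at e3
      simp at e3
    have e6 := (sx_pos (hsub x hx)).ne'
    unfold GG
    rw [e1, e2]
    field_simp
  have key := norm_le_gronwallBound_of_norm_deriv_right_le (f := uu w f t) (f' := u1) (δ := 0)
    (K := K) (ε := 0) (a := x0) (b := b) (fun x hx => (hder x hx).continuousAt.continuousWithinAt)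
    (fun x hx => (hder x ⟨hx.1, hx.2.le⟩).hasDerivWithinAt) (by rw [hu0, norm_zero])
    (fun x hx => by
      have hx' : x ∈ Icc x0 b := ⟨hx.1, hx.2.le⟩
      have g0 := h0 x (hsub' x hx')
      have g1 := h1 x (hsub' x hx')
      have g2 : Real.tanh (uu w f t x) ≤ uu w f t x := by
        rcases g0.eq_or_lt with g | g
        · rw [← g]; simp
        · have := Real.sinh_pos_iff.2 g
          rw [Real.tanh_eq_sinh_div_cosh, div_le_iff₀ (Real.cosh_pos _)]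
          exact sinh_le_mul_cosh g.le
      have g3 : 0 ≤ Real.tanh (uu w f t x) := by
        rcases g0.eq_or_lt with g | g
        · rw [← g]; simp
        · exact (PureF.tanh_pos g).le
      have g4 : |B x| * |r1 x| ≤ K := hK ⟨x, hx', rfl⟩
      rw [hG x hx', Real.norm_eq_abs, Real.norm_eq_abs, abs_mul, abs_neg, abs_of_nonneg g0,
        add_zero]
      calc |GG w f t x| * |r1 x| ≤ (|B x| * Real.tanh (uu w f t x)) * |r1 x| := by
            refine mul_le_mul_of_nonneg_right (g1.trans ?_) (abs_nonneg _)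
            exact mul_le_mul_of_nonneg_right (le_abs_self _) g3
        _ = (|B x| * |r1 x|) * Real.tanh (uu w f t x) := by ring
        _ ≤ (|B x| * |r1 x|) * uu w f t x := mul_le_mul_of_nonneg_left g2 (by positivity)
        _ ≤ K * uu w f t x := mul_le_mul_of_nonneg_right g4 g0)
    b ⟨hb.1.le, le_rfl⟩
  rw [gronwallBound_ε0_δ0, Real.norm_eq_abs, abs_of_pos hb2] at key
  linarith only [hb2, key]

/-! ### closedness of the bootstrap -/

section main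

variable {K : ℝ} {q : Par} {g : ℝ → ℝ} {w f : Fn} {T t : ℝ}

theorem sub_Ico : Ico 0 T ×ˢ Ico (0 : ℝ) 1 ⊆ Ico 0 T ×ˢ Ioo (-1 : ℝ) 1 :=
  prod_mono_right fun x hx => ⟨by linarith only [hx, hx.1], hx.2⟩

theorem sub_Ioo : Ico 0 T ×ˢ Ioo (0 : ℝ) 1 ⊆ Ico 0 T ×ˢ Ioo (-1 : ℝ) 1 :=
  prod_mono_right fun x hx => ⟨by linarith only [hx, hx.1], hx.2⟩

theorem cont_GG (h : ConfSol 20 w f T) (Q : Qual w f T) :
    ContinuousOn (fun z : ℝ × ℝ => GG w f z.1 z.2) (Ico 0 T ×ˢ Ioo (0 : ℝ) 1) := by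
  unfold GG
  exact (((cont_PP h).mono sub_Ioo).div ((cont_rs h).mono sub_Ioo)
    fun z hz => (Q.rs_pos z.1 hz.1 z.2 hz.2).ne').neg

/-- `fb` is nonnegative -/
theorem fb_nonneg (hB : 0 ≤ q.B) (he : 0 < q.eps) (hr : 0 < q.rho0) (hT : T ≤ 1)
    (ht : t ∈ Ico 0 T) {u : ℝ} (hu : 0 ≤ u) : 0 ≤ q.fb t u := by
  have h1 : 0 < tau t := by unfold tau; linarith only [hT, ht, ht.2]
  have h2 : 0 < q.T0 t := by
    unfold Par.T0 Par.A
    positivity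
  have h3 : 0 ≤ Real.tanh u := by
    rcases hu.eq_or_lt with g | g
    · rw [← g]; simp
    · exact (PureF.tanh_pos g).le
  have h4 := Real.cosh_pos u
  unfold Par.fb
  have h5 : 0 ≤ (Real.tanh u / q.T0 t) ^ aa := Real.rpow_nonneg (div_nonneg h3 h2.le) _
  have h6 : 0 ≤ (Real.cosh u) ^ (-(1 - aa)) := Real.rpow_nonneg h4.le _
  have h7 : 0 ≤ q.B / tau t := div_nonneg hB h1.le
  exact mul_nonneg (mul_nonneg h7 h5) h6

/-- the equator stays far away in the limit -/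
theorem equator_closed (h : ConfSol 20 w f T) (ht : t ∈ Ioo 0 T)
    (hN : ∀ s ∈ Ico 0 t, q.N / 4 ≤ rr w f s 0) : q.N / 4 ≤ rr w f t 0 := by
  refine clo (I := Ico (0 : ℝ) 1) (x0 := 0) ht ⟨le_rfl, one_pos⟩ (F := pure 0)
    (pure_le_nhdsWithin ⟨le_rfl, one_pos⟩) (H1 := fun _ _ => q.N / 4) (H2 := rr w f)
    continuousOn_const ((cont_rr h).mono sub_Ico) (C := fun _ x => x = 0)
    (eventually_pure.2 (Eventually.of_forall fun _ => rfl)) ?_
  intro s hs x _ hx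
  rw [hx]
  exact hN s hs

theorem yv_zero (hN : q.N / 4 ≤ rr w f t 0) (ht : t ∈ Ico 0 T) (hT : T ≤ 1) :
    q.N / 4 ≤ yv w f t 0 := by
  have h1 : 0 < tau t := by unfold tau; linarith only [ht, hT, ht.2]
  have h2 : tau t ≤ 1 := by unfold tau; linarith only [ht, ht.1]
  have h3 : Real.sqrt (tau t) ≤ 1 := Real.sqrt_le_one.2 h2
  have h4 := Real.sqrt_pos.2 h1
  have h5 : 0 < rr w f t 0 := Real.exp_pos _
  unfold yv
  rw [le_div_iff₀ h4]
  nlinarith only [hN, h3, h4, h5]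

/-- `(b1)`-type inequality in multiplied form -/
theorem b1_mul (hg : IsBub g) {s x : ℝ} (hu : 0 < uu w f s x)
    (hf : |ff g w f s x| ≤ q.fb s (uu w f s x)) :
    |gz g (uu w f s x) - GG w f s x| ≤
      rr w f s x ^ 2 * q.fb s (uu w f s x) * gz g (uu w f s x) := by
  have h1 := PureF.g_pos hg hu
  have h0 : rr w f s x ≠ 0 := (Real.exp_pos _).ne'
  have h2 : 0 < rr w f s x ^ 2 := pow_pos (Real.exp_pos _) 2
  rw [gz_pos hu]
  have h3 : g (uu w f s x) - GG w f s x =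
      rr w f s x ^ 2 * ff g w f s x * g (uu w f s x) := by
    unfold ff ee
    field_simp
  rw [h3, abs_mul, abs_mul, abs_of_pos h1, abs_of_pos h2]
  exact mul_le_mul_of_nonneg_right (mul_le_mul_of_nonneg_left hf h2.le) h1.le

theorem b1_unmul (hg : IsBub g) {s x : ℝ} (hu : 0 < uu w f s x)
    (hf : |gz g (uu w f s x) - GG w f s x| ≤
      rr w f s x ^ 2 * q.fb s (uu w f s x) * gz g (uu w f s x)) :
    |ff g w f s x| ≤ q.fb s (uu w f s x) := by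
  have h1 := PureF.g_pos hg hu
  have h0 : rr w f s x ≠ 0 := (Real.exp_pos _).ne'
  have h2 : 0 < rr w f s x ^ 2 := pow_pos (Real.exp_pos _) 2
  rw [gz_pos hu] at hf
  have h3 : g (uu w f s x) - GG w f s x =
      rr w f s x ^ 2 * ff g w f s x * g (uu w f s x) := by
    unfold ff ee
    field_simp
  rw [h3, abs_mul, abs_mul, abs_of_pos h1, abs_of_pos h2] at hf
  have h4 := le_of_mul_le_mul_right hf h1
  exact le_of_mul_le_mul_left h4 h2

section filters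

variable (h : ConfSol 20 w f T) (Q : Qual w f T) (hT : T ≤ 1) (ht : t ∈ Ioo 0 T)
  {x0 : ℝ}

include h Q hT ht

theorem low_filter (hx0 : x0 ∈ Ioo (0 : ℝ) 1) {c : ℝ} (hy : yv w f t x0 ≤ c) :
    ∀ᶠ x in 𝓝[>] x0, ∀ᶠ s in 𝓝[<] t, yv w f s x ≤ c := by
  have htT : t ∈ Ico 0 T := ⟨ht.1.le, ht.2⟩
  filter_upwards [Ioo_mem_nhdsGT hx0.2] with x hx
  have h1 : yv w f t x < c := lt_of_lt_of_le
    (yv_anti h Q hT htT ⟨hx0.1.le, hx0.2⟩ ⟨by linarith only [hx0, hx, hx0.1, hx.1], hx.2⟩ hx.1) hy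
  have h2 := tend_s ht (I := Ioo (0 : ℝ) 1) ⟨hx0.1.trans hx.1, hx.2⟩
    ((cont_yv h hT).mono sub_Ioo)
  exact (h2.eventually_lt_const h1).mono fun _ hs => hs.le

/-- the filter for the middle region -/
theorem mid_filter (hx0 : x0 ∈ Ico (0 : ℝ) 1) {c d : ℝ} (hcd : c < d)
    (h0 : c < yv w f t 0) (hy1 : c ≤ yv w f t x0) (hy2 : yv w f t x0 ≤ d) :
    ∃ F : Filter ℝ, F.NeBot ∧ F ≤ 𝓝[Ico (0 : ℝ) 1] x0 ∧
        ∀ᶠ x in F, ∀ᶠ s in 𝓝[<] t, c ≤ yv w f s x ∧ yv w f s x ≤ d := by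
  have htT : t ∈ Ico 0 T := ⟨ht.1.le, ht.2⟩
  have hanti := yv_anti h Q hT htT
  have hyI := (cont_yv h hT).mono (sub_Ico (T := T))
  have conc : ∀ x ∈ Ico (0 : ℝ) 1, c < yv w f t x → yv w f t x < d →
      ∀ᶠ s in 𝓝[<] t, c ≤ yv w f s x ∧ yv w f s x ≤ d := by
    intro x hx h1 h2
    have h3 := tend_s ht (I := Ico (0 : ℝ) 1) hx hyI
    filter_upwards [h3.eventually_const_lt h1, h3.eventually_lt_const h2] with s hs hs'
    exact ⟨hs.le, hs'.le⟩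
  rcases hy1.eq_or_lt with hy | hy
  · have hx00 : 0 < x0 := by
      rcases hx0.1.eq_or_lt with h00 | h00
      · rw [← h00] at hy
        linarith only [h0, hy]
      · exact h00
    have hF : 𝓝[<] x0 ≤ 𝓝[Ico (0 : ℝ) 1] x0 :=
      nhdsWithin_le_of_mem (mem_of_superset (Ioo_mem_nhdsLT hx00) fun x hx =>
        ⟨hx.1.le, hx.2.trans hx0.2⟩)
    refine ⟨𝓝[<] x0, inferInstance, hF, ?_⟩
    have h3 := (tend_x htT (I := Ico (0 : ℝ) 1) hx0 hyI).mono_left hF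
    filter_upwards [Ioo_mem_nhdsLT hx00, h3.eventually_lt_const
      (show yv w f t x0 < d by linarith only [hcd, hy])] with x hx hx'
    have hxI : x ∈ Ico (0 : ℝ) 1 := ⟨hx.1.le, hx.2.trans hx0.2⟩
    exact conc x hxI (by rw [hy]; exact hanti hxI hx0 hx.2) hx'
  · have hF : 𝓝[>] x0 ≤ 𝓝[Ico (0 : ℝ) 1] x0 :=
      nhdsWithin_le_of_mem (mem_of_superset (Ioo_mem_nhdsGT hx0.2) fun x hx =>
        ⟨hx0.1.trans hx.1.le, hx.2⟩)
    refine ⟨𝓝[>] x0, inferInstance, hF, ?_⟩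
    have h3 := (tend_x htT (I := Ico (0 : ℝ) 1) hx0 hyI).mono_left hF
    filter_upwards [Ioo_mem_nhdsGT hx0.2, h3.eventually_const_lt hy] with x hx hx'
    have hxI : x ∈ Ico (0 : ℝ) 1 := ⟨hx0.1.trans hx.1.le, hx.2⟩
    exact conc x hxI hx' (lt_of_lt_of_le (hanti hx0 hxI hx.1) hy2)

/-- the filter for the outer region -/
theorem out_filter (hx0 : x0 ∈ Ico (0 : ℝ) 1) {c : ℝ}
    (h0 : c < yv w f t 0) (hy1 : c ≤ yv w f t x0) :
    ∃ F : Filter ℝ, F.NeBot ∧ F ≤ 𝓝[Ico (0 : ℝ) 1] x0 ∧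
        ∀ᶠ x in F, ∀ᶠ s in 𝓝[<] t, c ≤ yv w f s x := by
  have htT : t ∈ Ico 0 T := ⟨ht.1.le, ht.2⟩
  have hanti := yv_anti h Q hT htT
  have hyI := (cont_yv h hT).mono (sub_Ico (T := T))
  have conc : ∀ x ∈ Ico (0 : ℝ) 1, c < yv w f t x →
      ∀ᶠ s in 𝓝[<] t, c ≤ yv w f s x := by
    intro x hx h1
    have h3 := tend_s ht (I := Ico (0 : ℝ) 1) hx hyI
    exact (h3.eventually_const_lt h1).mono fun s hs => hs.le
  rcases hx0.1.eq_or_lt with h00 | h00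
  · refine ⟨pure x0, inferInstance, pure_le_nhdsWithin hx0, eventually_pure.2 ?_⟩
    refine conc x0 hx0 ?_
    rw [← h00]
    exact h0
  · have hF : 𝓝[<] x0 ≤ 𝓝[Ico (0 : ℝ) 1] x0 :=
      nhdsWithin_le_of_mem (mem_of_superset (Ioo_mem_nhdsLT h00) fun x hx =>
        ⟨hx.1.le, hx.2.trans hx0.2⟩)
    refine ⟨𝓝[<] x0, inferInstance, hF, ?_⟩
    filter_upwards [Ioo_mem_nhdsLT h00] with x hx
    have hxI : x ∈ Ico (0 : ℝ) 1 := ⟨hx.1.le, hx.2.trans hx0.2⟩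
    exact conc x hxI (lt_of_le_of_lt hy1 (hanti hxI hx0 hx.2))

end filters

theorem le_filter {x0 : ℝ} (hx0 : x0 ∈ Ioo (0 : ℝ) 1) : 𝓝[>] x0 ≤ 𝓝[Ioo (0 : ℝ) 1] x0 :=
  nhdsWithin_le_of_mem (mem_of_superset (Ioo_mem_nhdsGT hx0.2)
    (Ioo_subset_Ioo_left hx0.1.le))

theorem gz_nonneg (hg : IsBub g) {u : ℝ} (hu : 0 ≤ u) : 0 ≤ gz g u := by
  rcases hu.eq_or_lt with g1 | g1
  · rw [← g1]; unfold gz; simp
  · rw [gz_pos g1]; exact (PureF.g_pos hg g1).le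

theorem tanh_nonneg' {u : ℝ} (hu : 0 ≤ u) : 0 ≤ Real.tanh u := by
  rcases hu.eq_or_lt with g1 | g1
  · rw [← g1]; simp
  · exact (PureF.tanh_pos g1).le

/-- the pointwise consequence of the closed form of `(b1)` -/
theorem G_bound (hg : IsBub g) {x F : ℝ} (hu : 0 ≤ uu w f t x) (hF : 0 ≤ F)
    (e1 : |gz g (uu w f t x) - GG w f t x| ≤ rr w f t x ^ 2 * F * gz g (uu w f t x)) :
    |GG w f t x| ≤ kap * (1 + rr w f t x ^ 2 * F) * Real.tanh (uu w f t x) := by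
  have e2 := gz_bound hg (uu w f t x)
  have e3 := tanh_nonneg' hu
  have e4 := gz_nonneg hg hu
  rw [abs_of_nonneg e4, abs_of_nonneg e3] at e2
  have e6 : 0 ≤ rr w f t x ^ 2 * F := by positivity
  have e7 : |GG w f t x| ≤ |gz g (uu w f t x)| + |gz g (uu w f t x) - GG w f t x| := by
    have := abs_sub (gz g (uu w f t x)) (gz g (uu w f t x) - GG w f t x)
    simpa using this
  rw [abs_of_nonneg e4] at e7
  calc |GG w f t x| ≤ (1 + rr w f t x ^ 2 * F) * gz g (uu w f t x) := by linarith only [e1, e7]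
    _ ≤ (1 + rr w f t x ^ 2 * F) * (kap * Real.tanh (uu w f t x)) :=
        mul_le_mul_of_nonneg_left e2 (by positivity)
    _ = _ := by ring

section b1

variable (hg : IsBub g) (h : ConfSol 20 w f T) (Q : Qual w f T) (hT : T ≤ 1)
  (ht : t ∈ Ioo 0 T) (hB : ∀ s ∈ Ico 0 t, ∀ x ∈ Ico (0 : ℝ) 1, BootAt q g w f s x)
  {x0 : ℝ}

include h Q hT ht hB

theorem closed0 (hx0 : x0 ∈ Ioo (0 : ℝ) 1) (hy : yv w f t x0 ≤ q.rho0) : 0 ≤ uu w f t x0 :=
  clo (I := Ioo (0 : ℝ) 1) ht hx0 (le_filter hx0) (H1 := fun _ _ => 0) (H2 := uu w f)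
      continuousOn_const ((cont_uu h).mono sub_Ioo) (low_filter h Q hT ht hx0 hy)
      fun s hs x hx hyx => ((hB s hs x ⟨hx.1.le, hx.2⟩).b1 hx.1 hyx).1.le

include hg in
theorem closed1 (he : 0 < q.eps) (hr0 : 0 < q.rho0) (hx0 : x0 ∈ Ioo (0 : ℝ) 1)
    (hy : yv w f t x0 ≤ q.rho0) :
      |gz g (uu w f t x0) - GG w f t x0| ≤
      rr w f t x0 ^ 2 * q.fb t (uu w f t x0) * gz g (uu w f t x0) := by
  have cg : ContinuousOn (fun z : ℝ × ℝ => gz g (uu w f z.1 z.2)) (Ico 0 T ×ˢ Ioo (0 : ℝ) 1) :=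
    (continuous_gz hg).comp_continuousOn ((cont_uu h).mono sub_Ioo)
  have c1 : ContinuousOn (fun z : ℝ × ℝ => |gz g (uu w f z.1 z.2) - GG w f z.1 z.2|)
      (Ico 0 T ×ˢ Ioo (0 : ℝ) 1) := (cg.sub (cont_GG h Q)).abs
  have c2 : ContinuousOn (fun z : ℝ × ℝ => rr w f z.1 z.2 ^ 2 * q.fb z.1 (uu w f z.1 z.2) *
      gz g (uu w f z.1 z.2)) (Ico 0 T ×ˢ Ioo (0 : ℝ) 1) :=
    ((((cont_rr h).mono sub_Ioo).pow 2).mul ((cont_fb h hT he hr0).mono sub_Ioo)).mul cg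
  exact clo (I := Ioo (0 : ℝ) 1) ht hx0 (le_filter hx0)
      (H1 := fun s x => |gz g (uu w f s x) - GG w f s x|)
      (H2 := fun s x => rr w f s x ^ 2 * q.fb s (uu w f s x) * gz g (uu w f s x))
      c1 c2 (low_filter h Q hT ht hx0 hy) fun s hs x hx hyx => by
        have hb := (hB s hs x ⟨hx.1.le, hx.2⟩).b1 hx.1 hyx
        exact b1_mul hg hb.1 hb.2

include hg in
theorem posu (hBp : 0 ≤ q.B) (he : 0 < q.eps) (hr0 : 0 < q.rho0) (hx0 : x0 ∈ Ioo (0 : ℝ) 1)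
    (hy : yv w f t x0 ≤ q.rho0) : 0 < uu w f t x0 := by
  have htT : t ∈ Ico 0 T := ⟨ht.1.le, ht.2⟩
  have hy' : ∀ x ∈ Ico x0 1, yv w f t x ≤ q.rho0 := fun x hx =>
    ((yv_anti h Q hT htT).antitoneOn ⟨hx0.1.le, hx0.2⟩
      ⟨by linarith only [hx0, hx, hx0.1, hx.1], hx.2⟩ hx.1).trans hy
  have hI : ∀ x ∈ Ico x0 1, x ∈ Ioo (0 : ℝ) 1 := fun x hx =>
    ⟨by linarith only [hx0, hx, hx0.1, hx.1], hx.2⟩
  have c1 : ContinuousOn (fun z : ℝ × ℝ =>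
      kap * (1 + rr w f z.1 z.2 ^ 2 * q.fb z.1 (uu w f z.1 z.2)))
      (Ico 0 T ×ˢ Ioo (-1 : ℝ) 1) := by
    have d1 : ContinuousOn (fun z : ℝ × ℝ => q.fb z.1 (uu w f z.1 z.2))
      (Ico 0 T ×ˢ Ioo (-1 : ℝ) 1) := cont_fb h hT he hr0
    have d2 : ContinuousOn (fun z : ℝ × ℝ => rr w f z.1 z.2 ^ 2)
      (Ico 0 T ×ˢ Ioo (-1 : ℝ) 1) := (cont_rr h).pow 2
    exact continuousOn_const.mul (continuousOn_const.add (d2.mul d1))
  have c3 : ContinuousOn (fun x : ℝ => ((t, x) : ℝ × ℝ)) (Ico x0 1) := by fun_prop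
  have hc : ContinuousOn (fun x => kap * (1 + rr w f t x ^ 2 * q.fb t (uu w f t x)))
      (Ico x0 1) :=
    ContinuousOn.comp (g := fun z : ℝ × ℝ =>
      kap * (1 + rr w f z.1 z.2 ^ 2 * q.fb z.1 (uu w f z.1 z.2)))
      (f := fun x : ℝ => ((t, x) : ℝ × ℝ)) c1 c3 fun x hx =>
      ⟨htT, by linarith only [hx0, hx, hx0.1, hx.1], hx.2⟩
  have hu : ∀ x ∈ Ico x0 1, 0 ≤ uu w f t x := fun x hx =>
    closed0 h Q hT ht hB (hI x hx) (hy' x hx)
  have hG : ∀ x ∈ Ico x0 1, |GG w f t x| ≤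
      kap * (1 + rr w f t x ^ 2 * q.fb t (uu w f t x)) * Real.tanh (uu w f t x) :=
    fun x hx => G_bound hg (hu x hx) (fb_nonneg (t := t) hBp he hr0 hT htT (hu x hx))
      (closed1 hg h Q hT ht hB he hr0 (hI x hx) (hy' x hx))
  exact pos_of_bound h Q htT hx0 hc hu hG

theorem closed2 (he : 0 < q.eps) (hr0 : 0 < q.rho0) (hx0 : x0 ∈ Ioo (0 : ℝ) 1)
    (hy : yv w f t x0 ≤ q.rho0) : |VV w f t x0| ≤ q.Vb t (uu w f t x0) := by
  have c1 : ContinuousOn (fun z : ℝ × ℝ => |VV w f z.1 z.2|) (Ico 0 T ×ˢ Ioo (0 : ℝ) 1) :=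
    ((cont_VV h).mono sub_Ioo).abs
  have c2 : ContinuousOn (fun z : ℝ × ℝ => q.Vb z.1 (uu w f z.1 z.2))
    (Ico 0 T ×ˢ Ioo (0 : ℝ) 1) := (cont_Vb h hT he hr0).mono sub_Ioo
  exact clo (I := Ioo (0 : ℝ) 1) ht hx0 (le_filter hx0) (H1 := fun s x => |VV w f s x|)
      (H2 := fun s x => q.Vb s (uu w f s x)) c1 c2 (low_filter h Q hT ht hx0 hy)
      fun s hs x hx hyx => (hB s hs x ⟨hx.1.le, hx.2⟩).b2 hx.1 hyx

omit Q in
theorem closed3 (hx0 : x0 ∈ Ico (0 : ℝ) 1) :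
    RR w f t x0 ≤ q.RB t (rr w f t x0) (uu w f t x0) := by
  have c1 : ContinuousOn (fun z : ℝ × ℝ => RR w f z.1 z.2) (Ico 0 T ×ˢ Ico (0 : ℝ) 1) :=
    (cont_RR h).mono sub_Ico
  have c2 : ContinuousOn (fun z : ℝ × ℝ => q.RB z.1 (rr w f z.1 z.2) (uu w f z.1 z.2))
    (Ico 0 T ×ˢ Ico (0 : ℝ) 1) := (cont_RB h hT q).mono sub_Ico
  exact clo (I := Ico (0 : ℝ) 1) ht hx0 (F := pure x0) (pure_le_nhdsWithin hx0)
      (H1 := RR w f) (H2 := fun s x => q.RB s (rr w f s x) (uu w f s x))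
      c1 c2 (C := fun _ _ => True)
      (eventually_pure.2 (Eventually.of_forall fun _ => trivial)) fun s hs x hx _ =>
        (hB s hs x hx).b3

theorem closed4 (hx0 : x0 ∈ Ico (0 : ℝ) 1) (hr : q.rho0 < 25) (h0 : 25 < yv w f t 0)
    (hy1 : q.rho0 ≤ yv w f t x0) (hy2 : yv w f t x0 ≤ 25) :
    |uu w f t x0| ≤ q.MU * q.A t ∧ |PP w f t x0| ≤ q.MP * q.A t / Real.sqrt (tau t) ∧
      |VV w f t x0| ≤ q.MV * q.A t / tau t := by
  obtain ⟨F, hF1, hF2, hF3⟩ := mid_filter h Q hT ht hx0 hr (hr.trans h0) hy1 hy2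
  have cA : ContinuousOn (fun z : ℝ × ℝ => q.A z.1) (Ico 0 T ×ˢ Ioo (-1 : ℝ) 1) :=
    cont_A hT q
  have ctau := cont_tau (T := T)
  have a1 : ContinuousOn (fun z : ℝ × ℝ => |uu w f z.1 z.2|) (Ico 0 T ×ˢ Ico (0 : ℝ) 1) :=
    ((cont_uu h).mono sub_Ico).abs
  have a2 : ContinuousOn (fun z : ℝ × ℝ => |PP w f z.1 z.2|) (Ico 0 T ×ˢ Ico (0 : ℝ) 1) :=
    ((cont_PP h).mono sub_Ico).abs
  have a3 : ContinuousOn (fun z : ℝ × ℝ => |VV w f z.1 z.2|) (Ico 0 T ×ˢ Ico (0 : ℝ) 1) :=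
    ((cont_VV h).mono sub_Ico).abs
  have b1 : ContinuousOn (fun z : ℝ × ℝ => q.MU * q.A z.1) (Ico 0 T ×ˢ Ico (0 : ℝ) 1) :=
    (continuousOn_const.mul cA).mono sub_Ico
  have b2 : ContinuousOn (fun z : ℝ × ℝ => q.MP * q.A z.1 / Real.sqrt (tau z.1))
      (Ico 0 T ×ˢ Ico (0 : ℝ) 1) :=
    ((continuousOn_const.mul cA).div ctau.sqrt
      fun z hz => (Real.sqrt_pos.2 (tau_pos' hT hz)).ne').mono sub_Ico
  have b3 : ContinuousOn (fun z : ℝ × ℝ => q.MV * q.A z.1 / tau z.1)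
      (Ico 0 T ×ˢ Ico (0 : ℝ) 1) :=
    ((continuousOn_const.mul cA).div ctau fun z hz => (tau_pos' hT hz).ne').mono sub_Ico
  refine ⟨?_, ?_, ?_⟩
  · exact clo ht hx0 hF2 (H1 := fun s x => |uu w f s x|) (H2 := fun s _ => q.MU * q.A s)
      a1 b1 hF3 fun s hs x hx hyx => ((hB s hs x hx).b4 hyx.1 hyx.2).1
  · exact clo ht hx0 hF2 (H1 := fun s x => |PP w f s x|)
      (H2 := fun s _ => q.MP * q.A s / Real.sqrt (tau s)) a2 b2 hF3
      fun s hs x hx hyx => ((hB s hs x hx).b4 hyx.1 hyx.2).2.1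
  · exact clo ht hx0 hF2 (H1 := fun s x => |VV w f s x|)
      (H2 := fun s _ => q.MV * q.A s / tau s) a3 b3 hF3
      fun s hs x hx hyx => ((hB s hs x hx).b4 hyx.1 hyx.2).2.2

theorem closed5 (hx0 : x0 ∈ Ico (0 : ℝ) 1) (h0 : 25 < yv w f t 0)
    (hy1 : 25 ≤ yv w f t x0) :
    |uu w f t x0| ≤ q.UB t (rr w f t x0) ∧ |PP w f t x0| ≤ q.PB t (rr w f t x0) ∧
      |VV w f t x0| ≤ q.VB t (rr w f t x0) := by
  obtain ⟨F, hF1, hF2, hF3⟩ := out_filter h Q hT ht hx0 h0 hy1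
  obtain ⟨c1, c2, c3⟩ := cont_UPV h q
  have a1 : ContinuousOn (fun z : ℝ × ℝ => |uu w f z.1 z.2|) (Ico 0 T ×ˢ Ico (0 : ℝ) 1) :=
    ((cont_uu h).mono sub_Ico).abs
  have a2 : ContinuousOn (fun z : ℝ × ℝ => |PP w f z.1 z.2|) (Ico 0 T ×ˢ Ico (0 : ℝ) 1) :=
    ((cont_PP h).mono sub_Ico).abs
  have a3 : ContinuousOn (fun z : ℝ × ℝ => |VV w f z.1 z.2|) (Ico 0 T ×ˢ Ico (0 : ℝ) 1) :=
    ((cont_VV h).mono sub_Ico).abs
  refine ⟨?_, ?_, ?_⟩
  · exact clo ht hx0 hF2 (H1 := fun s x => |uu w f s x|)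
      (H2 := fun s x => q.UB s (rr w f s x)) a1
      (c1.mono sub_Ico) hF3 fun s hs x hx hyx => ((hB s hs x hx).b5 hyx).1
  · exact clo ht hx0 hF2 (H1 := fun s x => |PP w f s x|)
      (H2 := fun s x => q.PB s (rr w f s x)) a2
      (c2.mono sub_Ico) hF3 fun s hs x hx hyx => ((hB s hs x hx).b5 hyx).2.1
  · exact clo ht hx0 hF2 (H1 := fun s x => |VV w f s x|)
      (H2 := fun s x => q.VB s (rr w f s x)) a3
      (c3.mono sub_Ico) hF3 fun s hs x hx hyx => ((hB s hs x hx).b5 hyx).2.2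

end b1

/-- **The bootstrap is a closed condition.** -/
theorem boot_closed (hK : 101 ≤ K) (hg : IsBub g) (hq : ParPos K q) (h : ConfSol 20 w f T)
    (Q : Qual w f T) (hT : T ≤ 1) (ht : t ∈ Ioo 0 T)
    (hB : ∀ s ∈ Ico 0 t, ∀ x ∈ Ico (0 : ℝ) 1, BootAt q g w f s x)
    (hN : ∀ s ∈ Ico 0 t, q.N / 4 ≤ rr w f s 0) :
    (∀ x ∈ Ico (0 : ℝ) 1, BootAt q g w f t x) ∧ q.N / 4 ≤ rr w f t 0 := by
  have htT : t ∈ Ico 0 T := ⟨ht.1.le, ht.2⟩
  have hN' := equator_closed h ht hN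
  have hy0 := yv_zero hN' htT hT
  have hNK := hq.N
  have hr0 := hq.rho0
  have hr1 : q.rho0 ≤ 1 := hq.rho0'.trans (by
    rw [div_le_one (by linarith only [hK])]
    linarith only [hK])
  have he := hq.eps
  have hBp : 0 ≤ q.B := by linarith only [hK, hq, hq.B]
  refine ⟨fun x0 hx0 => ⟨?_, ?_, ?_, ?_, ?_⟩, hN'⟩
  · intro hx hy
    have hI : x0 ∈ Ioo (0 : ℝ) 1 := ⟨hx, hx0.2⟩
    have hp := posu hg h Q hT ht hB hBp he hr0 hI hy
    exact ⟨hp, b1_unmul hg hp (closed1 hg h Q hT ht hB he hr0 hI hy)⟩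
  · exact fun hx hy => closed2 h Q hT ht hB he hr0 ⟨hx, hx0.2⟩ hy
  · exact closed3 h hT ht hB hx0
  · exact fun hy1 hy2 => closed4 h Q hT ht hB hx0 (by linarith only [hr1]) (by linarith only [hK, hy0, hNK]) hy1 hy2
  · exact fun hy1 => closed5 h Q hT ht hB hx0 (by linarith only [hK, hy0, hNK]) hy1

end main

end Vale.Agent.P244.ST.Clo
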