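import Vale.Agent.P244.ST.Iface

/-! P244, assembly A: the nested quantifier `Ev` (helper460). -/

open Set Filter
open scoped ContDiff Topology

namespace Vale.Agent.P244.ST

theorem Ev.mono {C D : Par → Prop} (h : Ev C) (hCD : ∀ q, C q → D q) : Ev D := by
  obtain ⟨B₀, h⟩ := h
  refine ⟨B₀, fun B hB => ?_⟩
  obtain ⟨x, hx, h⟩ := h B hB
  refine ⟨x, hx, fun rho0 h1 => ?_⟩
  obtain ⟨x, h⟩ := h rho0 h1
  refine ⟨x, fun BV h1 => ?_⟩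
  obtain ⟨x, h⟩ := h BV h1
  refine ⟨x, fun MU h1 => ?_⟩
  obtain ⟨x, h⟩ := h MU h1
  refine ⟨x, fun MP h1 => ?_⟩
  obtain ⟨x, h⟩ := h MP h1
  refine ⟨x, fun MV h1 => ?_⟩
  obtain ⟨x, h⟩ := h MV h1
  refine ⟨x, fun CU h1 => ?_⟩
  obtain ⟨x, h⟩ := h CU h1
  refine ⟨x, fun CP h1 => ?_⟩
  obtain ⟨x, h⟩ := h CP h1
  refine ⟨x, fun CV h1 => ?_⟩
  obtain ⟨x, h⟩ := h CV h1
  refine ⟨x, fun GR h1 => ?_⟩
  obtain ⟨x, hx, h⟩ := h GR h1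
  refine ⟨x, hx, fun sg h1 => ?_⟩
  obtain ⟨x, hx, h⟩ := h sg h1
  refine ⟨x, hx, fun d0 h1 => ?_⟩
  obtain ⟨x, hx, h⟩ := h d0 h1
  refine ⟨x, hx, fun rb h1 => ?_⟩
  obtain ⟨x, h⟩ := h rb h1
  refine ⟨x, fun N h1 => ?_⟩
  obtain ⟨x, hx, h⟩ := h N h1
  refine ⟨x, hx, fun eps h1 => ?_⟩
  exact hCD _ (h eps h1)

/-- one step of large type -/
theorem large_and {P Q : ℝ → Prop} (hP : ∃ B₀ : ℝ, ∀ B ≥ B₀, P B) (hQ : ∃ B₀ : ℝ, ∀ B ≥ B₀, Q B) :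
    ∃ B₀ : ℝ, ∀ B ≥ B₀, P B ∧ Q B := by
  obtain ⟨a, ha⟩ := hP
  obtain ⟨b, hb⟩ := hQ
  exact ⟨max a b, fun B hB => ⟨ha B ((le_max_left _ _).trans hB), hb B ((le_max_right _ _).trans hB)⟩⟩

/-- one step of small type -/
theorem small_and {P Q : ℝ → Prop} (hP : ∃ B₀ > (0 : ℝ), ∀ B ∈ Ioc 0 B₀, P B)
    (hQ : ∃ B₀ > (0 : ℝ), ∀ B ∈ Ioc 0 B₀, Q B) :
    ∃ B₀ > (0 : ℝ), ∀ B ∈ Ioc 0 B₀, P B ∧ Q B := by
  obtain ⟨a, ha0, ha⟩ := hP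
  obtain ⟨b, hb0, hb⟩ := hQ
  exact ⟨min a b, lt_min ha0 hb0, fun B hB => ⟨ha B ⟨hB.1, hB.2.trans (min_le_left _ _)⟩,
    hb B ⟨hB.1, hB.2.trans (min_le_right _ _)⟩⟩⟩

theorem large_mono {P Q : ℝ → Prop} (hP : ∃ B₀ : ℝ, ∀ B ≥ B₀, P B) (h : ∀ B, P B → Q B) :
    ∃ B₀ : ℝ, ∀ B ≥ B₀, Q B := by
  obtain ⟨a, ha⟩ := hP
  exact ⟨a, fun B hB => h B (ha B hB)⟩

theorem small_mono {P Q : ℝ → Prop} (hP : ∃ B₀ > (0 : ℝ), ∀ B ∈ Ioc 0 B₀, P B)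
    (h : ∀ B, P B → Q B) : ∃ B₀ > (0 : ℝ), ∀ B ∈ Ioc 0 B₀, Q B := by
  obtain ⟨a, ha0, ha⟩ := hP
  exact ⟨a, ha0, fun B hB => h B (ha B hB)⟩

theorem Ev.and {C D : Par → Prop} (hC : Ev C) (hD : Ev D) : Ev fun q => C q ∧ D q := by
  unfold Ev at *
  refine large_mono (large_and hC hD) fun B h => ?_
  refine small_mono (small_and h.1 h.2) fun rho0 h => ?_
  refine large_mono (large_and h.1 h.2) fun BV h => ?_
  refine large_mono (large_and h.1 h.2) fun MU h => ?_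
  refine large_mono (large_and h.1 h.2) fun MP h => ?_
  refine large_mono (large_and h.1 h.2) fun MV h => ?_
  refine large_mono (large_and h.1 h.2) fun CU h => ?_
  refine large_mono (large_and h.1 h.2) fun CP h => ?_
  refine large_mono (large_and h.1 h.2) fun CV h => ?_
  refine large_mono (large_and h.1 h.2) fun GR h => ?_
  refine small_mono (small_and h.1 h.2) fun sg h => ?_
  refine small_mono (small_and h.1 h.2) fun d0 h => ?_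
  refine small_mono (small_and h.1 h.2) fun rb h => ?_
  refine large_mono (large_and h.1 h.2) fun N h => ?_
  exact small_and h.1 h.2

theorem large_ex {P : ℝ → Prop} (hP : ∃ B₀ : ℝ, ∀ B ≥ B₀, P B) : ∃ B, P B := by
  obtain ⟨a, ha⟩ := hP
  exact ⟨a, ha a le_rfl⟩

theorem small_ex {P : ℝ → Prop} (hP : ∃ B₀ > (0 : ℝ), ∀ B ∈ Ioc 0 B₀, P B) : ∃ B, P B := by
  obtain ⟨a, ha0, ha⟩ := hP
  exact ⟨a, ha a ⟨ha0, le_rfl⟩⟩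

/-- parameters exist -/
theorem Ev.exists {C : Par → Prop} (h : Ev C) : ∃ q, C q := by
  unfold Ev at h
  obtain ⟨B, h⟩ := large_ex h
  obtain ⟨rho0, h⟩ := small_ex h
  obtain ⟨BV, h⟩ := large_ex h
  obtain ⟨MU, h⟩ := large_ex h
  obtain ⟨MP, h⟩ := large_ex h
  obtain ⟨MV, h⟩ := large_ex h
  obtain ⟨CU, h⟩ := large_ex h
  obtain ⟨CP, h⟩ := large_ex h
  obtain ⟨CV, h⟩ := large_ex h
  obtain ⟨GR, h⟩ := large_ex h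
  obtain ⟨sg, h⟩ := small_ex h
  obtain ⟨d0, h⟩ := small_ex h
  obtain ⟨rb, h⟩ := small_ex h
  obtain ⟨N, h⟩ := large_ex h
  obtain ⟨eps, h⟩ := small_ex h
  exact ⟨_, h⟩

/-- parameters may be assumed large/small in absolute terms -/
structure ParPos (K : ℝ) (q : Par) : Prop where
  B : K ≤ q.B
  rho0 : 0 < q.rho0
  rho0' : q.rho0 ≤ 1 / K
  BV : K ≤ q.BV
  MU : K ≤ q.MU
  MP : K ≤ q.MP
  MV : K ≤ q.MV
  CU : K ≤ q.CU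
  CP : K ≤ q.CP
  CV : K ≤ q.CV
  GR : K ≤ q.GR
  sg : 0 < q.sg
  sg' : q.sg ≤ 1 / K
  d0 : 0 < q.d0
  d0' : q.d0 ≤ 1 / K
  rb : 0 < q.rb
  rb' : q.rb ≤ 1 / K
  N : K ≤ q.N
  eps : 0 < q.eps
  eps' : q.eps ≤ 1 / K

theorem ev_pos {K : ℝ} (hK : 0 < K) : Ev (ParPos K) := by
  have h : 0 < 1 / K := by positivity
  refine ⟨K, fun B hB => ?_⟩
  refine ⟨1 / K, h, fun rho0 h1 => ?_⟩
  refine ⟨K, fun BV h2 => ?_⟩
  refine ⟨K, fun MU h3 => ?_⟩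
  refine ⟨K, fun MP h4 => ?_⟩
  refine ⟨K, fun MV h5 => ?_⟩
  refine ⟨K, fun CU h6 => ?_⟩
  refine ⟨K, fun CP h7 => ?_⟩
  refine ⟨K, fun CV h8 => ?_⟩
  refine ⟨K, fun GR h9 => ?_⟩
  refine ⟨1 / K, h, fun sg h10 => ?_⟩
  refine ⟨1 / K, h, fun d0 h11 => ?_⟩
  refine ⟨1 / K, h, fun rb h12 => ?_⟩
  refine ⟨K, fun N h13 => ?_⟩
  refine ⟨1 / K, h, fun eps h14 => ?_⟩
  exact ⟨hB, h1.1, h1.2, h2, h3, h4, h5, h6, h7, h8, h9, h10.1, h10.2, h11.1, h11.2, h12.1, h12.2,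
    h13, h14.1, h14.2⟩

end Vale.Agent.P244.ST
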