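import Vale.Agent.P244.ST.Iface

/-! P244, assembly A: explicit formulas (jets) for the geometric quantities and their continuity
in `(t,x)` for one solution (helper155). -/

open Set Filter
open scoped ContDiff Topology

namespace Vale.Agent.P244.ST

namespace JA

/-- the domain `[0,T) × [-1,1]` -/
def Dm (T : ℝ) : Set (ℝ × ℝ) := Ico 0 T ×ˢ Icc (-1) 1

theorem uniqueDiff_Dm (T : ℝ) : UniqueDiffOn ℝ (Dm T) :=
  (uniqueDiffOn_Ico _ _).prod (uniqueDiffOn_Icc (by norm_num))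

/-- the `x`-derivative of a smooth function of `(t,x)` -/
theorem smooth_dx {T : ℝ} {H : Fn}
    (hH : ContDiffOn ℝ ∞ (fun z : ℝ × ℝ => H z.1 z.2) (Dm T)) :
    ContDiffOn ℝ ∞ (fun z : ℝ × ℝ => dx (H z.1) z.2) (Dm T) := by
  have h1 : ContDiffOn ℝ ∞ (fun z : ℝ × ℝ =>
      fderivWithin ℝ (fun z : ℝ × ℝ => H z.1 z.2) (Dm T) z ((0 : ℝ), (1 : ℝ))) (Dm T) :=
    (hH.fderivWithin (uniqueDiff_Dm T) le_rfl).clm_apply contDiffOn_const
  refine h1.congr fun z hz => ?_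
  have h2 : HasFDerivWithinAt (fun z : ℝ × ℝ => H z.1 z.2)
      (fderivWithin ℝ (fun z : ℝ × ℝ => H z.1 z.2) (Dm T) z) (Dm T) z :=
    (hH.differentiableOn (by simp) z hz).hasFDerivWithinAt
  have h3 : HasDerivWithinAt (fun x : ℝ => ((z.1, x) : ℝ × ℝ)) ((0 : ℝ), (1 : ℝ)) (Icc (-1) 1)
      z.2 := (hasDerivWithinAt_const _ _ _).prodMk (hasDerivWithinAt_id _ _)
  have h4 : HasDerivWithinAt (fun x : ℝ => H z.1 x)
      (fderivWithin ℝ (fun z : ℝ × ℝ => H z.1 z.2) (Dm T) z ((0 : ℝ), (1 : ℝ))) (Icc (-1) 1)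
      z.2 :=
    HasFDerivWithinAt.comp_hasDerivWithinAt (f := fun x : ℝ => ((z.1, x) : ℝ × ℝ))
      (l := fun z : ℝ × ℝ => H z.1 z.2) (t := Dm T) z.2 h2 h3 fun x hx => ⟨hz.1, hx⟩
  exact h4.derivWithin (uniqueDiffOn_Icc (by norm_num) _ hz.2)

/-- slices are smooth -/
theorem smooth_slice {T : ℝ} {H : Fn}
    (hH : ContDiffOn ℝ ∞ (fun z : ℝ × ℝ => H z.1 z.2) (Dm T)) {t : ℝ} (ht : t ∈ Ico 0 T) :
    ContDiffOn ℝ ∞ (H t) (Icc (-1) 1) :=
  hH.comp (f := fun x : ℝ => ((t, x) : ℝ × ℝ)) (by fun_prop) fun x hx => ⟨ht, hx⟩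

theorem smooth_dx_slice {h : ℝ → ℝ} (hh : ContDiffOn ℝ ∞ h (Icc (-1) 1)) :
    ContDiffOn ℝ ∞ (dx h) (Icc (-1) 1) :=
  hh.derivWithin (uniqueDiffOn_Icc (by norm_num)) le_rfl

theorem Icc_nhds {x : ℝ} (hx : x ∈ Ioo (-1 : ℝ) 1) : Icc (-1 : ℝ) 1 ∈ 𝓝 x :=
  Icc_mem_nhds hx.1 hx.2

theorem hasDerivAt_dx {h : ℝ → ℝ} (hh : ContDiffOn ℝ ∞ h (Icc (-1) 1)) {x : ℝ}
    (hx : x ∈ Ioo (-1 : ℝ) 1) : HasDerivAt h (dx h x) x := by
  have h1 : DifferentiableWithinAt ℝ h (Icc (-1) 1) x :=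
    hh.differentiableOn (by simp) x (Ioo_subset_Icc_self hx)
  exact h1.hasDerivWithinAt.hasDerivAt (Icc_nhds hx)

/-! ### formulas at one time -/

theorem hasDerivAt_xS {x : ℝ} (hx : x ∈ Ioo (-1 : ℝ) 1) :
    HasDerivAt (fun x : ℝ => x / (1 - x ^ 2)) ((1 + x ^ 2) / (1 - x ^ 2) ^ 2) x := by
  have hS : (1 - x ^ 2) ≠ 0 := by nlinarith only [hx, hx.1, hx.2]
  have h1 : HasDerivAt (fun x : ℝ => 1 - x ^ 2) (-(2 * x)) x := by
    simpa using (hasDerivAt_pow 2 x).const_sub 1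
  refine ((hasDerivAt_id x).div h1 hS).congr_deriv ?_
  simp only [id]
  field_simp
  ring


section Slice

variable {w f : Fn} {t x : ℝ} (hw : ContDiffOn ℝ ∞ (w t) (Icc (-1) 1))
  (hf : ContDiffOn ℝ ∞ (f t) (Icc (-1) 1))
include hw hf

/-- `u_x` -/
theorem hasDerivAt_uu (hx : x ∈ Ioo (-1 : ℝ) 1) :
    HasDerivAt (uu w f t) (dx (f t) x - dx (w t) x + x / (1 - x ^ 2)) x := by
  have hS : (1 - x ^ 2) ≠ 0 := by nlinarith only [hx, hx.1, hx.2]
  have h1 : HasDerivAt (fun x : ℝ => 1 - x ^ 2) (-(2 * x)) x := by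
    simpa using (hasDerivAt_pow 2 x).const_sub 1
  have h2 := (((hasDerivAt_dx hf hx).sub (hasDerivAt_dx hw hx)).sub
    ((h1.log hS).div_const 2))
  refine h2.congr_deriv ?_
  field_simp
  ring

/-- `ρ_x` -/
theorem hasDerivAt_rho (hx : x ∈ Ioo (-1 : ℝ) 1) :
    HasDerivAt (rho w f t) ((dx (f t) x + dx (w t) x - x / (1 - x ^ 2)) / 2) x := by
  have hS : (1 - x ^ 2) ≠ 0 := by nlinarith only [hx, hx.1, hx.2]
  have h1 : HasDerivAt (fun x : ℝ => 1 - x ^ 2) (-(2 * x)) x := by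
    simpa using (hasDerivAt_pow 2 x).const_sub 1
  have h2 := ((((hasDerivAt_dx hf hx).add (hasDerivAt_dx hw hx)).add
    ((h1.log hS).div_const 2)).sub_const (Real.log zeta0)).div_const 2
  refine h2.congr_deriv ?_
  field_simp
  ring

theorem PP_eq (hx : x ∈ Ioo (-1 : ℝ) 1) : PP w f t x =
    -(sx x * Real.exp (-w t x)) * (dx (f t) x - dx (w t) x + x / (1 - x ^ 2)) := by
  unfold PP Ds Dx
  rw [(hasDerivAt_uu hw hf hx).deriv]

theorem rs_eq (hx : x ∈ Ioo (-1 : ℝ) 1) : rs w f t x =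
    -(sx x * Real.exp (-w t x)) * ((dx (f t) x + dx (w t) x - x / (1 - x ^ 2)) / 2) := by
  unfold rs Ds Dx
  rw [(hasDerivAt_rho hw hf hx).deriv]

omit hf in
/-- the second arclength derivative -/
theorem Ds2_eq {H : Fn} {h1 : ℝ → ℝ} {h2 : ℝ} (hx : x ∈ Ioo (-1 : ℝ) 1)
    (hH : ∀ y ∈ Ioo (-1 : ℝ) 1, HasDerivAt (H t) (h1 y) y) (hh : HasDerivAt h1 h2 x) :
    Ds w (Ds w H) t x = Real.exp (-2 * w t x) *
      ((1 - x ^ 2) * h2 - x * h1 x - (1 - x ^ 2) * dx (w t) x * h1 x) := by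
  have hS : 0 < 1 - x ^ 2 := by nlinarith only [hx, hx.1, hx.2]
  have e1 : Ds w H t =ᶠ[𝓝 x] fun y => -(sx y * Real.exp (-w t y)) * h1 y := by
    filter_upwards [Ioo_mem_nhds hx.1 hx.2] with y hy
    unfold Ds Dx
    rw [(hH y hy).deriv]
  have e2 : HasDerivAt (fun y : ℝ => 1 - y ^ 2) (-(2 * x)) x := by
    simpa using (hasDerivAt_pow 2 x).const_sub 1
  have e3 : HasDerivAt sx (-(2 * x) / (2 * Real.sqrt (1 - x ^ 2))) x := e2.sqrt hS.ne'
  have e4 := (((e3.mul (hasDerivAt_dx hw hx).neg.exp).neg).mul hh)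
  have e5 : Dx (Ds w H) t x = -((-(2 * x) / (2 * Real.sqrt (1 - x ^ 2))) * Real.exp (-w t x)
      + sx x * (Real.exp (-w t x) * -dx (w t) x)) * h1 x + -(sx x * Real.exp (-w t x)) * h2 := by
    unfold Dx
    rw [e1.deriv_eq]
    exact e4.deriv
  change -(sx x * Real.exp (-w t x)) * Dx (Ds w H) t x = _
  rw [e5]
  have e6 : Real.exp (-2 * w t x) = Real.exp (-w t x) * Real.exp (-w t x) := by
    rw [← Real.exp_add]; congr 1; ring
  have e9 : Real.sqrt (1 - x ^ 2) ≠ 0 := (Real.sqrt_pos.2 hS).ne'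
  have e7 : Real.sqrt (1 - x ^ 2) ^ 2 = 1 - x ^ 2 := Real.sq_sqrt hS.le
  have e8 : sx x = Real.sqrt (1 - x ^ 2) := rfl
  rw [e6, e8]
  generalize Real.sqrt (1 - x ^ 2) = σ at *
  rw [← e7]
  field_simp
  ring

theorem Ds2_uu (hx : x ∈ Ioo (-1 : ℝ) 1) :
    Ds w (Ds w (uu w f)) t x = Real.exp (-2 * w t x) *
      ((1 - x ^ 2) * (dx (dx (f t)) x - dx (dx (w t)) x + (1 + x ^ 2) / (1 - x ^ 2) ^ 2)
        - x * (dx (f t) x - dx (w t) x + x / (1 - x ^ 2))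
        - (1 - x ^ 2) * dx (w t) x * (dx (f t) x - dx (w t) x + x / (1 - x ^ 2))) :=
  Ds2_eq hw (h1 := fun x => dx (f t) x - dx (w t) x + x / (1 - x ^ 2)) hx
    (fun _ hy => hasDerivAt_uu hw hf hy)
    (((hasDerivAt_dx (smooth_dx_slice hf) hx).sub (hasDerivAt_dx (smooth_dx_slice hw) hx)).add
      (hasDerivAt_xS hx))

theorem Ds2_rho (hx : x ∈ Ioo (-1 : ℝ) 1) :
    Ds w (Ds w (rho w f)) t x = Real.exp (-2 * w t x) *
      ((1 - x ^ 2) * ((dx (dx (f t)) x + dx (dx (w t)) x - (1 + x ^ 2) / (1 - x ^ 2) ^ 2) / 2)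
        - x * ((dx (f t) x + dx (w t) x - x / (1 - x ^ 2)) / 2)
        - (1 - x ^ 2) * dx (w t) x * ((dx (f t) x + dx (w t) x - x / (1 - x ^ 2)) / 2)) :=
  Ds2_eq hw (h1 := fun x => (dx (f t) x + dx (w t) x - x / (1 - x ^ 2)) / 2) hx
    (fun _ hy => hasDerivAt_rho hw hf hy)
    ((((hasDerivAt_dx (smooth_dx_slice hf) hx).add (hasDerivAt_dx (smooth_dx_slice hw) hx)).sub
      (hasDerivAt_xS hx)).div_const 2)

end Slice

/-! ### continuity in `(t,x)` -/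

/-- the open slab `[0,T) × (-1,1)` -/
def Di (T : ℝ) : Set (ℝ × ℝ) := Ico 0 T ×ˢ Ioo (-1) 1

theorem Di_sub (T : ℝ) : Di T ⊆ Dm T := Set.prod_mono le_rfl Ioo_subset_Icc_self

section Cont

variable {w f : Fn} {T : ℝ} (h : ConfSol 20 w f T)
include h

theorem cw : ContinuousOn (fun z : ℝ × ℝ => w z.1 z.2) (Di T) :=
  h.smooth_w.continuousOn.mono (Di_sub T)

theorem cf : ContinuousOn (fun z : ℝ × ℝ => f z.1 z.2) (Di T) :=
  h.smooth_f.continuousOn.mono (Di_sub T)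

theorem cw1 : ContinuousOn (fun z : ℝ × ℝ => dx (w z.1) z.2) (Di T) :=
  (smooth_dx h.smooth_w).continuousOn.mono (Di_sub T)

theorem cf1 : ContinuousOn (fun z : ℝ × ℝ => dx (f z.1) z.2) (Di T) :=
  (smooth_dx h.smooth_f).continuousOn.mono (Di_sub T)

theorem cw2 : ContinuousOn (fun z : ℝ × ℝ => dx (dx (w z.1)) z.2) (Di T) :=
  (smooth_dx (H := fun t => dx (w t)) (smooth_dx h.smooth_w)).continuousOn.mono (Di_sub T)

theorem cf2 : ContinuousOn (fun z : ℝ × ℝ => dx (dx (f z.1)) z.2) (Di T) :=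
  (smooth_dx (H := fun t => dx (f t)) (smooth_dx h.smooth_f)).continuousOn.mono (Di_sub T)

omit h in
theorem pos_S {z : ℝ × ℝ} (hz : z ∈ Di T) : 0 < 1 - z.2 ^ 2 := by
  have := hz.2
  nlinarith only [this, this.1, this.2]

omit h in
theorem cS : ContinuousOn (fun z : ℝ × ℝ => 1 - z.2 ^ 2) (Di T) := by fun_prop

omit h in
theorem cxS : ContinuousOn (fun z : ℝ × ℝ => z.2 / (1 - z.2 ^ 2)) (Di T) :=
  continuousOn_snd.div cS fun z hz => (pos_S hz).ne'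

omit h in
theorem cxS2 : ContinuousOn (fun z : ℝ × ℝ => (1 + z.2 ^ 2) / (1 - z.2 ^ 2) ^ 2) (Di T) :=
  ContinuousOn.div (by fun_prop) (cS.pow 2) fun _ hz => (pow_pos (pos_S hz) 2).ne'

theorem cont_uu : ContinuousOn (fun z : ℝ × ℝ => uu w f z.1 z.2) (Di T) :=
  ((cf h).sub (cw h)).sub ((cS.log fun z hz => (pos_S hz).ne').div_const 2)

theorem cont_rho : ContinuousOn (fun z : ℝ × ℝ => rho w f z.1 z.2) (Di T) :=
  ((((cf h).add (cw h)).add ((cS.log fun z hz => (pos_S hz).ne').div_const 2)).sub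
    continuousOn_const).div_const 2

theorem cont_rr : ContinuousOn (fun z : ℝ × ℝ => rr w f z.1 z.2) (Di T) := (cont_rho h).rexp

omit h in
theorem cont_tau {s : Set (ℝ × ℝ)} : ContinuousOn (fun z : ℝ × ℝ => tau z.1) s := by
  unfold tau; fun_prop

omit h in
theorem tau_pos {t : ℝ} (hT : T ≤ 1) (ht : t ∈ Ico 0 T) : 0 < tau t := by
  unfold tau; linarith only [hT, ht, ht.2]

theorem cont_yv (hT : T ≤ 1) : ContinuousOn (fun z : ℝ × ℝ => yv w f z.1 z.2) (Di T) :=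
  (cont_rr h).div (cont_tau.sqrt) fun z hz => (Real.sqrt_pos.2 (tau_pos hT hz.1)).ne'

theorem cont_fac : ContinuousOn (fun z : ℝ × ℝ => -(sx z.2 * Real.exp (-w z.1 z.2))) (Di T) := by
  have h1 : ContinuousOn (fun z : ℝ × ℝ => sx z.2) (Di T) := cS.sqrt
  exact (h1.mul (cw h).neg.rexp).neg

theorem cont_PP : ContinuousOn (fun z : ℝ × ℝ => PP w f z.1 z.2) (Di T) := by
  refine ((cont_fac h).mul (((cf1 h).sub (cw1 h)).add cxS)).congr fun z hz => ?_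
  exact PP_eq (smooth_slice h.smooth_w hz.1) (smooth_slice h.smooth_f hz.1) hz.2

theorem cont_rs : ContinuousOn (fun z : ℝ × ℝ => rs w f z.1 z.2) (Di T) := by
  refine ((cont_fac h).mul ((((cf1 h).add (cw1 h)).sub cxS).div_const 2)).congr fun z hz => ?_
  exact rs_eq (smooth_slice h.smooth_w hz.1) (smooth_slice h.smooth_f hz.1) hz.2

theorem cont_Ds2u : ContinuousOn (fun z : ℝ × ℝ => Ds w (Ds w (uu w f)) z.1 z.2) (Di T) := by
  have hx : ContinuousOn (fun z : ℝ × ℝ => z.2) (Di T) := continuousOn_snd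
  have he : ContinuousOn (fun z : ℝ × ℝ => Real.exp (-2 * w z.1 z.2)) (Di T) :=
    (continuousOn_const.mul (cw h)).rexp
  have hu := ((cf1 h).sub (cw1 h)).add (cxS (T := T))
  refine (he.mul (((cS.mul (((cf2 h).sub (cw2 h)).add cxS2)).sub (hx.mul hu)).sub
    ((cS.mul (cw1 h)).mul hu))).congr fun z hz => ?_
  exact Ds2_uu (smooth_slice h.smooth_w hz.1) (smooth_slice h.smooth_f hz.1) hz.2

theorem cont_Ds2r : ContinuousOn (fun z : ℝ × ℝ => Ds w (Ds w (rho w f)) z.1 z.2) (Di T) := by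
  have hx : ContinuousOn (fun z : ℝ × ℝ => z.2) (Di T) := continuousOn_snd
  have he : ContinuousOn (fun z : ℝ × ℝ => Real.exp (-2 * w z.1 z.2)) (Di T) :=
    (continuousOn_const.mul (cw h)).rexp
  have hu := (((cf1 h).add (cw1 h)).sub (cxS (T := T))).div_const 2
  refine (he.mul (((cS.mul ((((cf2 h).add (cw2 h)).sub cxS2).div_const 2)).sub (hx.mul hu)).sub
    ((cS.mul (cw1 h)).mul hu))).congr fun z hz => ?_
  exact Ds2_rho (smooth_slice h.smooth_w hz.1) (smooth_slice h.smooth_f hz.1) hz.2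

theorem cont_VV : ContinuousOn (fun z : ℝ × ℝ => VV w f z.1 z.2) (Di T) := by
  have h1 : ContinuousOn (fun z : ℝ × ℝ => 78 * Real.sinh (uu w f z.1 z.2) /
      (rr w f z.1 z.2) ^ 2) (Di T) :=
    (continuousOn_const.mul (Real.continuous_sinh.comp_continuousOn (cont_uu h))).div
      ((cont_rr h).pow 2) fun _ _ => (pow_pos (Real.exp_pos _) 2).ne'
  exact ((cont_Ds2u h).add ((continuousOn_const.mul (cont_rs h)).mul (cont_PP h))).add h1

theorem cont_yy : ContinuousOn (fun z : ℝ × ℝ => yy w f z.1 z.2) (Di T) := by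
  have h1 : ContinuousOn (fun z : ℝ × ℝ => 39 * Real.cosh (uu w f z.1 z.2) /
      (rr w f z.1 z.2) ^ 2) (Di T) :=
    (continuousOn_const.mul (Real.continuous_cosh.comp_continuousOn (cont_uu h))).div
      ((cont_rr h).pow 2) fun _ _ => (pow_pos (Real.exp_pos _) 2).ne'
  exact ((cont_Ds2r h).add ((continuousOn_const.mul (cont_rs h)).mul (cont_rs h))).sub h1

theorem cont_E0 : ContinuousOn (fun z : ℝ × ℝ => E0 w f z.1 z.2) (Di T) :=
  ((continuousOn_const.mul (cont_Ds2r h)).neg.sub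
    (continuousOn_const.mul ((cont_rs h).pow 2))).sub (continuousOn_const.mul ((cont_PP h).pow 2))

theorem cont_RR : ContinuousOn (fun z : ℝ × ℝ => RR w f z.1 z.2) (Di T) :=
  (cont_E0 h).sub (continuousOn_const.mul (cont_yy h))

/-- the open slab with `x > 0` -/
theorem cont_GG (Q : Qual w f T) :
    ContinuousOn (fun z : ℝ × ℝ => GG w f z.1 z.2) (Ico 0 T ×ˢ Ioo 0 1) := by
  have hs : (Ico 0 T ×ˢ Ioo (0 : ℝ) 1) ⊆ Di T := by
    rintro z ⟨h1, h2⟩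
    exact ⟨h1, by linarith only [h2, h2.1], h2.2⟩
  exact (((cont_PP h).mono hs).div ((cont_rs h).mono hs) fun z hz =>
    (Q.rs_pos z.1 hz.1 z.2 hz.2).ne').neg

end Cont

end JA

end Vale.Agent.P244.ST
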