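import Vale.Agent.P244.ST.A.Sol
import Vale.Agent.P244.ST.A.JetA

/-! P244, assembly A, A5: continuity of the modes `gami`, `enU` in the parameters and in time
(helper460). -/

open Set Filter MeasureTheory
open scoped ContDiff Topology Uniformity

namespace Vale.Agent.P244.ST

namespace Gam

open JA

/-- parametric integrals over `[0,1]` -/
theorem contOn_int {Y : Type*} [TopologicalSpace Y] {S : Set Y} {K : Y → ℝ → ℝ}
    (hK : ContinuousOn (fun p : Y × ℝ => K p.1 p.2) (S ×ˢ Icc (0 : ℝ) 1)) :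
    ContinuousOn (fun z => ∫ x in (0 : ℝ)..1, K z x) S := by
  have hslice : ∀ z ∈ S, ContinuousOn (K z) (Icc 0 1) := fun z hz =>
    hK.comp (f := fun x : ℝ => ((z, x) : Y × ℝ)) (by fun_prop) fun x hx => ⟨hz, hx⟩
  have hii : ∀ z ∈ S, IntervalIntegrable (K z) volume 0 1 := fun z hz =>
    ContinuousOn.intervalIntegrable (by rw [uIcc_of_le zero_le_one]; exact hslice z hz)
  intro q hq
  rw [ContinuousWithinAt, Metric.tendsto_nhds]
  intro ε hε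
  obtain ⟨v, hv, hvK⟩ := IsCompact.mem_uniformity_of_prod (isCompact_Icc (a := (0 : ℝ)) (b := 1))
    (f := K) hK hq (Metric.dist_mem_uniformity (half_pos hε))
  filter_upwards [hv, self_mem_nhdsWithin] with z hz hzS
  rw [dist_eq_norm, ← intervalIntegral.integral_sub (hii z hzS) (hii q hq)]
  have h1 := intervalIntegral.norm_integral_le_of_norm_le_const (a := (0 : ℝ)) (b := 1)
    (f := fun x => K z x - K q x) (C := ε / 2) (by
      intro x hx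
      rw [uIoc_of_le zero_le_one] at hx
      have h2 := hvK z hz x ⟨hx.1.le, hx.2⟩
      rw [← dist_eq_norm]
      exact le_of_lt h2)
  rw [sub_zero, abs_one, mul_one] at h1
  linarith only [hε, h1]

variable {Ω : Type*} [TopologicalSpace Ω]

/-- a continuous family of pairs of functions -/
structure Fml (S : Set (Ω × ℝ)) (W F : Ω → Fn) : Prop where
  lt : ∀ z ∈ S, z.2 < 1
  cW : ContinuousOn (fun p : (Ω × ℝ) × ℝ => W p.1.1 p.1.2 p.2) (S ×ˢ Icc (-1) 1)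
  cF : ContinuousOn (fun p : (Ω × ℝ) × ℝ => F p.1.1 p.1.2 p.2) (S ×ˢ Icc (-1) 1)
  cWx : ContinuousOn (fun p : (Ω × ℝ) × ℝ => dx (W p.1.1 p.1.2) p.2) (S ×ˢ Icc (-1) 1)
  cFx : ContinuousOn (fun p : (Ω × ℝ) × ℝ => dx (F p.1.1 p.1.2) p.2) (S ×ˢ Icc (-1) 1)
  dW : ∀ z ∈ S, ContDiffOn ℝ ∞ (W z.1 z.2) (Icc (-1) 1)
  dF : ∀ z ∈ S, ContDiffOn ℝ ∞ (F z.1 z.2) (Icc (-1) 1)

/-- the regular part of `y`, continuous up to `x = 1` -/
noncomputable def By (W F : Ω → Fn) (p : (Ω × ℝ) × ℝ) : ℝ :=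
  Real.exp ((F p.1.1 p.1.2 p.2 + W p.1.1 p.1.2 p.2 - Real.log zeta0) / 2) *
    (1 - p.2 ^ 2) ^ (1 / 4 : ℝ) / Real.sqrt (tau p.1.2)

theorem yv_eq (W F : Ω → Fn) {p : (Ω × ℝ) × ℝ} (hx : p.2 ∈ Ico (0 : ℝ) 1) :
    yv (W p.1.1) (F p.1.1) p.1.2 p.2 = By W F p := by
  have hS : 0 < 1 - p.2 ^ 2 := by nlinarith only [hx, hx.1, hx.2]
  unfold yv rr rho By
  congr 1
  rw [Real.rpow_def_of_pos hS, ← Real.exp_add]
  congr 1
  ring

section

variable {S : Set (Ω × ℝ)} {W F : Ω → Fn} (E : Fml S W F)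
include E

theorem tau_pos {z : Ω × ℝ} (hz : z ∈ S) : 0 < tau z.2 := by
  unfold tau
  linarith only [E, hz, E.lt z hz]

theorem sub01 : S ×ˢ Icc (0 : ℝ) 1 ⊆ S ×ˢ Icc (-1 : ℝ) 1 :=
  Set.prod_mono le_rfl (Icc_subset_Icc_left (by norm_num))

theorem sub01' : S ×ˢ Ico (0 : ℝ) 1 ⊆ S ×ˢ Icc (-1 : ℝ) 1 :=
  (Set.prod_mono le_rfl Ico_subset_Icc_self).trans (sub01 E)

theorem cont_tau : Continuous fun p : (Ω × ℝ) × ℝ => tau p.1.2 := by
  unfold tau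
  fun_prop

theorem cont_By : ContinuousOn (By W F) (S ×ˢ Icc (0 : ℝ) 1) := by
  unfold By
  have h1 := E.cW.mono (sub01 E)
  have h2 := E.cF.mono (sub01 E)
  apply ContinuousOn.div
  · apply ContinuousOn.mul
    · exact Real.continuous_exp.comp_continuousOn (((h2.add h1).sub continuousOn_const).div_const 2)
    · exact ContinuousOn.rpow_const (by fun_prop) fun p _ => Or.inr (by norm_num)
  · exact (Real.continuous_sqrt.comp (cont_tau E)).continuousOn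
  · intro p hp
    exact (Real.sqrt_pos.2 (tau_pos E hp.1)).ne'

theorem By_pos {p : (Ω × ℝ) × ℝ} (hp : p ∈ S ×ˢ Ico (0 : ℝ) 1) : 0 < By W F p := by
  have hS : 0 < 1 - p.2 ^ 2 := by nlinarith only [hp, hp.2.1, hp.2.2]
  unfold By
  have := Real.sqrt_pos.2 (tau_pos E hp.1)
  have := Real.rpow_pos_of_pos hS (1 / 4)
  positivity

theorem cont_uu : ContinuousOn (fun p : (Ω × ℝ) × ℝ => uu (W p.1.1) (F p.1.1) p.1.2 p.2)
    (S ×ˢ Ico (0 : ℝ) 1) := by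
  unfold uu
  have h1 := E.cW.mono (sub01' E)
  have h2 := E.cF.mono (sub01' E)
  have h3 : ContinuousOn (fun p : (Ω × ℝ) × ℝ => Real.log (1 - p.2 ^ 2)) (S ×ˢ Ico (0 : ℝ) 1) := by
    apply ContinuousOn.log (by fun_prop)
    intro p hp
    nlinarith only [hp, hp.2.1, hp.2.2]
  exact (h2.sub h1).sub (h3.div_const 2)

theorem deriv_yv {p : (Ω × ℝ) × ℝ} (hp : p ∈ S ×ˢ Ico (0 : ℝ) 1) :
    deriv (yv (W p.1.1) (F p.1.1) p.1.2) p.2 = By W F p *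
      ((dx (F p.1.1 p.1.2) p.2 + dx (W p.1.1 p.1.2) p.2 - p.2 / (1 - p.2 ^ 2)) / 2) := by
  have hx : p.2 ∈ Ioo (-1 : ℝ) 1 := ⟨by linarith only [hp, hp.2.1], hp.2.2⟩
  have h1 := hasDerivAt_rho (E.dW _ hp.1) (E.dF _ hp.1) hx
  have h2 : HasDerivAt (yv (W p.1.1) (F p.1.1) p.1.2)
      (Real.exp (rho (W p.1.1) (F p.1.1) p.1.2 p.2) *
        ((dx (F p.1.1 p.1.2) p.2 + dx (W p.1.1 p.1.2) p.2 - p.2 / (1 - p.2 ^ 2)) / 2) /
        Real.sqrt (tau p.1.2)) p.2 := (h1.exp).div_const _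
  rw [h2.deriv, ← yv_eq W F hp.2]
  unfold yv rr
  ring

theorem cont_deriv : ContinuousOn (fun p : (Ω × ℝ) × ℝ =>
    deriv (yv (W p.1.1) (F p.1.1) p.1.2) p.2) (S ×ˢ Ico (0 : ℝ) 1) := by
  have h1 := E.cWx.mono (sub01' E)
  have h2 := E.cFx.mono (sub01' E)
  have h3 : ContinuousOn (By W F) (S ×ˢ Ico (0 : ℝ) 1) :=
    (cont_By E).mono (Set.prod_mono le_rfl Ico_subset_Icc_self)
  have h4 : ContinuousOn (fun p : (Ω × ℝ) × ℝ => p.2 / (1 - p.2 ^ 2)) (S ×ˢ Ico (0 : ℝ) 1) := by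
    apply ContinuousOn.div (by fun_prop) (by fun_prop)
    intro p hp
    nlinarith only [hp, hp.2.1, hp.2.2]
  refine (h3.mul (((h2.add h1).sub h4).div_const 2)).congr fun p hp => deriv_yv E hp

theorem cont_stp : Continuous stp := by
  unfold stp
  exact Real.smoothTransition.continuous.comp (by fun_prop)

theorem cont_chi {q : Par} (hd : 0 < q.d0) : ContinuousOn (fun p : (Ω × ℝ) × ℝ =>
    chi q p.1.2 (By W F p)) (S ×ˢ Icc (0 : ℝ) 1) := by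
  unfold chi
  have h1 := cont_By E
  have h2 : ContinuousOn (fun p : (Ω × ℝ) × ℝ => q.d0 * tau p.1.2 ^ ((1 : ℝ) / 10))
      (S ×ˢ Icc (0 : ℝ) 1) :=
    continuousOn_const.mul (ContinuousOn.rpow_const (cont_tau E).continuousOn
      fun p _ => Or.inr (by norm_num))
  have h3 : ContinuousOn (fun p : (Ω × ℝ) × ℝ => Real.sqrt (tau p.1.2) * By W F p / Real.sqrt q.N)
      (S ×ˢ Icc (0 : ℝ) 1) :=
    ((Real.continuous_sqrt.comp (cont_tau E)).continuousOn.mul h1).div_const _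
  refine ((cont_stp E).comp_continuousOn (h1.div h2 fun p hp => ?_)).mul
    (continuousOn_const.sub ((cont_stp E).comp_continuousOn h3))
  have := Real.rpow_pos_of_pos (tau_pos E hp.1) ((1 : ℝ) / 10)
  positivity

/-- near `x = 1` the cut-off vanishes -/
theorem chi_zero {q : Par} (hd : 0 < q.d0) {z : Ω × ℝ} (hz : z ∈ S) :
    ∀ᶠ p in 𝓝[S ×ˢ Icc (0 : ℝ) 1] (z, (1 : ℝ)), chi q p.1.2 (By W F p) = 0 := by
  have hmem : (z, (1 : ℝ)) ∈ S ×ˢ Icc (0 : ℝ) 1 := ⟨hz, zero_le_one, le_rfl⟩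
  have h1 := cont_By E (z, (1 : ℝ)) hmem
  have h2 : ContinuousWithinAt (fun p : (Ω × ℝ) × ℝ => q.d0 * tau p.1.2 ^ ((1 : ℝ) / 10))
      (S ×ˢ Icc (0 : ℝ) 1) (z, (1 : ℝ)) :=
    (continuousOn_const.mul (ContinuousOn.rpow_const (cont_tau E).continuousOn
      fun p _ => Or.inr (by norm_num))) _ hmem
  have h0 : By W F (z, (1 : ℝ)) = 0 := by
    unfold By
    simp
  have hpos : 0 < q.d0 * tau z.2 ^ ((1 : ℝ) / 10) := by
    have := Real.rpow_pos_of_pos (tau_pos E hz) ((1 : ℝ) / 10)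
    positivity
  have h3 : ∀ᶠ p in 𝓝[S ×ˢ Icc (0 : ℝ) 1] (z, (1 : ℝ)),
      By W F p < q.d0 * tau p.1.2 ^ ((1 : ℝ) / 10) := by
    apply h1.eventually_lt h2
    rw [h0]
    exact hpos
  filter_upwards [h3, self_mem_nhdsWithin] with p hp hpS
  have hpos' : 0 < q.d0 * tau p.1.2 ^ ((1 : ℝ) / 10) := by
    have := Real.rpow_pos_of_pos (tau_pos E hpS.1) ((1 : ℝ) / 10)
    positivity
  unfold chi
  have : stp (By W F p / (q.d0 * tau p.1.2 ^ ((1 : ℝ) / 10))) = 0 := by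
    unfold stp
    apply Real.smoothTransition.zero_of_nonpos
    rw [sub_nonpos, div_le_one hpos']
    exact hp.le
  rw [this, zero_mul]

/-- continuity of the integrals -/
theorem cont_main {q : Par} (hd : 0 < q.d0) {Φ : (Ω × ℝ) × ℝ → ℝ}
    (hΦ : ContinuousOn Φ (S ×ˢ Ico (0 : ℝ) 1)) :
    ContinuousOn (fun z : Ω × ℝ => ∫ x in (0 : ℝ)..1, chi q z.2 (yv (W z.1) (F z.1) z.2 x) *
      Φ (z, x) * (-(deriv (yv (W z.1) (F z.1) z.2) x))) S := by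
  classical
  set K : Ω × ℝ → ℝ → ℝ := fun z x => if x < 1 then
    chi q z.2 (By W F (z, x)) * (Φ (z, x) * (-(deriv (yv (W z.1) (F z.1) z.2) x))) else 0 with hK
  have h1 : ContinuousOn (fun p : (Ω × ℝ) × ℝ => K p.1 p.2) (S ×ˢ Icc (0 : ℝ) 1) := by
    rintro ⟨z, x⟩ ⟨hz, hx⟩
    rcases hx.2.lt_or_eq with hx1 | hx1
    · have hmem : (z, x) ∈ S ×ˢ Ico (0 : ℝ) 1 := ⟨hz, hx.1, hx1⟩
      have hc : ContinuousWithinAt (fun p : (Ω × ℝ) × ℝ => chi q p.1.2 (By W F p) *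
          (Φ p * (-(deriv (yv (W p.1.1) (F p.1.1) p.1.2) p.2)))) (S ×ˢ Ico (0 : ℝ) 1) (z, x) :=
        (((cont_chi E hd).mono (Set.prod_mono le_rfl Ico_subset_Icc_self)) _ hmem).mul
          ((hΦ _ hmem).mul ((cont_deriv E) _ hmem).neg)
      have hnhd : S ×ˢ Ico (0 : ℝ) 1 ∈ 𝓝[S ×ˢ Icc (0 : ℝ) 1] (z, x) := by
        have : {p : (Ω × ℝ) × ℝ | p.2 < 1} ∈ 𝓝 (z, x) :=
          (isOpen_lt continuous_snd continuous_const).mem_nhds hx1
        filter_upwards [mem_nhdsWithin_of_mem_nhds this, self_mem_nhdsWithin] with p hp hpS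
        exact ⟨hpS.1, hpS.2.1, hp⟩
      have hc' := hc.mono_of_mem_nhdsWithin hnhd
      refine hc'.congr_of_eventuallyEq ?_ ?_
      · filter_upwards [hnhd] with p hp
        simp only [hK]
        rw [if_pos hp.2.2]
      · simp only [hK]
        rw [if_pos hx1]
    · subst hx1
      have h2 := chi_zero E hd hz
      have h3 : (fun p : (Ω × ℝ) × ℝ => K p.1 p.2) =ᶠ[𝓝[S ×ˢ Icc (0 : ℝ) 1] (z, (1 : ℝ))]
          fun _ => 0 := by
        filter_upwards [h2] with p hp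
        simp only [hK]
        split_ifs
        · have : chi q p.1.2 (By W F (p.1, p.2)) = 0 := hp
          rw [this, zero_mul]
        · rfl
      refine continuousWithinAt_const.congr_of_eventuallyEq h3 ?_
      simp only [hK]
      rw [if_neg (lt_irrefl _)]
  refine (contOn_int h1).congr fun z hz => ?_
  apply intervalIntegral.integral_congr_ae
  have h4 : ∀ᵐ x : ℝ, x ≠ 1 := by
    have := Set.finite_singleton (1 : ℝ) |>.measure_zero (volume : Measure ℝ)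
    exact measure_eq_zero_iff_ae_notMem.1 this
  filter_upwards [h4] with x hx1 hx
  rw [uIoc_of_le zero_le_one] at hx
  have hlt : x < 1 := lt_of_le_of_ne hx.2 hx1
  simp only [hK]
  rw [if_pos hlt, ← yv_eq W F (p := (z, x)) ⟨hx.1.le, hlt⟩]
  ring

theorem cont_ph (i : ℕ) : ContinuousOn (fun p : (Ω × ℝ) × ℝ =>
    ph i (yv (W p.1.1) (F p.1.1) p.1.2 p.2)) (S ×ˢ Ico (0 : ℝ) 1) := by
  have h3 : ContinuousOn (By W F) (S ×ˢ Ico (0 : ℝ) 1) :=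
    (cont_By E).mono (Set.prod_mono le_rfl Ico_subset_Icc_self)
  have h4 : ContinuousOn (fun p => ph i (By W F p)) (S ×ˢ Ico (0 : ℝ) 1) := by
    unfold ph ll
    apply ContinuousOn.mul
    · exact h3.rpow_const fun p hp => Or.inl (By_pos E hp).ne'
    · apply continuousOn_finsetSum
      intro j _
      exact continuousOn_const.mul (((h3.pow 2).div_const 4).pow j)
  exact h4.congr fun p hp => by rw [yv_eq W F hp.2]

theorem cont_Wt : ContinuousOn (fun p : (Ω × ℝ) × ℝ =>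
    Wt (yv (W p.1.1) (F p.1.1) p.1.2 p.2)) (S ×ˢ Ico (0 : ℝ) 1) := by
  have h3 : ContinuousOn (By W F) (S ×ˢ Ico (0 : ℝ) 1) :=
    (cont_By E).mono (Set.prod_mono le_rfl Ico_subset_Icc_self)
  have h4 : Continuous Wt := by
    unfold Wt
    fun_prop
  exact (h4.comp_continuousOn h3).congr fun p hp => by
    simp only [Function.comp]
    rw [yv_eq W F hp.2]

theorem cont_A {q : Par} : ContinuousOn (fun z : Ω × ℝ => q.A z.2) S := by
  unfold Par.A tau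
  apply ContinuousOn.mul continuousOn_const
  apply ContinuousOn.rpow_const (by fun_prop)
  intro z hz
  left
  have := E.lt z hz
  linarith only [this]

theorem A_ne {q : Par} (he : 0 < q.eps) {z : Ω × ℝ} (hz : z ∈ S) : q.A z.2 ≠ 0 := by
  unfold Par.A
  have := Real.rpow_pos_of_pos (tau_pos E hz) (lam 3)
  positivity

/-- continuity of the modes -/
theorem cont_gami {q : Par} (hd : 0 < q.d0) (he : 0 < q.eps) (i : ℕ) :
    ContinuousOn (fun z : Ω × ℝ => gami q (W z.1) (F z.1) i z.2) S := by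
  have h1 := cont_main E hd (Φ := fun p => uu (W p.1.1) (F p.1.1) p.1.2 p.2 *
    ph i (yv (W p.1.1) (F p.1.1) p.1.2 p.2) * Wt (yv (W p.1.1) (F p.1.1) p.1.2 p.2))
    (((cont_uu E).mul (cont_ph E i)).mul (cont_Wt E))
  refine ((h1.div (cont_A E) fun z hz => A_ne E he hz).div_const (nph i)).congr fun z _ => ?_
  unfold gami
  rw [div_mul_eq_div_div]
  congr 3
  funext x
  ring

theorem cont_nrmU {q : Par} (hd : 0 < q.d0) (he : 0 < q.eps) :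
    ContinuousOn (fun z : Ω × ℝ => nrmU q (W z.1) (F z.1) z.2) S := by
  have hchi : ContinuousOn (fun p : (Ω × ℝ) × ℝ => chi q p.1.2
      (yv (W p.1.1) (F p.1.1) p.1.2 p.2)) (S ×ˢ Ico (0 : ℝ) 1) :=
    ((cont_chi E hd).mono (Set.prod_mono le_rfl Ico_subset_Icc_self)).congr fun p hp => by
      rw [yv_eq W F hp.2]
  have h1 := cont_main E hd (Φ := fun p => chi q p.1.2 (yv (W p.1.1) (F p.1.1) p.1.2 p.2) *
    uu (W p.1.1) (F p.1.1) p.1.2 p.2 ^ 2 * Wt (yv (W p.1.1) (F p.1.1) p.1.2 p.2))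
    ((hchi.mul ((cont_uu E).pow 2)).mul (cont_Wt E))
  refine (h1.div ((cont_A E).pow 2) fun z hz => pow_ne_zero 2 (A_ne E he hz)).congr
    fun z _ => ?_
  unfold nrmU
  congr 2
  funext x
  ring

theorem cont_enU {q : Par} (hd : 0 < q.d0) (he : 0 < q.eps) :
    ContinuousOn (fun z : Ω × ℝ => enU q (W z.1) (F z.1) z.2) S := by
  unfold enU
  apply (cont_nrmU E hd he).sub
  apply continuousOn_finsetSum
  intro i _
  exact ((cont_gami E hd he i).pow 2).mul continuousOn_const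

end

/-! ### one solution -/

/-- one solution is a continuous family over `Unit` -/
theorem fml_sol {w f : Fn} {T : ℝ} (hT : T ≤ 1) (h : ConfSol 20 w f T) :
    Fml (Ω := Unit) (univ ×ˢ Ico 0 T) (fun _ => w) (fun _ => f) where
  lt := fun z hz => lt_of_lt_of_le hz.2.2 hT
  cW := h.smooth_w.continuousOn.comp (f := fun p : (Unit × ℝ) × ℝ => ((p.1.2, p.2) : ℝ × ℝ))
    (by fun_prop) fun p hp => ⟨hp.1.2, hp.2⟩
  cF := h.smooth_f.continuousOn.comp (f := fun p : (Unit × ℝ) × ℝ => ((p.1.2, p.2) : ℝ × ℝ))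
    (by fun_prop) fun p hp => ⟨hp.1.2, hp.2⟩
  cWx := (smooth_dx h.smooth_w).continuousOn.comp
    (f := fun p : (Unit × ℝ) × ℝ => ((p.1.2, p.2) : ℝ × ℝ)) (by fun_prop) fun p hp => ⟨hp.1.2, hp.2⟩
  cFx := (smooth_dx h.smooth_f).continuousOn.comp
    (f := fun p : (Unit × ℝ) × ℝ => ((p.1.2, p.2) : ℝ × ℝ)) (by fun_prop) fun p hp => ⟨hp.1.2, hp.2⟩
  dW := fun _ hz => smooth_slice h.smooth_w hz.2
  dF := fun _ hz => smooth_slice h.smooth_f hz.2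

theorem sol_gami {w f : Fn} {T : ℝ} (hT : T ≤ 1) (h : ConfSol 20 w f T) {q : Par}
    (hd : 0 < q.d0) (he : 0 < q.eps) (i : ℕ) : ContinuousOn (fun t => gami q w f i t) (Ico 0 T) :=
  (cont_gami (fml_sol hT h) hd he i).comp (f := fun t : ℝ => (((), t) : Unit × ℝ))
    (by fun_prop) fun _ ht => ⟨mem_univ _, ht⟩

theorem sol_enU {w f : Fn} {T : ℝ} (hT : T ≤ 1) (h : ConfSol 20 w f T) {q : Par}
    (hd : 0 < q.d0) (he : 0 < q.eps) : ContinuousOn (fun t => enU q w f t) (Ico 0 T) :=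
  (cont_enU (fml_sol hT h) hd he).comp (f := fun t : ℝ => (((), t) : Unit × ℝ))
    (by fun_prop) fun _ ht => ⟨mem_univ _, ht⟩

/-! ### the family of solutions -/

/-- uniform closeness and continuity of each member give joint continuity -/
theorem cont_joint {B : Set (Fin 3 → ℝ)} {Tm : (Fin 3 → ℝ) → ℝ}
    {H : (Fin 3 → ℝ) → ℝ → ℝ → ℝ}
    (hc : ∀ b ∈ B, ContinuousOn (fun z : ℝ × ℝ => H b z.1 z.2) (Ico 0 (Tm b) ×ˢ Icc (-1) 1))
    (hu : ∀ b ∈ B, ∀ T₁ ∈ Ico 0 (Tm b), ∀ ε > 0, ∀ᶠ b' in 𝓝[B] b,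
      ∀ t ∈ Icc 0 T₁, ∀ x ∈ Icc (-1 : ℝ) 1, |H b' t x - H b t x| ≤ ε) :
    ContinuousOn (fun p : ((Fin 3 → ℝ) × ℝ) × ℝ => H p.1.1 p.1.2 p.2)
      ({z : (Fin 3 → ℝ) × ℝ | z.1 ∈ B ∧ 0 ≤ z.2 ∧ z.2 < Tm z.1} ×ˢ Icc (-1) 1) := by
  rintro ⟨⟨b, t⟩, x⟩ ⟨⟨hb, ht0, htT⟩, hx⟩
  simp only at hb ht0 htT hx
  rw [ContinuousWithinAt, Metric.tendsto_nhds]
  intro ε hε
  obtain ⟨T₁, h1, h2⟩ := exists_between htT
  have hT₁ : T₁ ∈ Ico 0 (Tm b) := ⟨ht0.trans h1.le, h2⟩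
  have e1 := hu b hb T₁ hT₁ (ε / 2) (half_pos hε)
  have e2 : ∀ᶠ p in 𝓝[{z : (Fin 3 → ℝ) × ℝ | z.1 ∈ B ∧ 0 ≤ z.2 ∧ z.2 < Tm z.1} ×ˢ Icc (-1) 1]
      (((b, t), x) : ((Fin 3 → ℝ) × ℝ) × ℝ), ∀ s ∈ Icc 0 T₁, ∀ y ∈ Icc (-1 : ℝ) 1,
      |H p.1.1 s y - H b s y| ≤ ε / 2 := by
    have hmap : Tendsto (fun p : ((Fin 3 → ℝ) × ℝ) × ℝ => p.1.1)
        (𝓝[{z : (Fin 3 → ℝ) × ℝ | z.1 ∈ B ∧ 0 ≤ z.2 ∧ z.2 < Tm z.1} ×ˢ Icc (-1) 1]
        ((b, t), x)) (𝓝[B] b) := by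
      apply tendsto_nhdsWithin_of_tendsto_nhds_of_eventually_within
      · have : Continuous fun p : ((Fin 3 → ℝ) × ℝ) × ℝ => p.1.1 := by fun_prop
        exact this.continuousAt.tendsto.mono_left nhdsWithin_le_nhds
      · filter_upwards [self_mem_nhdsWithin] with p hp
        exact hp.1.1
    exact hmap.eventually e1
  have e3 : ∀ᶠ p in 𝓝[{z : (Fin 3 → ℝ) × ℝ | z.1 ∈ B ∧ 0 ≤ z.2 ∧ z.2 < Tm z.1} ×ˢ Icc (-1) 1]
      (((b, t), x) : ((Fin 3 → ℝ) × ℝ) × ℝ), p.1.2 < T₁ := by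
    have : {p : ((Fin 3 → ℝ) × ℝ) × ℝ | p.1.2 < T₁} ∈ 𝓝 (((b, t), x) : ((Fin 3 → ℝ) × ℝ) × ℝ) :=
      (isOpen_lt (by fun_prop) continuous_const).mem_nhds h1
    exact mem_nhdsWithin_of_mem_nhds this
  have e4 : Tendsto (fun p : ((Fin 3 → ℝ) × ℝ) × ℝ => H b p.1.2 p.2)
      (𝓝[{z : (Fin 3 → ℝ) × ℝ | z.1 ∈ B ∧ 0 ≤ z.2 ∧ z.2 < Tm z.1} ×ˢ Icc (-1) 1]
      ((b, t), x)) (𝓝 (H b t x)) := by
    have hc' := hc b hb (t, x) ⟨⟨ht0, htT⟩, hx⟩
    have hmap : Tendsto (fun p : ((Fin 3 → ℝ) × ℝ) × ℝ => ((p.1.2, p.2) : ℝ × ℝ))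
        (𝓝[{z : (Fin 3 → ℝ) × ℝ | z.1 ∈ B ∧ 0 ≤ z.2 ∧ z.2 < Tm z.1} ×ˢ Icc (-1) 1]
        ((b, t), x)) (𝓝[Ico 0 (Tm b) ×ˢ Icc (-1) 1] (t, x)) := by
      apply tendsto_nhdsWithin_of_tendsto_nhds_of_eventually_within
      · have : Continuous fun p : ((Fin 3 → ℝ) × ℝ) × ℝ => ((p.1.2, p.2) : ℝ × ℝ) := by fun_prop
        exact this.continuousAt.tendsto.mono_left nhdsWithin_le_nhds
      · filter_upwards [self_mem_nhdsWithin, e3] with p hp hp3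
        exact ⟨⟨hp.1.2.1, hp3.trans h2⟩, hp.2⟩
    exact hc'.tendsto.comp hmap
  have e5 := (Metric.tendsto_nhds.1 e4) (ε / 2) (half_pos hε)
  filter_upwards [e2, e3, e5, self_mem_nhdsWithin] with p h3 h4 h5 h6
  have h7 := h3 p.1.2 ⟨h6.1.2.1, h4.le⟩ p.2 h6.2
  rw [Real.dist_eq] at h5 ⊢
  calc |H p.1.1 p.1.2 p.2 - H b t x| ≤
        |H p.1.1 p.1.2 p.2 - H b p.1.2 p.2| + |H b p.1.2 p.2 - H b t x| := abs_sub_le _ _ _
    _ < ε := by linarith only [h5, h7]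

/-- the family of L1/L3 is a continuous family -/
theorem fml_fam (hL3 : L3Statement) {q : Par} {g : ℝ → ℝ} {w₀ f₀ : (Fin 3 → ℝ) → ℝ → ℝ}
    (hw₀ : ContDiffOn ℝ ∞ (fun z : (Fin 3 → ℝ) × ℝ => w₀ z.1 z.2) (univ ×ˢ Icc (-1) 1))
    (hf₀ : ContDiffOn ℝ ∞ (fun z : (Fin 3 → ℝ) × ℝ => f₀ z.1 z.2) (univ ×ˢ Icc (-1) 1))
    {Tm : (Fin 3 → ℝ) → ℝ} {w f : (Fin 3 → ℝ) → ℝ → ℝ → ℝ}
    (h : ∀ b ∈ Bx, SolFam q g w₀ f₀ Tm w f b) (hB : IsCompact Bx) :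
    Fml {z : (Fin 3 → ℝ) × ℝ | z.1 ∈ Bx ∧ 0 ≤ z.2 ∧ z.2 < Tm z.1} w f := by
  have h3 := hL3 20 (by norm_num) Bx hB w₀ f₀ hw₀ hf₀ Tm w f fun b hb =>
    ⟨(h b hb).data, (h b hb).time, (h b hb).sol, (h b hb).start, (h b hb).life⟩
  refine ⟨fun z hz => lt_of_lt_of_le hz.2.2 (h z.1 hz.1).time.2, ?_, ?_, ?_, ?_, ?_, ?_⟩
  · exact cont_joint (fun b hb => (h b hb).sol.smooth_w.continuousOn) fun b hb T₁ hT₁ ε hε =>
      (h3 b hb T₁ hT₁ ε hε).mono fun b' hb' t ht x hx => (hb'.2 t ht x hx).1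
  · exact cont_joint (fun b hb => (h b hb).sol.smooth_f.continuousOn) fun b hb T₁ hT₁ ε hε =>
      (h3 b hb T₁ hT₁ ε hε).mono fun b' hb' t ht x hx => (hb'.2 t ht x hx).2.1
  · exact cont_joint (H := fun b t => dx (w b t))
      (fun b hb => (smooth_dx (h b hb).sol.smooth_w).continuousOn) fun b hb T₁ hT₁ ε hε =>
      (h3 b hb T₁ hT₁ ε hε).mono fun b' hb' t ht x hx => (hb'.2 t ht x hx).2.2.1
  · exact cont_joint (H := fun b t => dx (f b t))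
      (fun b hb => (smooth_dx (h b hb).sol.smooth_f).continuousOn) fun b hb T₁ hT₁ ε hε =>
      (h3 b hb T₁ hT₁ ε hε).mono fun b' hb' t ht x hx => (hb'.2 t ht x hx).2.2.2
  · exact fun z hz => smooth_slice (h z.1 hz.1).sol.smooth_w hz.2
  · exact fun z hz => smooth_slice (h z.1 hz.1).sol.smooth_f hz.2

theorem compact_Bx : IsCompact Bx := by
  unfold Bx
  exact isCompact_Icc

/-- joint continuity of the modes of the family of solutions -/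
theorem fam_gami (hL3 : L3Statement) {q : Par} (hd : 0 < q.d0) (he : 0 < q.eps) {g : ℝ → ℝ}
    {w₀ f₀ : (Fin 3 → ℝ) → ℝ → ℝ}
    (hw₀ : ContDiffOn ℝ ∞ (fun z : (Fin 3 → ℝ) × ℝ => w₀ z.1 z.2) (univ ×ˢ Icc (-1) 1))
    (hf₀ : ContDiffOn ℝ ∞ (fun z : (Fin 3 → ℝ) × ℝ => f₀ z.1 z.2) (univ ×ˢ Icc (-1) 1))
    {Tm : (Fin 3 → ℝ) → ℝ} {w f : (Fin 3 → ℝ) → ℝ → ℝ → ℝ}
    (h : ∀ b ∈ Bx, SolFam q g w₀ f₀ Tm w f b) (i : ℕ) :
    ContinuousOn (fun z : (Fin 3 → ℝ) × ℝ => gami q (w z.1) (f z.1) i z.2)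
      {z : (Fin 3 → ℝ) × ℝ | z.1 ∈ Bx ∧ 0 ≤ z.2 ∧ z.2 < Tm z.1} :=
  cont_gami (fml_fam hL3 hw₀ hf₀ h compact_Bx) hd he i

end Gam

end Vale.Agent.P244.ST
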