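import Vale.Agent.P244.ST.A.Open

/-! P244, assembly A: the single-solution lemma (helper155). -/

open Set Filter
open scoped ContDiff Topology

namespace Vale.Agent.P244.ST

namespace OpA

open JA

/-- all bootstrap conditions at one time -/
structure PtB (q : Par) (g : ℝ → ℝ) (w f : Fn) (t : ℝ) : Prop where
  b5 : ∀ x ∈ Ico (0 : ℝ) 1, BootAt q g w f t x
  b6 : Boot6At q w f t
  b0 : q.N / 4 ≤ rr w f t 0

theorem boot_iff {q : Par} {g : ℝ → ℝ} {w f : Fn} {t₁ : ℝ} :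
    Boot q g w f t₁ ↔ ∀ t ∈ Icc 0 t₁, PtB q g w f t :=
  ⟨fun h t ht => ⟨h.b5 t ht, h.b6 t ht, h.b0 t ht⟩,
    fun h => ⟨fun t ht => (h t ht).b5, fun t ht => (h t ht).b6, fun t ht => (h t ht).b0⟩⟩

variable {q : Par} {g : ℝ → ℝ} {w f : Fn} {T K : ℝ}

/-- a closed-open argument on `[0,t₁]` -/
theorem clopen {P : ℝ → Prop} {t₁ : ℝ} (h0 : P 0)
    (hcl : ∀ t ∈ Ioc 0 t₁, (∀ s ∈ Ico 0 t, P s) → P t)
    (hop : ∀ t ∈ Ico 0 t₁, (∀ s ∈ Icc 0 t, P s) → ∀ᶠ s in 𝓝[>] t, P s)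
    (_h1 : 0 ≤ t₁) : ∀ t ∈ Icc 0 t₁, P t := by
  set S : Set ℝ := {t | ∀ s ∈ Icc 0 t, P s} with hS
  have hsub : Icc 0 t₁ ⊆ S := by
    refine IsClosed.Icc_subset_of_forall_exists_gt ?_ ?_ ?_
    · rw [← closure_subset_iff_isClosed]
      intro t ht
      have ht1 : t ∈ Icc 0 t₁ := by
        have : closure (S ∩ Icc 0 t₁) ⊆ Icc 0 t₁ :=
          closure_minimal inter_subset_right isClosed_Icc
        exact this ht
      refine ⟨?_, ht1⟩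
      have hlt : ∀ s ∈ Ico 0 t, P s := by
        intro s hs
        rw [mem_closure_iff] at ht
        obtain ⟨t', ht', ht2⟩ := ht (Ioi s) isOpen_Ioi hs.2
        exact ht2.1 s ⟨hs.1, ht'.le⟩
      intro s hs
      rcases hs.2.lt_or_eq with h2 | h2
      · exact hlt s ⟨hs.1, h2⟩
      · subst h2
        rcases hs.1.lt_or_eq with h3 | h3
        · exact hcl s ⟨h3, ht1.2⟩ hlt
        · rw [← h3]; exact h0
    · intro s hs
      have : s = 0 := le_antisymm hs.2 hs.1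
      rw [this]; exact h0
    · rintro t ⟨htS, ht⟩ y hy
      have h2 := hop t ht htS
      rw [eventually_nhdsWithin_iff] at h2
      obtain ⟨ε, hε, h3⟩ := Metric.eventually_nhds_iff.1 h2
      have hy' : t < y := hy
      set y' := min y (t + ε / 2) with hy'd
      have hty : t < y' := lt_min hy' (by linarith only [hε])
      refine ⟨y', ?_, hty, min_le_left _ _⟩
      intro s hs
      rcases le_or_gt s t with h4 | h4
      · exact htS s ⟨hs.1, h4⟩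
      · refine h3 ?_ h4
        rw [Real.dist_eq, abs_lt]
        have : y' ≤ t + ε / 2 := min_le_right _ _
        constructor <;> linarith only [hty, h4, this, hs, hs.2]
  exact fun t ht => hsub ht t ⟨ht.1, le_rfl⟩

/-- the single-solution lemma, with the analytic facts as hypotheses -/
theorem lemA_aux (hg : IsBub g) (hq : ParPos K q) (hK : 101 ≤ K) (h : ConfSol 20 w f T)
    (Q : Qual w f T) (hT : T ≤ 1)
    (hI : ∀ x ∈ Ico (0 : ℝ) 1, BootAtS q g w f 0 x) (hI0 : q.N / 2 ≤ rr w f 0 0)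
    (hI3 : |gami q w f 3 0 - 1| ≤ q.sg / 10) (hIE : enU q w f 0 ≤ (q.sg / 10) ^ 2)
    (hγ : ∀ i, ContinuousOn (gami q w f i) (Ico 0 T)) (hE : ContinuousOn (enU q w f) (Ico 0 T))
    (hclosed : ∀ t ∈ Ioo 0 T, (∀ s ∈ Ico 0 t, ∀ x ∈ Ico (0 : ℝ) 1, BootAt q g w f s x) →
      (∀ s ∈ Ico 0 t, q.N / 4 ≤ rr w f s 0) →
      (∀ x ∈ Ico (0 : ℝ) 1, BootAt q g w f t x) ∧ q.N / 4 ≤ rr w f t 0)
    (htip : ∀ t ∈ Ico 0 T, (∀ x ∈ Ico (0 : ℝ) 1, BootAt q g w f t x) →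
      ∃ δ > 0, ∀ s ∈ Ico 0 T, |s - t| < δ → ∀ x ∈ Ioo (1 - δ) 1, BootAt q g w f s x)
    (hclos : ∀ t₁ ∈ Ico 0 T, Boot q g w f t₁ →
      (∀ x ∈ Ico (0 : ℝ) 1, BootAtS q g w f t₁ x) ∧ q.N / 4 < rr w f t₁ 0 ∧
      |gami q w f 3 t₁ - 1| < q.sg ∧ enU q w f t₁ < q.sg ^ 2)
    {t₁ : ℝ} (ht₁ : t₁ ∈ Ico 0 T) (hlow : ∀ t ∈ Icc 0 t₁, ∀ i < 3, |gami q w f i t| ≤ q.sg) :
    Boot q g w f t₁ := by
  rw [boot_iff]
  have hsg := hq.sg
  have hNpos : 0 < q.N := by linarith only [hq, hK, hq.N]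
  refine clopen ?_ ?_ ?_ ht₁.1
  · refine ⟨fun x hx => ?_, ⟨by linarith only [hI3, hsg], fun i hi => hlow 0 ⟨le_rfl, ht₁.1⟩ i hi, ?_⟩,
      by linarith only [hI0, hNpos]⟩
    · have hx' := hI x hx
      exact ⟨fun a b => ⟨(hx'.b1 a b).1, (hx'.b1 a b).2.le⟩, fun a b => (hx'.b2 a b).le,
        hx'.b3.le, fun a b => ⟨(hx'.b4 a b).1.le, (hx'.b4 a b).2.1.le, (hx'.b4 a b).2.2.le⟩,
        fun a => ⟨(hx'.b5 a).1.le, (hx'.b5 a).2.1.le, (hx'.b5 a).2.2.le⟩⟩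
    · nlinarith only [hIE]
  · intro t ht hP
    have htT : t ∈ Ioo 0 T := ⟨ht.1, lt_of_le_of_lt ht.2 ht₁.2⟩
    have htI : t ∈ Ico 0 T := ⟨ht.1.le, htT.2⟩
    obtain ⟨c1, c2⟩ := hclosed t htT (fun s hs => (hP s hs).b5) (fun s hs => (hP s hs).b0)
    -- limits from the left
    have hne : (𝓝[Ico 0 t] t).NeBot := by
      rw [← mem_closure_iff_nhdsWithin_neBot, closure_Ico ht.1.ne]
      exact ⟨ht.1.le, le_rfl⟩
    have hmono : 𝓝[Ico 0 t] t ≤ 𝓝[Ico 0 T] t :=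
      nhdsWithin_mono _ (Ico_subset_Ico_right htT.2.le)
    have g3 : Tendsto (fun s => |gami q w f 3 s - 1|) (𝓝[Ico 0 t] t)
        (𝓝 |gami q w f 3 t - 1|) := (((hγ 3 t htI).tendsto.mono_left hmono).sub_const 1).abs
    have gE : Tendsto (enU q w f) (𝓝[Ico 0 t] t) (𝓝 (enU q w f t)) :=
      (hE t htI).tendsto.mono_left hmono
    refine ⟨c1, ⟨?_, fun i hi => hlow t ⟨ht.1.le, ht.2⟩ i hi, ?_⟩, c2⟩
    · refine le_of_tendsto g3 ?_
      filter_upwards [self_mem_nhdsWithin] with s hs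
      exact (hP s hs).b6.main
    · refine le_of_tendsto gE ?_
      filter_upwards [self_mem_nhdsWithin] with s hs
      exact (hP s hs).b6.en
  · intro t ht hP
    have htI : t ∈ Ico 0 T := ⟨ht.1, lt_trans ht.2 ht₁.2⟩
    have hB : Boot q g w f t := boot_iff.2 hP
    obtain ⟨c1, c2, c3, c4⟩ := hclos t htI hB
    have o1 := open_step hg hq hK h Q hT htI c1 c2 (htip t htI (hB.b5 t ⟨ht.1, le_rfl⟩))
    have o2 : ∀ᶠ s in 𝓝[Ico 0 T] t, |gami q w f 3 s - 1| < q.sg :=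
      (((hγ 3 t htI).tendsto.sub_const 1).abs).eventually_lt_const c3
    have o3 : ∀ᶠ s in 𝓝[Ico 0 T] t, enU q w f s < q.sg ^ 2 :=
      (hE t htI).tendsto.eventually_lt_const c4
    have hmono : 𝓝[>] t ≤ 𝓝[Ico 0 T] t := by
      rw [nhdsWithin_le_iff]
      filter_upwards [Ioo_mem_nhdsGT htI.2] with s hs
      exact ⟨htI.1.trans hs.1.le, hs.2⟩
    have o4 : ∀ᶠ s in 𝓝[>] t, s ∈ Icc 0 t₁ := by
      filter_upwards [Ioo_mem_nhdsGT ht.2] with s hs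
      exact ⟨ht.1.trans hs.1.le, hs.2.le⟩
    filter_upwards [hmono o1, hmono o2, hmono o3, o4] with s a1 a2 a3 a4
    exact ⟨a1.1, ⟨a2.le, fun i hi => hlow s a4 i hi, a3.le⟩, a1.2⟩

end OpA

end Vale.Agent.P244.ST
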