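import Vale.Agent.P244.ST.A.JetA
import Vale.Agent.P244.ST.A.EvLem

/-! P244, assembly A: openness of the bootstrap for one solution (helper155). -/

open Set Filter
open scoped ContDiff Topology

namespace Vale.Agent.P244.ST

namespace OpA

open JA

variable {q : Par} {g : ℝ → ℝ} {w f : Fn} {T K : ℝ}

theorem tauT {z : ℝ × ℝ} : Tendsto (fun z' : ℝ × ℝ => tau z'.1) (𝓝[Di T] z) (𝓝 (tau z.1)) := by
  have h : Continuous fun z' : ℝ × ℝ => tau z'.1 := by unfold tau; fun_prop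
  exact h.continuousWithinAt

theorem AT {z : ℝ × ℝ} (hτ : 0 < tau z.1) :
    Tendsto (fun z' : ℝ × ℝ => q.A z'.1) (𝓝[Di T] z) (𝓝 (q.A z.1)) :=
  ((tauT (T := T)).rpow_const (Or.inl hτ.ne')).const_mul q.eps

theorem A_pos (hq : ParPos K q) {t : ℝ} (hτ : 0 < tau t) : 0 < q.A t :=
  mul_pos hq.eps (Real.rpow_pos_of_pos hτ _)

theorem T0_pos (hq : ParPos K q) {t : ℝ} (hτ : 0 < tau t) : 0 < q.T0 t :=
  mul_pos (A_pos hq hτ) (Real.rpow_pos_of_pos hq.rho0 _)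

theorem T0T {z : ℝ × ℝ} (hτ : 0 < tau z.1) :
    Tendsto (fun z' : ℝ × ℝ => q.T0 z'.1) (𝓝[Di T] z) (𝓝 (q.T0 z.1)) :=
  (AT hτ).mul_const _

theorem sqT {z : ℝ × ℝ} : Tendsto (fun z' : ℝ × ℝ => Real.sqrt (tau z'.1)) (𝓝[Di T] z)
    (𝓝 (Real.sqrt (tau z.1))) := (tauT (T := T)).sqrt

theorem tanh_pos {u : ℝ} (hu : 0 < u) : 0 < Real.tanh u := by
  rw [Real.tanh_eq_sinh_div_cosh]
  exact div_pos (Real.sinh_pos_iff.2 hu) (Real.cosh_pos u)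

theorem cont_tanh : Continuous Real.tanh := by
  have : Real.tanh = fun x => Real.sinh x / Real.cosh x := by
    funext x; exact Real.tanh_eq_sinh_div_cosh x
  rw [this]
  exact Real.continuous_sinh.div Real.continuous_cosh fun x => (Real.cosh_pos x).ne'

theorem fbT (hq : ParPos K q) {z : ℝ × ℝ} (hτ : 0 < tau z.1) {U : ℝ × ℝ → ℝ}
    (hU : Tendsto U (𝓝[Di T] z) (𝓝 (U z))) (hu : 0 < U z) :
    Tendsto (fun z' : ℝ × ℝ => q.fb z'.1 (U z')) (𝓝[Di T] z) (𝓝 (q.fb z.1 (U z))) := by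
  have h1 := (tendsto_const_nhds (x := q.B)).div (tauT (T := T) (z := z)) hτ.ne'
  have h2 := ((cont_tanh.tendsto _).comp hU).div (T0T (q := q) (T := T) hτ) (T0_pos hq hτ).ne'
  have h3 := h2.rpow_const (p := aa) (Or.inl (div_pos (tanh_pos hu) (T0_pos hq hτ)).ne')
  have h4 := ((Real.continuous_cosh.tendsto _).comp hU).rpow_const (p := -(1 - aa))
    (Or.inl (Real.cosh_pos _).ne')
  exact (h1.mul h3).mul h4

theorem VbT (hq : ParPos K q) {z : ℝ × ℝ} (hτ : 0 < tau z.1) {U : ℝ × ℝ → ℝ}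
    (hU : Tendsto U (𝓝[Di T] z) (𝓝 (U z))) (hu : 0 < U z) :
    Tendsto (fun z' : ℝ × ℝ => q.Vb z'.1 (U z')) (𝓝[Di T] z) (𝓝 (q.Vb z.1 (U z))) := by
  have h1 := (tendsto_const_nhds (x := q.BV)).div (tauT (T := T) (z := z)) hτ.ne'
  have h2 := ((cont_tanh.tendsto _).comp hU).div (T0T (q := q) (T := T) hτ) (T0_pos hq hτ).ne'
  have h3 := h2.rpow_const (p := aa) (Or.inl (div_pos (tanh_pos hu) (T0_pos hq hτ)).ne')
  have h4 := ((Real.continuous_cosh.tendsto _).comp hU).rpow_const (p := aa)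
    (Or.inl (Real.cosh_pos _).ne')
  exact ((h1.mul h3).mul ((cont_tanh.tendsto _).comp hU)).mul h4

theorem powT {z : ℝ × ℝ} {U : ℝ × ℝ → ℝ} {p : ℝ}
    (hU : Tendsto U (𝓝[Di T] z) (𝓝 (U z))) (hu : 0 < U z) :
    Tendsto (fun z' : ℝ × ℝ => (U z') ^ p) (𝓝[Di T] z) (𝓝 ((U z) ^ p)) :=
  hU.rpow_const (Or.inl hu.ne')

theorem RBT {z : ℝ × ℝ} (hτ : 0 < tau z.1) {U r : ℝ × ℝ → ℝ}
    (hU : Tendsto U (𝓝[Di T] z) (𝓝 (U z))) (hr : Tendsto r (𝓝[Di T] z) (𝓝 (r z))) :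
    Tendsto (fun z' : ℝ × ℝ => q.RB z'.1 (r z') (U z')) (𝓝[Di T] z)
      (𝓝 (q.RB z.1 (r z) (U z))) := by
  have ht : Tendsto (fun z' : ℝ × ℝ => z'.1) (𝓝[Di T] z) (𝓝 z.1) :=
    continuous_fst.continuousWithinAt
  have h1 : Tendsto (fun z' : ℝ × ℝ => q.eta * (1 + z'.1)) (𝓝[Di T] z)
    (𝓝 (q.eta * (1 + z.1))) := (ht.const_add 1).const_mul _
  have h2 : Tendsto (fun z' : ℝ × ℝ => tau z'.1 + (r z') ^ 2 / 100) (𝓝[Di T] z)
    (𝓝 (tau z.1 + (r z) ^ 2 / 100)) := tauT.add ((hr.pow 2).div_const _)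
  have h3 := powT (p := -gam) (U := fun z' : ℝ × ℝ => tau z'.1 + (r z') ^ 2 / 100) h2
    (by positivity)
  have h4 : Tendsto (fun z' : ℝ × ℝ => q.GR * (r z') ^ 2 * (Real.cosh (U z') - 1) *
      q.eps ^ (-(2 * aa))) (𝓝[Di T] z) (𝓝 (q.GR * (r z) ^ 2 * (Real.cosh (U z) - 1) *
      q.eps ^ (-(2 * aa)))) :=
    (((hr.pow 2).const_mul _).mul
      (((Real.continuous_cosh.tendsto _).comp hU).sub_const 1)).mul_const _
  exact h1.add (h4.mul h3)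

theorem UBT {z : ℝ × ℝ} {r : ℝ × ℝ → ℝ}
    (hr : Tendsto r (𝓝[Di T] z) (𝓝 (r z))) (hr0 : 0 < r z) :
    Tendsto (fun z' : ℝ × ℝ => q.UB z'.1 (r z')) (𝓝[Di T] z) (𝓝 (q.UB z.1 (r z))) := by
  unfold Par.UB
  exact (((powT hr hr0).sub (((tauT (T := T)).const_mul 300).mul (powT hr hr0)))).const_mul _

theorem PBT {z : ℝ × ℝ} {r : ℝ × ℝ → ℝ}
    (hr : Tendsto r (𝓝[Di T] z) (𝓝 (r z))) (hr0 : 0 < r z) :
    Tendsto (fun z' : ℝ × ℝ => q.PB z'.1 (r z')) (𝓝[Di T] z) (𝓝 (q.PB z.1 (r z))) := by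
  unfold Par.PB
  exact (((powT hr hr0).sub (((tauT (T := T)).const_mul 300).mul (powT hr hr0)))).const_mul _

theorem VBT {z : ℝ × ℝ} {r : ℝ × ℝ → ℝ}
    (hr : Tendsto r (𝓝[Di T] z) (𝓝 (r z))) (hr0 : 0 < r z) :
    Tendsto (fun z' : ℝ × ℝ => q.VB z'.1 (r z')) (𝓝[Di T] z) (𝓝 (q.VB z.1 (r z))) := by
  unfold Par.VB
  have ht : Tendsto (fun z' : ℝ × ℝ => q.CV * q.eps * Real.exp z'.1) (𝓝[Di T] z)
      (𝓝 (q.CV * q.eps * Real.exp z.1)) :=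
    ((Real.continuous_exp.comp continuous_fst).continuousWithinAt.tendsto).const_mul _
  exact ht.mul (((powT hr hr0).sub (((tauT (T := T)).const_mul 300).mul (powT hr hr0))))

/-- strict bootstrap at a point implies the bootstrap near that point -/
theorem boot_nhds (hg : IsBub g) (hq : ParPos K q) (hK : 101 ≤ K) (h : ConfSol 20 w f T)
    (Q : Qual w f T) (hT : T ≤ 1) {z : ℝ × ℝ} (ht : z.1 ∈ Ico 0 T) (hx : z.2 ∈ Ico (0 : ℝ) 1)
    (hS : BootAtS q g w f z.1 z.2) (hr : q.N / 4 < rr w f z.1 0) :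
    ∀ᶠ z' in 𝓝[Di T] z, BootAt q g w f z'.1 z'.2 := by
  have hz : z ∈ Di T := ⟨ht, by linarith only [hx, hx.1], hx.2⟩
  have hτ : 0 < tau z.1 := tau_pos hT ht
  have hτ1 : tau z.1 ≤ 1 := by unfold tau; linarith only [ht, ht.1]
  have hrpos : 0 < rr w f z.1 z.2 := Real.exp_pos _
  have hu : Tendsto (fun z' : ℝ × ℝ => uu w f z'.1 z'.2) (𝓝[Di T] z) (𝓝 (uu w f z.1 z.2)) :=
    cont_uu h z hz
  have hrr : Tendsto (fun z' : ℝ × ℝ => rr w f z'.1 z'.2) (𝓝[Di T] z) (𝓝 (rr w f z.1 z.2)) :=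
    cont_rr h z hz
  have hy : Tendsto (fun z' : ℝ × ℝ => yv w f z'.1 z'.2) (𝓝[Di T] z) (𝓝 (yv w f z.1 z.2)) :=
    cont_yv h hT z hz
  have hP : Tendsto (fun z' : ℝ × ℝ => PP w f z'.1 z'.2) (𝓝[Di T] z) (𝓝 (PP w f z.1 z.2)) :=
    cont_PP h z hz
  have hV : Tendsto (fun z' : ℝ × ℝ => VV w f z'.1 z'.2) (𝓝[Di T] z) (𝓝 (VV w f z.1 z.2)) :=
    cont_VV h z hz
  have hR : Tendsto (fun z' : ℝ × ℝ => RR w f z'.1 z'.2) (𝓝[Di T] z) (𝓝 (RR w f z.1 z.2)) :=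
    cont_RR h z hz
  have hA : Tendsto (fun z' : ℝ × ℝ => q.A z'.1) (𝓝[Di T] z) (𝓝 (q.A z.1)) := AT hτ
  -- `y > 25` at the equator
  have hy0 : 25 < yv w f z.1 0 := by
    have h1 : 25 < rr w f z.1 0 := by linarith only [hq, hK, hr, hq.N]
    have h2 : Real.sqrt (tau z.1) ≤ 1 := Real.sqrt_le_one.2 hτ1 |>.trans le_rfl
    have h3 : 0 < Real.sqrt (tau z.1) := Real.sqrt_pos.2 hτ
    unfold yv
    rw [lt_div_iff₀ h3]
    nlinarith only [h1, h2]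
  have hrho : q.rho0 < 1 := lt_of_le_of_lt hq.rho0' (by
    rw [div_lt_one (by linarith only [hK])]; linarith only [hK])
  -- b1
  have e1 : ∀ᶠ z' in 𝓝[Di T] z, 0 < z'.2 → yv w f z'.1 z'.2 ≤ q.rho0 →
      0 < uu w f z'.1 z'.2 ∧ |ff g w f z'.1 z'.2| ≤ q.fb z'.1 (uu w f z'.1 z'.2) ∧
        |VV w f z'.1 z'.2| ≤ q.Vb z'.1 (uu w f z'.1 z'.2) := by
    by_cases hc : q.rho0 < yv w f z.1 z.2
    · filter_upwards [hy.eventually_const_lt hc] with z' hz' _ h2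
      linarith only [hz', h2]
    · push Not at hc
      have hx0 : 0 < z.2 := by
        rcases hx.1.lt_or_eq with h1 | h1
        · exact h1
        · rw [← h1] at hc; linarith only [hy0, hrho, hc]
      obtain ⟨u0, f0⟩ := hS.b1 hx0 hc
      have v0 := hS.b2 hx0 hc
      have hrs : rs w f z.1 z.2 ≠ 0 := (Q.rs_pos z.1 ht z.2 ⟨hx0, hx.2⟩).ne'
      have hrsT : Tendsto (fun z' : ℝ × ℝ => rs w f z'.1 z'.2) (𝓝[Di T] z)
        (𝓝 (rs w f z.1 z.2)) := cont_rs h z hz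
      have hG : Tendsto (fun z' : ℝ × ℝ => GG w f z'.1 z'.2) (𝓝[Di T] z)
        (𝓝 (GG w f z.1 z.2)) := (hP.div hrsT hrs).neg
      have hgc : Tendsto g (𝓝 (uu w f z.1 z.2)) (𝓝 (g (uu w f z.1 z.2))) :=
        (hg.ode _ u0).continuousAt
      have hgpos : 0 < g (uu w f z.1 z.2) := lt_trans
        (mul_pos two_pos (tanh_pos u0)) (hg.lower _ u0)
      have hgT := hgc.comp hu
      have hee : Tendsto (fun z' : ℝ × ℝ => ff g w f z'.1 z'.2) (𝓝[Di T] z)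
          (𝓝 (ff g w f z.1 z.2)) :=
        ((hG.div hgT hgpos.ne').const_sub 1).div (hrr.pow 2) (by positivity)
      have h1 := hu.eventually_const_lt u0
      have h2 := hee.abs.eventually_lt (fbT hq hτ hu u0) f0
      have h3 := hV.abs.eventually_lt (VbT hq hτ hu u0) v0
      filter_upwards [h1, h2, h3] with z' a1 a2 a3 _ _
      exact ⟨a1, a2.le, a3.le⟩
  -- b3
  have e3 : ∀ᶠ z' in 𝓝[Di T] z, RR w f z'.1 z'.2 ≤
      q.RB z'.1 (rr w f z'.1 z'.2) (uu w f z'.1 z'.2) :=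
    (hR.eventually_lt (RBT hτ hu hrr) hS.b3).mono fun _ h => h.le
  -- b4
  have e4 : ∀ᶠ z' in 𝓝[Di T] z, q.rho0 ≤ yv w f z'.1 z'.2 → yv w f z'.1 z'.2 ≤ 25 →
      |uu w f z'.1 z'.2| ≤ q.MU * q.A z'.1 ∧
      |PP w f z'.1 z'.2| ≤ q.MP * q.A z'.1 / Real.sqrt (tau z'.1) ∧
      |VV w f z'.1 z'.2| ≤ q.MV * q.A z'.1 / tau z'.1 := by
    by_cases hc : yv w f z.1 z.2 < q.rho0
    · filter_upwards [hy.eventually_lt_const hc] with z' hz' h1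
      linarith only [hz', h1]
    by_cases hc' : 25 < yv w f z.1 z.2
    · filter_upwards [hy.eventually_const_lt hc'] with z' hz' _ h1
      linarith only [hz', h1]
    push Not at hc hc'
    obtain ⟨u0, p0, v0⟩ := hS.b4 hc hc'
    have h1 := hu.abs.eventually_lt (hA.const_mul q.MU) u0
    have h2 := hP.abs.eventually_lt ((hA.const_mul q.MP).div sqT (Real.sqrt_pos.2 hτ).ne') p0
    have h3 := hV.abs.eventually_lt ((hA.const_mul q.MV).div tauT hτ.ne') v0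
    filter_upwards [h1, h2, h3] with z' a1 a2 a3 _ _
    exact ⟨a1.le, a2.le, a3.le⟩
  -- b5
  have e5 : ∀ᶠ z' in 𝓝[Di T] z, 25 ≤ yv w f z'.1 z'.2 →
      |uu w f z'.1 z'.2| ≤ q.UB z'.1 (rr w f z'.1 z'.2) ∧
      |PP w f z'.1 z'.2| ≤ q.PB z'.1 (rr w f z'.1 z'.2) ∧
      |VV w f z'.1 z'.2| ≤ q.VB z'.1 (rr w f z'.1 z'.2) := by
    by_cases hc : yv w f z.1 z.2 < 25
    · filter_upwards [hy.eventually_lt_const hc] with z' hz' h1
      linarith only [hz', h1]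
    push Not at hc
    obtain ⟨u0, p0, v0⟩ := hS.b5 hc
    have h1 := hu.abs.eventually_lt (UBT hrr hrpos) u0
    have h2 := hP.abs.eventually_lt (PBT hrr hrpos) p0
    have h3 := hV.abs.eventually_lt (VBT hrr hrpos) v0
    filter_upwards [h1, h2, h3] with z' a1 a2 a3 _
    exact ⟨a1.le, a2.le, a3.le⟩
  filter_upwards [e1, e3, e4, e5] with z' a1 a3 a4 a5
  exact ⟨fun b1 b2 => ⟨(a1 b1 b2).1, (a1 b1 b2).2.1⟩, fun b1 b2 => (a1 b1 b2).2.2, a3, a4, a5⟩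

/-- openness in time -/
theorem open_step (hg : IsBub g) (hq : ParPos K q) (hK : 101 ≤ K) (h : ConfSol 20 w f T)
    (Q : Qual w f T) (hT : T ≤ 1) {t : ℝ} (ht : t ∈ Ico 0 T)
    (hS : ∀ x ∈ Ico (0 : ℝ) 1, BootAtS q g w f t x) (hr : q.N / 4 < rr w f t 0)
    (tip : ∃ δ > 0, ∀ s ∈ Ico 0 T, |s - t| < δ → ∀ x ∈ Ioo (1 - δ) 1, BootAt q g w f s x) :
    ∀ᶠ s in 𝓝[Ico 0 T] t, (∀ x ∈ Ico (0 : ℝ) 1, BootAt q g w f s x) ∧
      q.N / 4 ≤ rr w f s 0 := by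
  obtain ⟨δ, hδ, tip⟩ := tip
  have h1 : ∀ᶠ s in 𝓝 t, ∀ x ∈ Icc (0 : ℝ) (1 - δ), s ∈ Ico 0 T → BootAt q g w f s x := by
    refine IsCompact.eventually_forall_of_forall_eventually isCompact_Icc fun x hx => ?_
    have hx1 : x ∈ Ico (0 : ℝ) 1 := ⟨hx.1, by linarith only [hδ, hx, hx.2]⟩
    have h2 := boot_nhds hg hq hK h Q hT (z := (t, x)) ht hx1 (hS x hx1) hr
    rw [eventually_nhdsWithin_iff] at h2
    have h3 : ∀ᶠ z' : ℝ × ℝ in 𝓝 (t, x), z'.2 ∈ Ioo (-1 : ℝ) 1 := by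
      have : Tendsto (fun z' : ℝ × ℝ => z'.2) (𝓝 (t, x)) (𝓝 x) := continuous_snd.tendsto _
      exact this.eventually (Ioo_mem_nhds (by linarith only [hx1, hx1.1]) hx1.2)
    filter_upwards [h2, h3] with z' a1 a2 a3
    exact a1 ⟨a3, a2⟩
  have h4 : ∀ᶠ s in 𝓝 t, |s - t| < δ := by
    have : Tendsto (fun s : ℝ => |s - t|) (𝓝 t) (𝓝 |t - t|) :=
      (by fun_prop : Continuous fun s : ℝ => |s - t|).tendsto _
    simp only [sub_self, abs_zero] at this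
    exact this.eventually_lt_const hδ
  have h5 : ∀ᶠ s in 𝓝[Ico 0 T] t, q.N / 4 < rr w f s 0 := by
    have hc : ContinuousOn (fun s : ℝ => rr w f s 0) (Ico 0 T) :=
      (cont_rr h).comp (f := fun s : ℝ => ((s, 0) : ℝ × ℝ)) (by fun_prop)
        fun s hs => ⟨hs, by norm_num⟩
    exact (hc t ht).tendsto.eventually_const_lt hr
  filter_upwards [eventually_nhdsWithin_of_eventually_nhds h1,
    eventually_nhdsWithin_of_eventually_nhds h4, h5, self_mem_nhdsWithin] with s a1 a2 a3 a4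
  refine ⟨fun x hx => ?_, a3.le⟩
  by_cases hc : x ≤ 1 - δ
  · exact a1 x ⟨hx.1, hc⟩ a4
  · push Not at hc
    exact tip s a4 a2 x ⟨hc, hx.2⟩

end OpA

end Vale.Agent.P244.ST
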