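import Vale.Agent.P244.ST.A.EvLem

/-!
# P244-ST, block A: the family of solutions (helper57)
-/

open Set Filter
open scoped ContDiff Topology

namespace Vale.Agent.P244.ST

/-! ### dependence on the time slice only -/

section slice

variable (g : ℝ → ℝ) (w f : Fn) (t x : ℝ)

theorem uu_slice : uu w f t x = uu (fun _ => w t) (fun _ => f t) t x := rfl
theorem rr_slice : rr w f t x = rr (fun _ => w t) (fun _ => f t) t x := rfl
theorem yv_slice : yv w f t x = yv (fun _ => w t) (fun _ => f t) t x := rfl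
theorem rs_slice : rs w f t x = rs (fun _ => w t) (fun _ => f t) t x := rfl
theorem PP_slice : PP w f t x = PP (fun _ => w t) (fun _ => f t) t x := rfl
theorem VV_slice : VV w f t x = VV (fun _ => w t) (fun _ => f t) t x := rfl
theorem RR_slice : RR w f t x = RR (fun _ => w t) (fun _ => f t) t x := rfl
theorem GG_slice : GG w f t x = GG (fun _ => w t) (fun _ => f t) t x := rfl
theorem ff_slice : ff g w f t x = ff g (fun _ => w t) (fun _ => f t) t x := rfl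
theorem gami_slice (q : Par) (i : ℕ) : gami q w f i t = gami q (fun _ => w t) (fun _ => f t) i t :=
  rfl
theorem enU_slice (q : Par) : enU q w f t = enU q (fun _ => w t) (fun _ => f t) t := rfl

end slice

theorem BootAtS.of_slice {q : Par} {g : ℝ → ℝ} {w f : Fn} {x : ℝ}
    (h : BootAtS q g (fun _ => w 0) (fun _ => f 0) 0 x) : BootAtS q g w f 0 x :=
  ⟨h.b1, h.b2, h.b3, h.b4, h.b5⟩

/-- `InitOK` only depends on the time slice `t = 0`. -/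
theorem InitOK.of_slice {q : Par} {g : ℝ → ℝ} {b : Fin 3 → ℝ} {w f : Fn}
    (h : InitOK q g b (fun _ => w 0) (fun _ => f 0)) : InitOK q g b w f where
  R_nonneg := h.R_nonneg
  rs_lower := h.rs_lower
  G_lt := h.G_lt
  boot := fun x hx => (h.boot x hx).of_slice
  equator := h.equator
  equator_le := h.equator_le
  close_u := h.close_u
  close_P := h.close_P
  bound_V := h.bound_V
  mode_main := h.mode_main
  mode_low := h.mode_low
  en := h.en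

/-! ### modification outside `[-1,1]` -/

theorem dx_congr {h h' : ℝ → ℝ} (hh : ∀ y ∈ Icc (-1 : ℝ) 1, h y = h' y) {x : ℝ}
    (hx : x ∈ Icc (-1 : ℝ) 1) : dx h x = dx h' x :=
  derivWithin_congr hh (hh x hx)

theorem lap_congr {p : ℕ} {h h' : ℝ → ℝ} (hh : ∀ y ∈ Icc (-1 : ℝ) 1, h y = h' y) {x : ℝ}
    (hx : x ∈ Icc (-1 : ℝ) 1) : lap p h x = lap p h' x := by
  unfold lap
  rw [dx_congr (fun y hy => dx_congr hh hy) hx, dx_congr hh hx]

theorem Jf_congr {p : ℕ} {w w' f f' : ℝ → ℝ} (hw : ∀ y ∈ Icc (-1 : ℝ) 1, w y = w' y)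
    (hf : ∀ y ∈ Icc (-1 : ℝ) 1, f y = f' y) {x : ℝ} (hx : x ∈ Icc (-1 : ℝ) 1) :
    Jf p w f x = Jf p w' f' x := by
  unfold Jf
  apply intervalIntegral.integral_congr
  intro y hy
  have hy' : y ∈ Icc (-1 : ℝ) 1 := by
    have h0 : (0 : ℝ) ∈ Icc (-1 : ℝ) 1 := ⟨by norm_num, by norm_num⟩
    exact (uIcc_subset_Icc h0 hx) hy
  simp only [Jd]
  rw [hw y hy', dx_congr hw hy', dx_congr hf hy']

theorem rhsW_congr {p : ℕ} {w w' f f' : ℝ → ℝ} (hw : ∀ y ∈ Icc (-1 : ℝ) 1, w y = w' y)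
    (hf : ∀ y ∈ Icc (-1 : ℝ) 1, f y = f' y) {x : ℝ} (hx : x ∈ Icc (-1 : ℝ) 1) :
    rhsW p w f x = rhsW p w' f' x := by
  unfold rhsW
  rw [hw x hx, lap_congr hw hx, dx_congr hw hx, Jf_congr hw hf hx]

theorem rhsF_congr {p : ℕ} {w w' f f' : ℝ → ℝ} (hw : ∀ y ∈ Icc (-1 : ℝ) 1, w y = w' y)
    (hf : ∀ y ∈ Icc (-1 : ℝ) 1, f y = f' y) {x : ℝ} (hx : x ∈ Icc (-1 : ℝ) 1) :
    rhsF p w f x = rhsF p w' f' x := by
  unfold rhsF
  rw [hw x hx, hf x hx, lap_congr hf hx, dx_congr hf hx, Jf_congr hw hf hx]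

theorem size1_congr {w w' f f' : ℝ → ℝ} (hw : ∀ y ∈ Icc (-1 : ℝ) 1, w y = w' y)
    (hf : ∀ y ∈ Icc (-1 : ℝ) 1, f y = f' y) {x : ℝ} (hx : x ∈ Icc (-1 : ℝ) 1) :
    size1 w f x = size1 w' f' x := by
  unfold size1
  rw [hw x hx, hf x hx, dx_congr hw hx, dx_congr hf hx]

theorem ConfSol.congr {p : ℕ} {w f w' f' : ℝ → ℝ → ℝ} {T : ℝ} (h : ConfSol p w f T)
    (hw : ∀ t, ∀ y ∈ Icc (-1 : ℝ) 1, w' t y = w t y)
    (hf : ∀ t, ∀ y ∈ Icc (-1 : ℝ) 1, f' t y = f t y) : ConfSol p w' f' T where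
  smooth_w := h.smooth_w.congr fun z hz => hw z.1 z.2 hz.2
  smooth_f := h.smooth_f.congr fun z hz => hf z.1 z.2 hz.2
  even_w := fun t ht x hx => by
    rw [hw t x hx, hw t (-x) ⟨by linarith only [hx, hx.2], by linarith only [hx, hx.1]⟩, h.even_w t ht x hx]
  even_f := fun t ht x hx => by
    rw [hf t x hx, hf t (-x) ⟨by linarith only [hx, hx.2], by linarith only [hx, hx.1]⟩, h.even_f t ht x hx]
  eq_w := fun t ht x hx => by
    rw [rhsW_congr (hw t) (hf t) hx, show (fun s => w' s x) = fun s => w s x from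
      funext fun s => hw s x hx]
    exact h.eq_w t ht x hx
  eq_f := fun t ht x hx => by
    rw [rhsF_congr (hw t) (hf t) hx, show (fun s => f' s x) = fun s => f s x from
      funext fun s => hf s x hx]
    exact h.eq_f t ht x hx

/-- What L1 gives for the data of block B. -/
structure SolFam (q : Par) (g : ℝ → ℝ) (w₀ f₀ : (Fin 3 → ℝ) → ℝ → ℝ)
    (Tm : (Fin 3 → ℝ) → ℝ) (w f : (Fin 3 → ℝ) → ℝ → ℝ → ℝ) (b : Fin 3 → ℝ) : Prop where
  data : ConfData (w₀ b) (f₀ b)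
  time : Tm b ∈ Ioc (0 : ℝ) 1
  sol : ConfSol 20 (w b) (f b) (Tm b)
  start : ∀ x ∈ Icc (-1 : ℝ) 1, w b 0 x = w₀ b x ∧ f b 0 x = f₀ b x
  life : Tm b = 1 ∨ ∀ A : ℝ, ∃ t ∈ Ico 0 (Tm b), ∃ x ∈ Icc (-1 : ℝ) 1,
    A < size1 (w b t) (f b t) x
  init : InitOK q g b (w b) (f b)

theorem exists_solFam (hL1 : L1Statement) {q : Par} {g : ℝ → ℝ}
    {w₀ f₀ : (Fin 3 → ℝ) → ℝ → ℝ}
    (h : ∀ b ∈ Bx, ConfData (w₀ b) (f₀ b) ∧ InitOK q g b (fun _ => w₀ b) (fun _ => f₀ b)) :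
    ∃ (Tm : (Fin 3 → ℝ) → ℝ) (w f : (Fin 3 → ℝ) → ℝ → ℝ → ℝ),
      ∀ b ∈ Bx, SolFam q g w₀ f₀ Tm w f b := by
  classical
  have key : ∀ b ∈ Bx, ∃ (T : ℝ) (w f : ℝ → ℝ → ℝ), T ∈ Ioc (0 : ℝ) 1 ∧ ConfSol 20 w f T ∧
      (∀ x ∈ Icc (-1 : ℝ) 1, w 0 x = w₀ b x ∧ f 0 x = f₀ b x) ∧
      (T = 1 ∨ ∀ A : ℝ, ∃ t ∈ Ico 0 T, ∃ x ∈ Icc (-1 : ℝ) 1, A < size1 (w t) (f t) x) ∧
      InitOK q g b w f := by
    intro b hb
    obtain ⟨T, hT, w, f, hsol, hst, hlife⟩ := hL1 20 (by norm_num) (w₀ b) (f₀ b) (h b hb).1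
    set w' : ℝ → ℝ → ℝ := fun t x => if x ∈ Icc (-1 : ℝ) 1 then w t x else w₀ b x with hw'
    set f' : ℝ → ℝ → ℝ := fun t x => if x ∈ Icc (-1 : ℝ) 1 then f t x else f₀ b x with hf'
    have ew : ∀ t, ∀ y ∈ Icc (-1 : ℝ) 1, w' t y = w t y := fun t y hy => by
      simp only [hw', if_pos hy]
    have ef : ∀ t, ∀ y ∈ Icc (-1 : ℝ) 1, f' t y = f t y := fun t y hy => by
      simp only [hf', if_pos hy]
    have ew0 : w' 0 = w₀ b := by
      funext x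
      by_cases hx : x ∈ Icc (-1 : ℝ) 1
      · rw [ew 0 x hx, (hst x hx).1]
      · simp only [hw', if_neg hx]
    have ef0 : f' 0 = f₀ b := by
      funext x
      by_cases hx : x ∈ Icc (-1 : ℝ) 1
      · rw [ef 0 x hx, (hst x hx).2]
      · simp only [hf', if_neg hx]
    refine ⟨T, w', f', hT, hsol.congr ew ef, ?_, ?_, ?_⟩
    · intro x _
      rw [ew0, ef0]
      exact ⟨rfl, rfl⟩
    · rcases hlife with hl | hl
      · exact Or.inl hl
      · refine Or.inr fun A => ?_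
        obtain ⟨t, ht, x, hx, hA⟩ := hl A
        refine ⟨t, ht, x, hx, ?_⟩
        rw [size1_congr (ew t) (ef t) hx]
        exact hA
    · apply InitOK.of_slice
      rw [ew0, ef0]
      exact (h b hb).2
  choose! Tm w f h1 using key
  refine ⟨Tm, w, f, fun b hb => ?_⟩
  obtain ⟨a1, a2, a3, a4, a5⟩ := h1 b hb
  exact ⟨(h b hb).1, a1, a2, a3, a4, a5⟩

/-- the life time is lower semicontinuous in the parameter -/
theorem solFam_open (hL3 : L3Statement) {q : Par} {g : ℝ → ℝ}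
    {w₀ f₀ : (Fin 3 → ℝ) → ℝ → ℝ}
    (hw₀ : ContDiffOn ℝ ∞ (fun z : (Fin 3 → ℝ) × ℝ => w₀ z.1 z.2) (univ ×ˢ Icc (-1) 1))
    (hf₀ : ContDiffOn ℝ ∞ (fun z : (Fin 3 → ℝ) × ℝ => f₀ z.1 z.2) (univ ×ˢ Icc (-1) 1))
    {Tm : (Fin 3 → ℝ) → ℝ} {w f : (Fin 3 → ℝ) → ℝ → ℝ → ℝ}
    (h : ∀ b ∈ Bx, SolFam q g w₀ f₀ Tm w f b) {b : Fin 3 → ℝ} (hb : b ∈ Bx) {t : ℝ}
    (ht : 0 ≤ t) (htT : t < Tm b) : ∀ᶠ b' in 𝓝[Bx] b, t < Tm b' := by
  have h1 := hL3 20 (by norm_num) Bx isCompact_Icc w₀ f₀ hw₀ hf₀ Tm w f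
    (fun b hb => ⟨(h b hb).data, (h b hb).time, (h b hb).sol, (h b hb).start, (h b hb).life⟩)
    b hb t ⟨ht, htT⟩ 1 one_pos
  filter_upwards [h1] with b' hb'
  exact hb'.1

theorem Bx_eq : (Bx : Set (Fin 3 → ℝ)) = Metric.closedBall 0 2 := by
  ext b
  simp only [Bx, mem_Icc, Metric.mem_closedBall, dist_zero_right]
  rw [pi_norm_le_iff_of_nonneg (by norm_num : (0 : ℝ) ≤ 2)]
  constructor
  · intro hb i
    rw [Real.norm_eq_abs, abs_le]
    exact ⟨hb.1 i, hb.2 i⟩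
  · intro hb
    refine ⟨fun i => ?_, fun i => ?_⟩
    · have := hb i
      rw [Real.norm_eq_abs, abs_le] at this
      exact this.1
    · have := hb i
      rw [Real.norm_eq_abs, abs_le] at this
      exact this.2

end Vale.Agent.P244.ST
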