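import Vale.Agent.P244.ST.A.TipJet
import Vale.Agent.P244.ST.Iface

/-!
# P244-ST, block A : estimates near the tip `x = 1`
-/

open Set Filter Topology
open scoped ContDiff

namespace Vale.Agent.P244.ST.Tip

open Vale.Agent.P244.BB (smoothAlg dom mem_dom ext dz ext_continuousOn hasDerivWithinAt_z)

/-! ### scalar facts -/

theorem tanh_lower {u : ℝ} : 1 - 2 * Real.exp (-(2 * u)) ≤ Real.tanh u := by
  rw [Real.tanh_eq_sinh_div_cosh, le_div_iff₀ (Real.cosh_pos u), Real.sinh_eq, Real.cosh_eq]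
  have e1 : Real.exp (-(2 * u)) = Real.exp (-u) * Real.exp (-u) := by
    rw [← Real.exp_add]
    ring_nf
  have e2 : Real.exp u * Real.exp (-u) = 1 := by
    rw [← Real.exp_add]
    simp
  have h1 := Real.exp_pos (-u)
  rw [e1]
  nlinarith only [e2, h1, pow_pos h1 3, mul_pos h1 h1]

theorem tanh_pos' {u : ℝ} (hu : 0 < u) : 0 < Real.tanh u := by
  rw [Real.tanh_eq_sinh_div_cosh]
  exact div_pos (Real.sinh_pos_iff.2 hu) (Real.cosh_pos u)

theorem bub_near {g : ℝ → ℝ} (hg : IsBub g) {u : ℝ} (hu : 0 < u) :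
    |g u - 2| ≤ 4 * Real.exp (-(2 * u)) := by
  have h1 := hg.lower u hu
  have h2 := hg.lt_two u hu
  have h3 := tanh_lower (u := u)
  rw [abs_le]
  have h4 := Real.exp_pos (-(2 * u))
  constructor <;> linarith only [h1, h3, h2, h4]

/-! ### bounds of the jets -/

section

variable {w f : Fn} {T : ℝ}

/-- bounds of a continuous function on compact time intervals -/
theorem exists_bound {F : ℝ × ℝ → ℝ} (hF : ContinuousOn F (Ico 0 T ×ˢ Icc (-1) 1)) {t₁ : ℝ}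
    (ht₁ : t₁ ∈ Ico 0 T) : ∃ M : ℝ, ∀ t ∈ Icc 0 t₁, ∀ x ∈ Icc (-1 : ℝ) 1, |F (t, x)| ≤ M := by
  have hK : IsCompact (Icc 0 t₁ ×ˢ Icc (-1 : ℝ) 1) := isCompact_Icc.prod isCompact_Icc
  have hsub : Icc 0 t₁ ×ˢ Icc (-1 : ℝ) 1 ⊆ Ico 0 T ×ˢ Icc (-1 : ℝ) 1 :=
    prod_mono (fun s hs => ⟨hs.1, hs.2.trans_lt ht₁.2⟩) le_rfl
  obtain ⟨M, hM⟩ := hK.exists_bound_of_continuousOn (hF.mono hsub)
  exact ⟨M, fun t ht x hx => by simpa using hM (t, x) ⟨ht, hx⟩⟩

/-- common bound of the jets -/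
theorem jets_bound (h : ConfSol 20 w f T) {t₁ : ℝ} (ht₁ : t₁ ∈ Ico 0 T) :
    ∃ M : ℝ, 1 ≤ M ∧ ∀ t ∈ Icc 0 t₁, ∀ x ∈ Icc (-1 : ℝ) 1,
      |w t x| ≤ M ∧ |f t x| ≤ M ∧ |dx (w t) x| ≤ M ∧ |dx (f t) x| ≤ M ∧
      |dx (dx (w t)) x| ≤ M ∧ |dx (dx (f t)) x| ≤ M := by
  obtain ⟨a0, a1, a2⟩ := smooth_cont h.smooth_w
  obtain ⟨b0, b1, b2⟩ := smooth_cont h.smooth_f
  obtain ⟨M0, h0⟩ := exists_bound a0 ht₁
  obtain ⟨M1, h1⟩ := exists_bound a1 ht₁
  obtain ⟨M2, h2⟩ := exists_bound a2 ht₁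
  obtain ⟨M3, h3⟩ := exists_bound b0 ht₁
  obtain ⟨M4, h4⟩ := exists_bound b1 ht₁
  obtain ⟨M5, h5⟩ := exists_bound b2 ht₁
  have n0 : 0 ≤ |M0| := abs_nonneg _
  have n1 : 0 ≤ |M1| := abs_nonneg _
  have n2 : 0 ≤ |M2| := abs_nonneg _
  have n3 : 0 ≤ |M3| := abs_nonneg _
  have n4 : 0 ≤ |M4| := abs_nonneg _
  have n5 : 0 ≤ |M5| := abs_nonneg _
  have l0 := le_abs_self M0
  have l1 := le_abs_self M1
  have l2 := le_abs_self M2
  have l3 := le_abs_self M3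
  have l4 := le_abs_self M4
  have l5 := le_abs_self M5
  refine ⟨1 + |M0| + |M1| + |M2| + |M3| + |M4| + |M5|, by linarith only [n0, n1, n2, n3, n4, n5], fun t ht x hx => ?_⟩
  have k0 := h0 t ht x hx
  have k1 := h1 t ht x hx
  have k2 := h2 t ht x hx
  have k3 := h3 t ht x hx
  have k4 := h4 t ht x hx
  have k5 := h5 t ht x hx
  refine ⟨by linarith only [n1, n2, n3, n4, n5, l0, k0], by linarith only [n0, n1, n2, n4, n5, l3, k3], by linarith only [n0, n2, n3, n4, n5, l1, k1], by linarith only [n0, n1, n2, n3, n5, l4, k4], by linarith only [n0, n1, n3, n4, n5, l2, k2], by linarith only [n0, n1, n2, n3, n4, l5, k5]⟩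

/-- continuity of the curvatures up to the tip -/
theorem curv_cont (h : ConfSol 20 w f T) :
    ContinuousOn (fun z : ℝ × ℝ => ric1 20 (w z.1) (f z.1) z.2) (Ico 0 T ×ˢ Icc (-1) 1) ∧
    ContinuousOn (fun z : ℝ × ℝ => ric2 20 (w z.1) (f z.1) z.2) (Ico 0 T ×ˢ Icc (-1) 1) ∧
    ContinuousOn (fun z : ℝ × ℝ => ric0 20 (w z.1) (f z.1) z.2) (Ico 0 T ×ˢ Icc (-1) 1) ∧
    ContinuousOn (fun z : ℝ × ℝ => scal 20 (w z.1) (f z.1) z.2) (Ico 0 T ×ˢ Icc (-1) 1) := by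
  obtain ⟨a0, a1, a2⟩ := smooth_cont h.smooth_w
  obtain ⟨b0, b1, b2⟩ := smooth_cont h.smooth_f
  have hx : ContinuousOn (fun z : ℝ × ℝ => z.2) (Ico 0 T ×ˢ Icc (-1 : ℝ) 1) :=
    continuous_snd.continuousOn
  have hew : ContinuousOn (fun z : ℝ × ℝ => Real.exp (-2 * w z.1 z.2)) (Ico 0 T ×ˢ Icc (-1) 1) :=
    (continuousOn_const.mul a0).rexp
  have hef : ContinuousOn (fun z : ℝ × ℝ => Real.exp (-2 * f z.1 z.2)) (Ico 0 T ×ˢ Icc (-1) 1) :=
    (continuousOn_const.mul b0).rexp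
  have hc : ∀ c : ℝ, ContinuousOn (fun _ : ℝ × ℝ => c) (Ico 0 T ×ˢ Icc (-1 : ℝ) 1) :=
    fun c => continuousOn_const
  have hx2 : ContinuousOn (fun z : ℝ × ℝ => 1 - z.2 ^ 2) (Ico 0 T ×ˢ Icc (-1 : ℝ) 1) :=
    (hc 1).sub (hx.pow 2)
  have hg : ContinuousOn (fun z : ℝ × ℝ => gx 20 (w z.1) (f z.1) z.2) (Ico 0 T ×ˢ Icc (-1) 1) := by
    unfold gx
    exact ((hc _).mul a1).add ((hc _).mul b1)
  have hlw : ContinuousOn (fun z : ℝ × ℝ => lap 20 (w z.1) z.2) (Ico 0 T ×ˢ Icc (-1) 1) := by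
    unfold lap
    exact (hx2.mul a2).sub (((hc _).mul hx).mul a1)
  have hlf : ContinuousOn (fun z : ℝ × ℝ => lap 20 (f z.1) z.2) (Ico 0 T ×ˢ Icc (-1) 1) := by
    unfold lap
    exact (hx2.mul b2).sub (((hc _).mul hx).mul b1)
  have h1 : ContinuousOn (fun z : ℝ × ℝ => ric1 20 (w z.1) (f z.1) z.2)
      (Ico 0 T ×ˢ Icc (-1) 1) := by
    unfold ric1
    exact ((hew.mul (hlf.add ((hx2.mul b1).mul hg))).neg).add ((hc _).mul hef)
  have h2 : ContinuousOn (fun z : ℝ × ℝ => ric2 20 (w z.1) (f z.1) z.2)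
      (Ico 0 T ×ˢ Icc (-1) 1) := by
    unfold ric2
    exact (hew.mul (((hlw.sub (hc _)).sub (hx.mul hg)).add ((hx2.mul a1).mul hg))).neg
  have h0 : ContinuousOn (fun z : ℝ × ℝ => ric0 20 (w z.1) (f z.1) z.2)
      (Ico 0 T ×ˢ Icc (-1) 1) := by
    unfold ric0
    exact h2.sub ((hew.mul hx2).mul (((hc _).mul (a2.sub (a1.pow 2))).add
      ((hc _).mul ((b2.add (b1.pow 2)).sub (((hc _).mul a1).mul b1)))))
  refine ⟨h1, h2, h0, ?_⟩
  unfold scal
  exact (h0.add ((hc _).mul h1)).add ((hc _).mul h2)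

end

/-! ### estimates at one point near the tip -/

section

variable {w f : Fn} {t x M : ℝ}

theorem sx_bounds (hx0 : 0 ≤ x) (hx1 : x < 1) :
    Real.sqrt (1 - x) ≤ sx x ∧ sx x ≤ Real.sqrt (2 * (1 - x)) := by
  unfold sx
  constructor
  · apply Real.sqrt_le_sqrt
    nlinarith only [hx0, hx1]
  · apply Real.sqrt_le_sqrt
    nlinarith only [hx1]

/-- bounds of `e^{uu}` and `rr²` -/
theorem exp_bounds (_hM : 1 ≤ M) (hw : |w t x| ≤ M) (hf : |f t x| ≤ M) (hx0 : 0 ≤ x) (hx1 : x < 1) :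
    Real.exp (-(2 * M)) / Real.sqrt (2 * (1 - x)) ≤ Real.exp (uu w f t x) ∧
    Real.exp (uu w f t x) ≤ Real.exp (2 * M) / Real.sqrt (1 - x) ∧
    Real.exp (-(2 * uu w f t x)) ≤ Real.exp (4 * M) * (2 * (1 - x)) ∧
    Real.exp (-(2 * M)) * Real.sqrt (1 - x) ≤ rr w f t x ^ 2 ∧
    rr w f t x ^ 2 ≤ 3 * Real.exp (2 * M) * Real.sqrt (2 * (1 - x)) := by
  have hx : x ∈ Ioo (-1 : ℝ) 1 := ⟨by linarith only [hx0], hx1⟩
  obtain ⟨s1, s2⟩ := sx_bounds hx0 hx1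
  have hs0 := sx_pos hx
  have hq : 0 < 1 - x := by linarith only [hx1]
  have hq1 : 0 < Real.sqrt (1 - x) := Real.sqrt_pos.2 hq
  have hq2 : 0 < Real.sqrt (2 * (1 - x)) := Real.sqrt_pos.2 (by linarith only [hx1])
  rw [abs_le] at hw hf
  have e1 : Real.exp (uu w f t x) = Real.exp (f t x - w t x) / sx x := by
    rw [exp_uu w f hx, Real.exp_sub, div_div]
  have e2 : Real.exp (-(2 * M)) ≤ Real.exp (f t x - w t x) := Real.exp_le_exp.2 (by linarith only [hw, hf])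
  have e3 : Real.exp (f t x - w t x) ≤ Real.exp (2 * M) := Real.exp_le_exp.2 (by linarith only [hw, hf])
  have p1 := Real.exp_pos (-(2 * M))
  have p2 := Real.exp_pos (f t x - w t x)
  refine ⟨?_, ?_, ?_, ?_, ?_⟩
  · rw [e1]
    exact div_le_div₀ p2.le e2 hs0 s2
  · rw [e1]
    exact div_le_div₀ (Real.exp_pos _).le e3 hq1 s1
  · have e4 : Real.exp (-(2 * uu w f t x)) = Real.exp (2 * (w t x - f t x)) * (1 - x ^ 2) := by
      have e5 : -(2 * uu w f t x) = 2 * (w t x - f t x) + Real.log (1 - x ^ 2) := by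
        unfold uu
        ring
      rw [e5, Real.exp_add, Real.exp_log (one_sub_pos hx)]
    rw [e4]
    apply mul_le_mul (Real.exp_le_exp.2 (by linarith only [hw, hf])) (by nlinarith only [hx1]) (one_sub_pos hx).le
      (Real.exp_pos _).le
  · rw [rr_sq w f hx, ← Real.exp_add]
    have e6 : Real.exp (-(2 * M)) ≤ Real.exp (f t x + w t x) := Real.exp_le_exp.2 (by linarith only [hw, hf])
    have hz : (0 : ℝ) < zeta0 := by unfold zeta0; norm_num
    rw [le_div_iff₀ hz]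
    have hz1 : zeta0 ≤ 1 := by unfold zeta0; norm_num
    calc Real.exp (-(2 * M)) * Real.sqrt (1 - x) * zeta0
        ≤ Real.exp (-(2 * M)) * Real.sqrt (1 - x) * 1 :=
          mul_le_mul_of_nonneg_left hz1 (by positivity)
      _ ≤ Real.exp (f t x + w t x) * sx x := by
          rw [mul_one]
          exact mul_le_mul e6 s1 hq1.le (Real.exp_pos _).le
  · rw [rr_sq w f hx, ← Real.exp_add]
    have e6 : Real.exp (f t x + w t x) ≤ Real.exp (2 * M) := Real.exp_le_exp.2 (by linarith only [hw, hf])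
    have hz : (0 : ℝ) < zeta0 := by unfold zeta0; norm_num
    rw [div_le_iff₀ hz]
    have hz1 : (1 : ℝ) ≤ 3 * zeta0 := by unfold zeta0; norm_num
    calc Real.exp (f t x + w t x) * sx x
        ≤ Real.exp (2 * M) * Real.sqrt (2 * (1 - x)) * 1 := by
          rw [mul_one]
          exact mul_le_mul e6 s2 hs0.le (Real.exp_pos _).le
      _ ≤ Real.exp (2 * M) * Real.sqrt (2 * (1 - x)) * (3 * zeta0) :=
          mul_le_mul_of_nonneg_left hz1 (by positivity)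
      _ = 3 * Real.exp (2 * M) * Real.sqrt (2 * (1 - x)) * zeta0 := by ring

/-- `G - 2` near the tip -/
theorem GG_near {w1 f1 : ℝ → ℝ} {w2 f2 : ℝ} (hM : 1 ≤ M) (hx1 : x < 1) (hq : 16 * M * (1 - x) ≤ 1)
    (hw : Jet (w t) w1 w2 x) (hf : Jet (f t) f1 f2 x) (bw : |w1 x| ≤ M) (bf : |f1 x| ≤ M) :
    |GG w f t x - 2| ≤ 16 * M * (1 - x) := by
  have hq0 : 0 < 1 - x := by linarith only [hx1]
  have hq1 : 1 - x ≤ 1 / 16 := by nlinarith only [hM, hx1, hq]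
  have hx : x ∈ Ioo (-1 : ℝ) 1 := ⟨by linarith only [hx1, hq1], hx1⟩
  rw [GG_eq hx hw hf]
  rw [abs_le] at bw bf
  have hS : 1 - x ^ 2 ≤ 2 * (1 - x) := by nlinarith only [hx1]
  have hS0 := one_sub_pos hx
  have hden : 1 / 2 ≤ x - (1 - x ^ 2) * (f1 x + w1 x) := by
    have h1 : (1 - x ^ 2) * (f1 x + w1 x) ≤ (1 - x ^ 2) * (2 * M) :=
      mul_le_mul_of_nonneg_left (by linarith only [bw, bf]) hS0.le
    have h2 : (1 - x ^ 2) * (2 * M) ≤ 2 * (1 - x) * (2 * M) :=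
      mul_le_mul_of_nonneg_right hS (by linarith only [hM, hx1, hq1])
    nlinarith only [hx1, hq, hq1, h1, h2]
  have hpos : 0 < x - (1 - x ^ 2) * (f1 x + w1 x) := by linarith only [hx1, hq1, hden]
  have e : 2 * (x + (1 - x ^ 2) * (f1 x - w1 x)) / (x - (1 - x ^ 2) * (f1 x + w1 x)) - 2 =
      4 * (1 - x ^ 2) * f1 x / (x - (1 - x ^ 2) * (f1 x + w1 x)) := by
    field_simp
    ring
  rw [e, abs_div, abs_of_pos hpos, div_le_iff₀ hpos, abs_mul,
    abs_of_nonneg (by linarith only [hS0] : (0 : ℝ) ≤ 4 * (1 - x ^ 2))]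
  have h3 : |f1 x| ≤ M := abs_le.2 bf
  calc 4 * (1 - x ^ 2) * |f1 x| ≤ 4 * (2 * (1 - x)) * M :=
        mul_le_mul (by linarith only [hS]) h3 (abs_nonneg _) (by linarith only [hx1])
    _ = 16 * M * (1 - x) * (1 / 2) := by ring
    _ ≤ _ := mul_le_mul_of_nonneg_left hden (by positivity)

/-- `u > 0` and the lower bound of `tanh u` -/
theorem uu_pos_near (hM : 1 ≤ M) (hw : |w t x| ≤ M) (hf : |f t x| ≤ M) (hx0 : 0 ≤ x) (hx1 : x < 1)
    (hq : Real.exp (4 * M) * (2 * (1 - x)) ≤ 1 / 4) :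
    0 < uu w f t x ∧ 1 / 2 ≤ Real.tanh (uu w f t x) := by
  obtain ⟨_, _, h3, _, _⟩ := exp_bounds hM hw hf hx0 hx1
  have h4 := h3.trans hq
  constructor
  · by_contra h
    push Not at h
    have : (1 : ℝ) ≤ Real.exp (-(2 * uu w f t x)) := Real.one_le_exp (by linarith only [h])
    linarith only [hq, h3, this]
  · have := tanh_lower (u := uu w f t x)
    linarith only [hq, h3, this]

/-- `|e|` near the tip -/
theorem ee_near {g : ℝ → ℝ} (hg : IsBub g) {w1 f1 : ℝ → ℝ} {w2 f2 : ℝ} (hM : 1 ≤ M)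
    (hx1 : x < 1) (hw0 : |w t x| ≤ M) (hf0 : |f t x| ≤ M)
    (hq : 16 * M * (1 - x) ≤ 1) (hq' : Real.exp (4 * M) * (2 * (1 - x)) ≤ 1 / 4)
    (hw : Jet (w t) w1 w2 x) (hf : Jet (f t) f1 f2 x) (bw : |w1 x| ≤ M) (bf : |f1 x| ≤ M) :
    |ee g w f t x| ≤ (16 * M + 8 * Real.exp (4 * M)) * (1 - x) := by
  have hq0 : 0 < 1 - x := by linarith only [hx1]
  have hq1 : 1 - x ≤ 1 / 16 := by nlinarith only [hM, hx1, hq]
  have hx0 : 0 ≤ x := by linarith only [hx1, hq1]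
  obtain ⟨hu, ht⟩ := uu_pos_near hM hw0 hf0 hx0 hx1 hq'
  obtain ⟨_, _, h3, _, _⟩ := exp_bounds hM hw0 hf0 hx0 hx1
  have h1 := GG_near hM hx1 hq hw hf bw bf
  have h2 := bub_near hg hu
  have hgl := hg.lower _ hu
  have hg1 : 1 ≤ g (uu w f t x) := by linarith only [ht, hgl]
  have hg0 : 0 < g (uu w f t x) := by linarith only [hx1, hq1, ht, hgl]
  have e : ee g w f t x = (g (uu w f t x) - GG w f t x) / g (uu w f t x) := by
    unfold ee
    field_simp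
  rw [e, abs_div, abs_of_pos hg0, div_le_iff₀ hg0]
  have h5 : |g (uu w f t x) - GG w f t x| ≤ |g (uu w f t x) - 2| + |GG w f t x - 2| := by
    have := abs_sub_le (g (uu w f t x)) 2 (GG w f t x)
    rwa [abs_sub_comm 2] at this
  have hC : 0 ≤ (16 * M + 8 * Real.exp (4 * M)) * (1 - x) := by positivity
  calc |g (uu w f t x) - GG w f t x| ≤ (16 * M + 8 * Real.exp (4 * M)) * (1 - x) := by linarith only [h3, h1, h2, h5]
    _ = (16 * M + 8 * Real.exp (4 * M)) * (1 - x) * 1 := by ring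
    _ ≤ _ := mul_le_mul_of_nonneg_left hg1 hC

end

/-! ### the uniform statement for `f`, `V` and `y` -/

/-- limit of small powers -/
theorem tendsto_small (C e : ℝ) (he : 0 < e) :
    Tendsto (fun q : ℝ => C * q ^ e) (𝓝[>] 0) (𝓝 0) := by
  have h1 : Tendsto (fun q : ℝ => q ^ e) (𝓝[>] 0) (𝓝 0) := by
    have := (Real.continuousAt_rpow_const 0 e (Or.inr he.le)).tendsto
    rw [Real.zero_rpow he.ne'] at this
    exact this.mono_left nhdsWithin_le_nhds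
  simpa using h1.const_mul C


theorem eventually_le_of_cont {F : ℝ → ℝ} (hF : Continuous F) (h0 : F 0 = 0) {c : ℝ} (hc : 0 < c) :
    ∀ᶠ q in 𝓝[>] (0 : ℝ), F q < c := by
  have h1 : Tendsto F (𝓝[>] 0) (𝓝 0) := by
    have := hF.tendsto 0
    rw [h0] at this
    exact this.mono_left nhdsWithin_le_nhds
  exact h1.eventually_lt_const hc

/-- Positivity of the parameters. -/
structure ParPos (q : Par) : Prop where
  B : 0 < q.B
  BV : 0 < q.BV
  rho0 : 0 < q.rho0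
  eps : 0 < q.eps
  GR : 0 < q.GR

theorem kap_bounds : 2 < kap ∧ kap < 5 / 2 := by
  have h1 : (34 : ℝ) < Real.sqrt 1209 := by
    rw [Real.lt_sqrt (by norm_num)]
    norm_num
  have h2 : Real.sqrt 1209 < 35 := by
    rw [Real.sqrt_lt' (by norm_num)]
    norm_num
  unfold kap
  constructor <;> linarith only [h2, h1]

theorem lam3_pos : 0 < lam 3 := by
  have := kap_bounds.2
  unfold lam
  push_cast
  linarith only [this]

theorem T0_bounds {q : Par} (hq : ParPos q) {t : ℝ} (h0 : 0 ≤ t) (h1 : t < 1) :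
    0 < q.T0 t ∧ q.T0 t ≤ q.eps * q.rho0 ^ (-kap) := by
  have ht : 0 < tau t := by
    unfold tau
    linarith only [h1]
  have ht1 : tau t ≤ 1 := by
    unfold tau
    linarith only [h0]
  have h2 := Real.rpow_pos_of_pos ht (lam 3)
  have h3 := Real.rpow_le_one ht.le ht1 lam3_pos.le
  have h4 := Real.rpow_pos_of_pos hq.rho0 (-kap)
  have h5 := hq.eps
  unfold Par.T0 Par.A
  constructor
  · positivity
  · apply mul_le_mul_of_nonneg_right _ h4.le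
    calc q.eps * tau t ^ lam 3 ≤ q.eps * 1 := mul_le_mul_of_nonneg_left h3 h5.le
      _ = _ := mul_one _

/-- The final comparison for `f`. -/
theorem f_compare {ffv X C1 ε' Bt cT B' chu s : ℝ} (hX : 0 < X) (hC1 : 0 < C1) (hε : 0 < ε')
    (hcT : 0 < cT) (hB : 0 < B') (hs : 0 < s) (hch : 0 < chu) (hchU : chu ≤ X / Real.sqrt s)
    (hBt : B' * cT ≤ Bt) (hf : |ffv| ≤ C1 * X * Real.sqrt s)
    (hcond : C1 * X * X ^ (1 - aa) * (Real.sqrt s) ^ aa < ε' * (B' * cT)) :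
    |ffv| ≤ ε' * (Bt * chu ^ (-(1 - aa))) := by
  have haa1 : (0 : ℝ) < 1 - aa := by unfold aa; norm_num
  have hsq : 0 < Real.sqrt s := Real.sqrt_pos.2 hs
  have hBc : 0 < B' * cT := mul_pos hB hcT
  have l1 : (X / Real.sqrt s) ^ (-(1 - aa)) ≤ chu ^ (-(1 - aa)) :=
    Real.rpow_le_rpow_of_nonpos hch hchU (by linarith only [haa1])
  have k2 : B' * cT * (X / Real.sqrt s) ^ (-(1 - aa)) ≤ Bt * chu ^ (-(1 - aa)) :=
    mul_le_mul hBt l1 (Real.rpow_nonneg (by positivity) _) (by linarith only [hBt, hBc])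
  have k3 : (X / Real.sqrt s) ^ (-(1 - aa)) = (Real.sqrt s) ^ (1 - aa) / X ^ (1 - aa) := by
    rw [Real.rpow_neg (by positivity), Real.div_rpow hX.le hsq.le, inv_div]
  have k4 : Real.sqrt s = (Real.sqrt s) ^ aa * (Real.sqrt s) ^ (1 - aa) := by
    rw [← Real.rpow_add hsq, show aa + (1 - aa) = 1 by ring, Real.rpow_one]
  have hXa : 0 < X ^ (1 - aa) := Real.rpow_pos_of_pos hX _
  have hsa : 0 < (Real.sqrt s) ^ (1 - aa) := Real.rpow_pos_of_pos hsq _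
  calc |ffv| ≤ C1 * X * Real.sqrt s := hf
    _ = (C1 * X * X ^ (1 - aa) * (Real.sqrt s) ^ aa) *
        ((Real.sqrt s) ^ (1 - aa) / X ^ (1 - aa)) := by
          conv_lhs => rw [k4]
          field_simp
    _ ≤ (ε' * (B' * cT)) * ((Real.sqrt s) ^ (1 - aa) / X ^ (1 - aa)) :=
          mul_le_mul_of_nonneg_right hcond.le (by positivity)
    _ = ε' * (B' * cT * (X / Real.sqrt s) ^ (-(1 - aa))) := by
          rw [k3]
          ring
    _ ≤ _ := mul_le_mul_of_nonneg_left k2 hε.le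

/-- The final comparison for `V`. -/
theorem V_compare {V Y MV ε' Bt c chu : ℝ} (hY : 0 < Y) (hε : 0 < ε')
    (hc : 0 < c) (hchL : Y⁻¹ ≤ chu)
    (hBt : c ≤ Bt) (hV : |V| ≤ |MV|) (hcond : |MV| * Y ^ aa < ε' * c) :
    |V| ≤ ε' * (Bt * chu ^ aa) := by
  have haa : (0 : ℝ) < aa := by unfold aa; norm_num
  have hYi : 0 < Y⁻¹ := inv_pos.2 hY
  have k2 : c * (Y⁻¹) ^ aa ≤ Bt * chu ^ aa :=
    mul_le_mul hBt (Real.rpow_le_rpow hYi.le hchL haa.le) (Real.rpow_nonneg hYi.le _)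
      (by linarith only [hc, hBt])
  have k3 : (Y⁻¹) ^ aa = (Y ^ aa)⁻¹ := Real.inv_rpow hY.le _
  have hYa : 0 < Y ^ aa := Real.rpow_pos_of_pos hY _
  calc |V| ≤ |MV| := hV
    _ = (|MV| * Y ^ aa) * (Y ^ aa)⁻¹ := by field_simp
    _ ≤ (ε' * c) * (Y ^ aa)⁻¹ := mul_le_mul_of_nonneg_right hcond.le (by positivity)
    _ = ε' * (c * (Y⁻¹) ^ aa) := by
          rw [k3]
          ring
    _ ≤ _ := mul_le_mul_of_nonneg_left k2 hε.le

/-- The scalar conditions on the distance to the tip. -/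
structure Small (M C1 MV cT ε' B' BV' t₁ s : ℝ) : Prop where
  h1 : 16 * M * s < 1
  h2 : Real.exp (4 * M) * (2 * s) < 1 / 4
  h3 : C1 * Real.exp (2 * M) * Real.exp (2 * M) ^ (1 - aa) * (Real.sqrt s) ^ aa < ε' * (B' * cT)
  h4 : |MV| * (2 * Real.exp (2 * M) * Real.sqrt (2 * s)) ^ aa < ε' * (BV' * cT * (1 / 2))
  h5 : 3 * Real.exp (2 * M) * Real.sqrt (2 * s) < ε' ^ 2 * (1 - t₁)

theorem exists_small (M C1 MV : ℝ) {cT ε' B' BV' t₁ : ℝ} (hcT : 0 < cT) (hε : 0 < ε')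
    (hB : 0 < B') (hBV : 0 < BV') (ht : t₁ < 1) :
    ∃ d > (0 : ℝ), ∀ s ∈ Ioo 0 d, Small M C1 MV cT ε' B' BV' t₁ s := by
  have haa : (0 : ℝ) < aa := by unfold aa; norm_num
  have h1t : 0 < 1 - t₁ := by linarith only [ht]
  have e1 : ∀ᶠ s in 𝓝[>] (0 : ℝ), 16 * M * s < 1 :=
    eventually_le_of_cont (by fun_prop) (by simp) one_pos
  have e2 : ∀ᶠ s in 𝓝[>] (0 : ℝ), Real.exp (4 * M) * (2 * s) < 1 / 4 :=
    eventually_le_of_cont (by fun_prop) (by simp) (by norm_num)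
  have e3 : ∀ᶠ s in 𝓝[>] (0 : ℝ), C1 * Real.exp (2 * M) * Real.exp (2 * M) ^ (1 - aa) *
      (Real.sqrt s) ^ aa < ε' * (B' * cT) :=
    eventually_le_of_cont (F := fun s => C1 * Real.exp (2 * M) * Real.exp (2 * M) ^ (1 - aa) *
      (Real.sqrt s) ^ aa)
      (continuous_const.mul (Real.continuous_sqrt.rpow_const fun _ => Or.inr haa.le))
      (by simp [Real.zero_rpow haa.ne']) (by positivity)
  have e4 : ∀ᶠ s in 𝓝[>] (0 : ℝ), |MV| * (2 * Real.exp (2 * M) * Real.sqrt (2 * s)) ^ aa <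
      ε' * (BV' * cT * (1 / 2)) :=
    eventually_le_of_cont
      (F := fun s => |MV| * (2 * Real.exp (2 * M) * Real.sqrt (2 * s)) ^ aa)
      (continuous_const.mul ((continuous_const.mul
        (Real.continuous_sqrt.comp (continuous_const.mul continuous_id))).rpow_const
          fun _ => Or.inr haa.le))
      (by simp [Real.zero_rpow haa.ne']) (by positivity)
  have e5 : ∀ᶠ s in 𝓝[>] (0 : ℝ), 3 * Real.exp (2 * M) * Real.sqrt (2 * s) < ε' ^ 2 * (1 - t₁) :=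
    eventually_le_of_cont (by fun_prop) (by simp) (by positivity)
  obtain ⟨d, hd0, hd⟩ := mem_nhdsGT_iff_exists_Ioo_subset.1
    (e1.and (e2.and (e3.and (e4.and e5))))
  exact ⟨d, hd0, fun s hs => ⟨(hd hs).1, (hd hs).2.1, (hd hs).2.2.1, (hd hs).2.2.2.1,
    (hd hs).2.2.2.2⟩⟩

section

variable {w f : Fn} {T : ℝ} {g : ℝ → ℝ} {q : Par}

/-- The estimates at one point. -/
theorem tip_point (hg : IsBub g) (hq : ParPos q) {t₁ t x M MV ε' : ℝ} (hM : 1 ≤ M)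
    (ht0 : 0 ≤ t) (ht : t ≤ t₁) (ht1 : t₁ < 1) (hx0 : 0 ≤ x) (hx1 : x < 1) (hε : 0 < ε')
    (hS : Small M (16 * M + 8 * Real.exp (4 * M)) MV ((1 / (2 * (q.eps * q.rho0 ^ (-kap)))) ^ aa)
      ε' q.B q.BV t₁ (1 - x))
    (b1 : |w t x| ≤ M) (b2 : |f t x| ≤ M) {w1 f1 : ℝ → ℝ} {w2 f2 : ℝ}
    (hw : Jet (w t) w1 w2 x) (hf : Jet (f t) f1 f2 x) (bw : |w1 x| ≤ M) (bf : |f1 x| ≤ M)
    (hV : |VV w f t x| ≤ MV) :
    0 < uu w f t x ∧ |ff g w f t x| ≤ ε' * q.fb t (uu w f t x) ∧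
      |VV w f t x| ≤ ε' * q.Vb t (uu w f t x) ∧ yv w f t x < ε' := by
  have hs : 0 < 1 - x := by linarith only [hx1]
  have haa : (0 : ℝ) < aa := by unfold aa; norm_num
  have ht1' : t < 1 := ht.trans_lt ht1
  obtain ⟨hT0, hT0'⟩ := T0_bounds hq ht0 ht1'
  have hT0m0 : 0 < q.eps * q.rho0 ^ (-kap) := hT0.trans_le hT0'
  set T0m : ℝ := q.eps * q.rho0 ^ (-kap) with hT0m
  set X : ℝ := Real.exp (2 * M) with hX
  have hX0 : 0 < X := Real.exp_pos _
  set cT : ℝ := (1 / (2 * T0m)) ^ aa with hcT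
  have hcT0 : 0 < cT := Real.rpow_pos_of_pos (by positivity) _
  have hB := hq.B
  have hBV := hq.BV
  have hτ : 0 < tau t := by
    unfold tau
    linarith only [ht, ht1]
  have hτ1 : tau t ≤ 1 := by
    unfold tau
    linarith only [ht0]
  obtain ⟨f1', f2', f3', f4', f5'⟩ := hS
  obtain ⟨hu, htanh⟩ := uu_pos_near hM b1 b2 hx0 hx1 f2'.le
  have hee := ee_near hg hM hx1 b1 b2 f1'.le f2'.le hw hf bw bf
  obtain ⟨g1, g2, _, g4, g5⟩ := exp_bounds hM b1 b2 hx0 hx1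
  have hsq : 0 < Real.sqrt (1 - x) := Real.sqrt_pos.2 hs
  have hsq2 : 0 < Real.sqrt (2 * (1 - x)) := Real.sqrt_pos.2 (by linarith only [hx1])
  have hXi : Real.exp (-(2 * M)) = X⁻¹ := Real.exp_neg _
  rw [hXi] at g1 g4
  have htanh0 : 0 < Real.tanh (uu w f t x) := by linarith only [htanh]
  -- the common factor
  have hcom : cT ≤ (Real.tanh (uu w f t x) / q.T0 t) ^ aa := by
    apply Real.rpow_le_rpow (by positivity) _ haa.le
    rw [div_le_div_iff₀ (by positivity) hT0]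
    have h1 : 1 / 2 * (2 * T0m) ≤ Real.tanh (uu w f t x) * (2 * T0m) :=
      mul_le_mul_of_nonneg_right htanh (by positivity)
    linarith only [hT0', h1]
  have hBt : q.B ≤ q.B / tau t := by
    rw [le_div_iff₀ hτ]
    nlinarith only [hB, hτ1]
  have hBVt : q.BV ≤ q.BV / tau t := by
    rw [le_div_iff₀ hτ]
    nlinarith only [hBV, hτ1]
  have hch0 : 0 < Real.cosh (uu w f t x) := Real.cosh_pos _
  have hchU : Real.cosh (uu w f t x) ≤ X / Real.sqrt (1 - x) := by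
    refine le_trans ?_ g2
    rw [Real.cosh_eq]
    have : Real.exp (-uu w f t x) ≤ Real.exp (uu w f t x) := Real.exp_le_exp.2 (by linarith only [hu])
    linarith only [this]
  have hchL : (2 * X * Real.sqrt (2 * (1 - x)))⁻¹ ≤ Real.cosh (uu w f t x) := by
    have h2 : X⁻¹ / Real.sqrt (2 * (1 - x)) / 2 ≤ Real.cosh (uu w f t x) := by
      rw [Real.cosh_eq]
      have := Real.exp_pos (-uu w f t x)
      linarith only [g1, this]
    refine le_trans (le_of_eq ?_) h2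
    field_simp
  have hrr0 : 0 < rr w f t x := Real.exp_pos _
  have hrr : 0 < rr w f t x ^ 2 := by positivity
  have hC10 : 0 < 16 * M + 8 * Real.exp (4 * M) := by positivity
  have k1 : |ff g w f t x| ≤ (16 * M + 8 * Real.exp (4 * M)) * X * Real.sqrt (1 - x) := by
    unfold ff
    rw [abs_div, abs_of_pos hrr, div_le_iff₀ hrr]
    have hq2 : (1 - x) = Real.sqrt (1 - x) * Real.sqrt (1 - x) :=
      (Real.mul_self_sqrt hs.le).symm
    calc |ee g w f t x| ≤ (16 * M + 8 * Real.exp (4 * M)) * (1 - x) := hee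
      _ = (16 * M + 8 * Real.exp (4 * M)) * X * Real.sqrt (1 - x) * (X⁻¹ * Real.sqrt (1 - x)) := by
          rw [show (16 * M + 8 * Real.exp (4 * M)) * X * Real.sqrt (1 - x) *
            (X⁻¹ * Real.sqrt (1 - x)) = (16 * M + 8 * Real.exp (4 * M)) * (X * X⁻¹) *
            (Real.sqrt (1 - x) * Real.sqrt (1 - x)) by ring, mul_inv_cancel₀ hX0.ne', ← hq2]
          ring
      _ ≤ _ := mul_le_mul_of_nonneg_left g4 (by positivity)
  refine ⟨hu, ?_, ?_, ?_⟩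
  · have l2 : q.B * cT ≤ q.B / tau t * (Real.tanh (uu w f t x) / q.T0 t) ^ aa :=
      mul_le_mul hBt hcom hcT0.le (by positivity)
    exact f_compare hX0 hC10 hε hcT0 hB hs hch0 hchU l2 k1 f3'
  · have l2 : q.BV * cT ≤ q.BV / tau t * (Real.tanh (uu w f t x) / q.T0 t) ^ aa :=
      mul_le_mul hBVt hcom hcT0.le (by positivity)
    have l3 : q.BV * cT * (1 / 2) ≤ q.BV / tau t *
        (Real.tanh (uu w f t x) / q.T0 t) ^ aa * Real.tanh (uu w f t x) :=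
      mul_le_mul l2 htanh (by norm_num) (by positivity)
    exact V_compare (by positivity) hε (by positivity) hchL l3 (hV.trans (le_abs_self MV)) f4'
  · have hτt : 1 - t₁ ≤ tau t := by
      unfold tau
      linarith only [ht]
    unfold yv
    rw [div_lt_iff₀ (Real.sqrt_pos.2 hτ)]
    have h2 : rr w f t x ^ 2 < (ε' * Real.sqrt (tau t)) ^ 2 := by
      rw [mul_pow, Real.sq_sqrt hτ.le]
      calc rr w f t x ^ 2 ≤ 3 * X * Real.sqrt (2 * (1 - x)) := g5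
        _ < ε' ^ 2 * (1 - t₁) := f5'
        _ ≤ _ := mul_le_mul_of_nonneg_left hτt (by positivity)
    exact lt_of_pow_lt_pow_left₀ 2 (by positivity) h2

/-- Uniform smallness near the tip. -/
theorem tip_unif (h : ConfSol 20 w f T) (hT : T ≤ 1) (hg : IsBub g) (hq : ParPos q) {t₁ : ℝ}
    (ht₁ : t₁ ∈ Ico 0 T) {ε' : ℝ} (hε : 0 < ε') :
    ∃ d ∈ Ioo (0 : ℝ) 1, ∀ t ∈ Icc 0 t₁, ∀ x ∈ Ioo (1 - d) 1,
      0 < uu w f t x ∧ |ff g w f t x| ≤ ε' * q.fb t (uu w f t x) ∧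
      |VV w f t x| ≤ ε' * q.Vb t (uu w f t x) ∧ yv w f t x < ε' := by
  obtain ⟨M, hM, hj⟩ := jets_bound h ht₁
  obtain ⟨c1, c2, _, _⟩ := curv_cont h
  obtain ⟨MV, hMV⟩ := exists_bound (c2.sub c1) ht₁
  have ht1 : t₁ < 1 := ht₁.2.trans_le hT
  have hT0m0 : 0 < q.eps * q.rho0 ^ (-kap) :=
    (T0_bounds hq le_rfl one_pos).1.trans_le (T0_bounds hq le_rfl one_pos).2
  obtain ⟨d, hd0, hd⟩ := exists_small M (16 * M + 8 * Real.exp (4 * M)) MV
    (Real.rpow_pos_of_pos (by positivity : (0 : ℝ) < 1 / (2 * (q.eps * q.rho0 ^ (-kap)))) aa)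
    hε hq.B hq.BV ht1
  refine ⟨min d (1 / 2), ⟨lt_min hd0 (by norm_num), (min_le_right _ _).trans_lt (by norm_num)⟩,
    fun t ht x hx => ?_⟩
  have hx1 : x < 1 := hx.2
  have hxd : 1 - x < d := by
    have := hx.1
    have := min_le_left d (1 / 2 : ℝ)
    linarith
  have hx0 : 0 ≤ x := by
    have := hx.1
    have := min_le_right d (1 / 2 : ℝ)
    linarith
  have hxI : x ∈ Ioo (-1 : ℝ) 1 := ⟨by linarith only [hx0], hx1⟩
  have hxC : x ∈ Icc (-1 : ℝ) 1 := ⟨by linarith only [hx0], hx1.le⟩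
  have htT : t ∈ Ico 0 T := ⟨ht.1, ht.2.trans_lt ht₁.2⟩
  obtain ⟨b1, b2, b3, b4, _, _⟩ := hj t ht x hxC
  refine tip_point hg hq hM ht.1 ht.2 ht1 hx0 hx1 hε (hd _ ⟨by linarith only [hx1], hxd⟩) b1 b2
    (jw h htT hxI) (jf h htT hxI) b3 b4 ?_
  rw [VV_eq h htT hxI]
  exact hMV t ht x hxC

end

/-! ### the scalar curvature at the tip -/

section

variable {w f : Fn} {T : ℝ} {g : ℝ → ℝ} {q : Par}

theorem gam_pos : 0 < gam := by
  have h1 := lam3_pos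
  have h2 : (0 : ℝ) < aa := by unfold aa; norm_num
  unfold gam
  positivity

/-- The barrier for `R`, continuous up to the tip. -/
noncomputable def RBx (q : Par) (w f : Fn) (t x : ℝ) : ℝ :=
  q.eta * (1 + t) + q.GR * ((Real.exp (f t x) - Real.exp (w t x) * sx x) ^ 2 / (2 * zeta0)) *
    q.eps ^ (-(2 * aa)) *
    (tau t + Real.exp (f t x) * Real.exp (w t x) * sx x / zeta0 / 100) ^ (-gam)

theorem rr_cosh {t x : ℝ} (hx : x ∈ Ioo (-1 : ℝ) 1) :
    rr w f t x ^ 2 * (Real.cosh (uu w f t x) - 1) =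
      (Real.exp (f t x) - Real.exp (w t x) * sx x) ^ 2 / (2 * zeta0) := by
  rw [Real.cosh_eq, exp_uu w f hx, exp_neg_uu w f hx, rr_sq w f hx]
  have hs0 := (sx_pos hx).ne'
  have hw := (Real.exp_pos (w t x)).ne'
  have hf := (Real.exp_pos (f t x)).ne'
  have hz : zeta0 ≠ 0 := by unfold zeta0; norm_num
  field_simp
  ring

theorem RB_eq {t x : ℝ} (hx : x ∈ Ioo (-1 : ℝ) 1) :
    q.RB t (rr w f t x) (uu w f t x) = RBx q w f t x := by
  unfold Par.RB RBx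
  rw [← rr_cosh hx, rr_sq w f hx]
  ring

theorem RBx_cont (h : ConfSol 20 w f T) (hT : T ≤ 1) :
    ContinuousOn (fun z : ℝ × ℝ => RBx q w f z.1 z.2) (Ico 0 T ×ˢ Icc (-1) 1) := by
  obtain ⟨a0, _, _⟩ := smooth_cont h.smooth_w
  obtain ⟨b0, _, _⟩ := smooth_cont h.smooth_f
  have hc : ∀ c : ℝ, ContinuousOn (fun _ : ℝ × ℝ => c) (Ico 0 T ×ˢ Icc (-1 : ℝ) 1) :=
    fun c => continuousOn_const
  have ht : ContinuousOn (fun z : ℝ × ℝ => z.1) (Ico 0 T ×ˢ Icc (-1 : ℝ) 1) :=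
    continuous_fst.continuousOn
  have hτ : ContinuousOn (fun z : ℝ × ℝ => tau z.1) (Ico 0 T ×ˢ Icc (-1 : ℝ) 1) := by
    unfold tau
    exact (hc 1).sub ht
  have hs : ContinuousOn (fun z : ℝ × ℝ => sx z.2) (Ico 0 T ×ˢ Icc (-1 : ℝ) 1) := by
    unfold sx
    exact (Real.continuous_sqrt.comp (by fun_prop)).continuousOn
  have hF : ContinuousOn (fun z : ℝ × ℝ => Real.exp (f z.1 z.2)) (Ico 0 T ×ˢ Icc (-1) 1) := b0.rexp
  have hW : ContinuousOn (fun z : ℝ × ℝ => Real.exp (w z.1 z.2)) (Ico 0 T ×ˢ Icc (-1) 1) := a0.rexp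
  have hz : (0 : ℝ) < zeta0 := by unfold zeta0; norm_num
  have hX : ContinuousOn (fun z : ℝ × ℝ => tau z.1 +
      Real.exp (f z.1 z.2) * Real.exp (w z.1 z.2) * sx z.2 / zeta0 / 100)
      (Ico 0 T ×ˢ Icc (-1) 1) :=
    hτ.add (((((hF.mul hW).mul hs)).div_const _).div_const _)
  have hXp : ContinuousOn (fun z : ℝ × ℝ => (tau z.1 +
      Real.exp (f z.1 z.2) * Real.exp (w z.1 z.2) * sx z.2 / zeta0 / 100) ^ (-gam))
      (Ico 0 T ×ˢ Icc (-1) 1) := by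
    refine hX.rpow_const fun z hz' => Or.inl ?_
    have h1 : 0 < tau z.1 := by
      unfold tau
      have := hz'.1.2
      linarith only [hT, this]
    have h2 : 0 ≤ sx z.2 := Real.sqrt_nonneg _
    have h3 : 0 ≤ Real.exp (f z.1 z.2) * Real.exp (w z.1 z.2) * sx z.2 / zeta0 / 100 := by
      positivity
    exact (by linarith only [h1, h3] : (0 : ℝ) < _).ne'
  unfold RBx
  exact ((hc _).mul ((hc 1).add ht)).add
    ((((hc _).mul (((hF.sub (hW.mul hs)).pow 2).div_const _)).mul (hc _)).mul hXp)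

/-- differentiability of the jets at the tip -/
theorem smooth_diff {u : Fn} (hu : ContDiffOn ℝ ∞ (fun z : ℝ × ℝ => u z.1 z.2)
    (Ico 0 T ×ˢ Icc (-1) 1)) {t x : ℝ} (ht : t ∈ Ico 0 T) (hx : x ∈ Icc (-1 : ℝ) 1) :
    DifferentiableWithinAt ℝ (u t) (Icc (-1) 1) x ∧
    DifferentiableWithinAt ℝ (dx (u t)) (Icc (-1) 1) x ∧
    DifferentiableWithinAt ℝ (dx (dx (u t))) (Icc (-1) 1) x := by
  have key : ∀ y ∈ Icc (-1 : ℝ) 1, u t y = ext (el u hu) (y, t) := fun y hy =>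
    (ext_el hu (mem_dom hy ht)).symm
  have k1 : ∀ y ∈ Icc (-1 : ℝ) 1, dx (u t) y = ext (dz (el u hu)) (y, t) := fun y hy =>
    dx_eq_ext _ hy ht key
  have k2 : ∀ y ∈ Icc (-1 : ℝ) 1, dx (dx (u t)) y = ext (dz (dz (el u hu))) (y, t) := fun y hy =>
    dx_eq_ext _ hy ht k1
  refine ⟨?_, ?_, ?_⟩
  · exact ((hasDerivWithinAt_z (el u hu) hx ht).congr key (key x hx)).differentiableWithinAt
  · exact ((hasDerivWithinAt_z (dz (el u hu)) hx ht).congr k1 (k1 x hx)).differentiableWithinAt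
  · exact ((hasDerivWithinAt_z (dz (dz (el u hu))) hx ht).congr k2
      (k2 x hx)).differentiableWithinAt

theorem scal_diff (h : ConfSol 20 w f T) {t x : ℝ} (ht : t ∈ Ico 0 T) (hx : x ∈ Icc (-1 : ℝ) 1) :
    DifferentiableWithinAt ℝ (fun x => scal 20 (w t) (f t) x) (Icc (-1) 1) x := by
  obtain ⟨a0, a1, a2⟩ := smooth_diff h.smooth_w ht hx
  obtain ⟨b0, b1, b2⟩ := smooth_diff h.smooth_f ht hx
  have hc : ∀ c : ℝ, DifferentiableWithinAt ℝ (fun _ : ℝ => c) (Icc (-1) 1) x :=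
    fun c => differentiableWithinAt_const c
  have hi : DifferentiableWithinAt ℝ (fun y : ℝ => y) (Icc (-1) 1) x := differentiableWithinAt_id
  have hx2 : DifferentiableWithinAt ℝ (fun y : ℝ => 1 - y ^ 2) (Icc (-1) 1) x :=
    (hc 1).sub (hi.pow 2)
  have hew : DifferentiableWithinAt ℝ (fun y : ℝ => Real.exp (-2 * w t y)) (Icc (-1) 1) x :=
    ((hc _).mul a0).exp
  have hef : DifferentiableWithinAt ℝ (fun y : ℝ => Real.exp (-2 * f t y)) (Icc (-1) 1) x :=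
    ((hc _).mul b0).exp
  have hg : DifferentiableWithinAt ℝ (fun y : ℝ => gx 20 (w t) (f t) y) (Icc (-1) 1) x := by
    unfold gx
    exact ((hc _).mul a1).add ((hc _).mul b1)
  have hlw : DifferentiableWithinAt ℝ (fun y : ℝ => lap 20 (w t) y) (Icc (-1) 1) x := by
    unfold lap
    exact (hx2.mul a2).sub (((hc _).mul hi).mul a1)
  have hlf : DifferentiableWithinAt ℝ (fun y : ℝ => lap 20 (f t) y) (Icc (-1) 1) x := by
    unfold lap
    exact (hx2.mul b2).sub (((hc _).mul hi).mul b1)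
  have h1 : DifferentiableWithinAt ℝ (fun y : ℝ => ric1 20 (w t) (f t) y) (Icc (-1) 1) x := by
    unfold ric1
    exact ((hew.mul (hlf.add ((hx2.mul b1).mul hg))).neg).add ((hc _).mul hef)
  have h2 : DifferentiableWithinAt ℝ (fun y : ℝ => ric2 20 (w t) (f t) y) (Icc (-1) 1) x := by
    unfold ric2
    exact (hew.mul (((hlw.sub (hc _)).sub (hi.mul hg)).add ((hx2.mul a1).mul hg))).neg
  have h0 : DifferentiableWithinAt ℝ (fun y : ℝ => ric0 20 (w t) (f t) y) (Icc (-1) 1) x := by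
    unfold ric0
    exact h2.sub ((hew.mul hx2).mul (((hc _).mul (a2.sub (a1.pow 2))).add
      ((hc _).mul ((b2.add (b1.pow 2)).sub (((hc _).mul a1).mul b1)))))
  unfold scal
  exact (h0.add ((hc _).mul h1)).add ((hc _).mul h2)

theorem lip_near {F : ℝ → ℝ} (hF : DifferentiableWithinAt ℝ F (Icc (-1) 1) 1) :
    ∃ C : ℝ, 0 ≤ C ∧ ∀ᶠ s in 𝓝[>] (0 : ℝ), |F (1 - s) - F 1| ≤ C * s := by
  obtain ⟨c, hc0, hc⟩ := hF.hasDerivWithinAt.hasFDerivWithinAt.isBigO_sub.exists_nonneg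
  refine ⟨c, hc0, ?_⟩
  have hb := hc.bound
  have ht : Tendsto (fun s : ℝ => 1 - s) (𝓝[>] 0) (𝓝[Icc (-1) 1] 1) := by
    refine tendsto_nhdsWithin_iff.2 ⟨?_, ?_⟩
    · have : Tendsto (fun s : ℝ => 1 - s) (𝓝 0) (𝓝 (1 - 0)) :=
        (continuous_const.sub continuous_id).tendsto 0
      rw [sub_zero] at this
      exact this.mono_left nhdsWithin_le_nhds
    · filter_upwards [Ioo_mem_nhdsGT (show (0 : ℝ) < 1 by norm_num)] with s hs
      exact ⟨by linarith only [hs, hs.2], by linarith only [hs, hs.1]⟩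
  filter_upwards [ht.eventually hb, self_mem_nhdsWithin] with s hs hs0
  have hs0' : (0 : ℝ) < s := hs0
  have e : ‖(1 - s) - (1 : ℝ)‖ = s := by
    rw [show (1 - s) - (1 : ℝ) = -s by ring, norm_neg, Real.norm_of_nonneg hs0'.le]
  rw [e] at hs
  exact hs

/-- The numerical contradiction in the slope argument. -/
theorem slope_aux {K φ1 φ ψ C C' c1 s L RB1 RBs S1 Ss : ℝ} (hK : 0 < K) (hφ1 : 0 < φ1)
    (hL : L = K * φ1) (_hC : 0 ≤ C) (hC' : 0 ≤ C') (_hc1 : 0 < c1) (hs : 0 < s)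
    (h1 : RB1 ≤ S1) (h2 : S1 - Ss ≤ C' * s) (h3 : Ss ≤ RBs)
    (h4 : RB1 - RBs ≥ K * (φ1 ^ 2 - (φ - ψ) ^ 2)) (h5 : φ - φ1 ≤ C * s) (h6 : c1 * Real.sqrt s ≤ ψ)
    (h7 : 0 ≤ φ - ψ) (h8 : (C' + L * C) * Real.sqrt s < L * c1) : False := by
  have hsq : 0 < Real.sqrt s := Real.sqrt_pos.2 hs
  have k4 : Real.sqrt s * Real.sqrt s = s := Real.mul_self_sqrt hs.le
  have hL0 : 0 < L := by rw [hL]; positivity
  have g1 : (C' + L * C) * s < L * c1 * Real.sqrt s := by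
    have := mul_lt_mul_of_pos_right h8 hsq
    rwa [mul_assoc (C' + L * C), k4] at this
  have g2 : L * (C * s) + C' * s < L * (c1 * Real.sqrt s) := by linarith only [g1]
  set D : ℝ := φ1 - (φ - ψ) with hD
  have g3 : c1 * Real.sqrt s - C * s ≤ D := by
    rw [hD]
    linarith only [h5, h6]
  have g4 : 0 < D := by
    have h9 : L * (C * s) < L * (c1 * Real.sqrt s) := by
      have : 0 ≤ C' * s := by positivity
      linarith only [g1, this]
    have h10 := lt_of_mul_lt_mul_left h9 hL0.le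
    linarith only [h5, h6, h10]
  have g5 : φ1 * D ≤ φ1 ^ 2 - (φ - ψ) ^ 2 := by
    have e : φ1 ^ 2 - (φ - ψ) ^ 2 = D * (φ1 + (φ - ψ)) := by
      rw [hD]
      ring
    rw [e]
    have := mul_le_mul_of_nonneg_left (show φ1 ≤ φ1 + (φ - ψ) by linarith only [h7]) g4.le
    linarith only [this]
  have g6 : L * D ≤ K * (φ1 ^ 2 - (φ - ψ) ^ 2) := by
    rw [hL, mul_assoc]
    exact mul_le_mul_of_nonneg_left g5 hK.le
  have g7 : L * (c1 * Real.sqrt s - C * s) ≤ L * D := mul_le_mul_of_nonneg_left g3 hL0.le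
  have g8 : L * (c1 * Real.sqrt s - C * s) = L * (c1 * Real.sqrt s) - L * (C * s) := by ring
  linarith only [h1, h2, h3, h4, g1, g6, g7]

/-- Upper bound of the barrier. -/
theorem RBx_le (hq : ParPos q) {t x : ℝ} (hτ : 0 < tau t) (hx : x ∈ Ioo (-1 : ℝ) 1) :
    RBx q w f t x ≤ q.eta * (1 + t) +
      q.GR * (1 / (2 * zeta0)) * q.eps ^ (-(2 * aa)) * tau t ^ (-gam) *
        (Real.exp (f t x) - Real.exp (w t x) * sx x) ^ 2 := by
  have hz : (0 : ℝ) < zeta0 := by unfold zeta0; norm_num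
  have hGR := hq.GR
  have hε := Real.rpow_pos_of_pos hq.eps (-(2 * aa))
  have hsx0 : 0 < sx x := sx_pos hx
  have hbase : (tau t + Real.exp (f t x) * Real.exp (w t x) * sx x / zeta0 / 100) ^ (-gam) ≤
      tau t ^ (-gam) := by
    apply Real.rpow_le_rpow_of_nonpos hτ _ (by linarith only [gam_pos])
    have : 0 ≤ Real.exp (f t x) * Real.exp (w t x) * sx x / zeta0 / 100 := by positivity
    linarith only [this]
  unfold RBx
  have h0 : 0 ≤ q.GR * ((Real.exp (f t x) - Real.exp (w t x) * sx x) ^ 2 / (2 * zeta0)) *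
      q.eps ^ (-(2 * aa)) := by positivity
  have h1 := mul_le_mul_of_nonneg_left hbase h0
  have e : q.GR * ((Real.exp (f t x) - Real.exp (w t x) * sx x) ^ 2 / (2 * zeta0)) *
      q.eps ^ (-(2 * aa)) * tau t ^ (-gam) = q.GR * (1 / (2 * zeta0)) * q.eps ^ (-(2 * aa)) *
      tau t ^ (-gam) * (Real.exp (f t x) - Real.exp (w t x) * sx x) ^ 2 := by ring
  linarith only [h1, e]

theorem RBx_one {t : ℝ} :
    RBx q w f t 1 = q.eta * (1 + t) +
      q.GR * (1 / (2 * zeta0)) * q.eps ^ (-(2 * aa)) * tau t ^ (-gam) * Real.exp (f t 1) ^ 2 := by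
  have hsx1 : sx 1 = 0 := by
    unfold sx
    norm_num
  unfold RBx
  rw [hsx1]
  simp only [mul_zero, sub_zero, zero_div, add_zero]
  ring

/-- Strictness at the tip. -/
theorem tip_strict (h : ConfSol 20 w f T) (hT : T ≤ 1) (hq : ParPos q) {t : ℝ}
    (ht : t ∈ Ico 0 T)
    (hR : ∀ x ∈ Ico (0 : ℝ) 1, RR w f t x ≤ q.RB t (rr w f t x) (uu w f t x)) :
    scal 20 (w t) (f t) 1 < RBx q w f t 1 := by
  by_contra hcon
  push Not at hcon
  obtain ⟨C', hC', e1⟩ := lip_near (scal_diff h ht (x := 1) ⟨by norm_num, le_rfl⟩)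
  have hfd : DifferentiableWithinAt ℝ (fun x => Real.exp (f t x)) (Icc (-1) 1) 1 :=
    (smooth_diff h.smooth_f ht (x := 1) ⟨by norm_num, le_rfl⟩).1.exp
  obtain ⟨C, hC, e2⟩ := lip_near hfd
  obtain ⟨M, hM, hj⟩ := jets_bound h ht
  have htI : t ∈ Icc 0 t := ⟨ht.1, le_rfl⟩
  have hz : (0 : ℝ) < zeta0 := by unfold zeta0; norm_num
  have hτ : 0 < tau t := by
    unfold tau
    linarith only [hT, ht, ht.2]
  have hφ10 : 0 < Real.exp (f t 1) := Real.exp_pos _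
  have hGR := hq.GR
  have hε := Real.rpow_pos_of_pos hq.eps (-(2 * aa))
  have hτγ := Real.rpow_pos_of_pos hτ (-gam)
  have hK0 : 0 < q.GR * (1 / (2 * zeta0)) * q.eps ^ (-(2 * aa)) * tau t ^ (-gam) := by positivity
  set K : ℝ := q.GR * (1 / (2 * zeta0)) * q.eps ^ (-(2 * aa)) * tau t ^ (-gam) with hK
  have hM0 : 0 < Real.exp (-M) := Real.exp_pos _
  have e3 : ∀ᶠ s in 𝓝[>] (0 : ℝ), C * s + Real.exp M * Real.sqrt (2 * s) < Real.exp (f t 1) :=
    eventually_le_of_cont (by fun_prop) (by simp) hφ10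
  have e4 : ∀ᶠ s in 𝓝[>] (0 : ℝ), (C' + K * Real.exp (f t 1) * C) * Real.sqrt s <
      K * Real.exp (f t 1) * Real.exp (-M) :=
    eventually_le_of_cont (by fun_prop) (by simp) (by positivity)
  have e5 : ∀ᶠ s in 𝓝[>] (0 : ℝ), s < 1 :=
    eventually_le_of_cont continuous_id (by simp) one_pos
  have e6 : ∀ᶠ s in 𝓝[>] (0 : ℝ), 0 < s := self_mem_nhdsWithin
  obtain ⟨s, g1, g2, g3, g4, g5, g6⟩ :=
    (e1.and (e2.and (e3.and (e4.and (e5.and e6))))).exists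
  -- the point
  have hx : (1 - s) ∈ Ioo (-1 : ℝ) 1 := ⟨by linarith only [g5, g6], by linarith only [g6]⟩
  have hxC : (1 - s) ∈ Icc (-1 : ℝ) 1 := ⟨by linarith only [g5, g6], by linarith only [g6]⟩
  obtain ⟨b1, b2, _, _, _, _⟩ := hj t htI (1 - s) hxC
  obtain ⟨s1, s2⟩ := sx_bounds (x := 1 - s) (by linarith only [g5]) (by linarith only [g6])
  rw [show 1 - (1 - s) = s by ring] at s1 s2
  have hRx := hR (1 - s) ⟨by linarith only [g5], by linarith only [g6]⟩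
  rw [RR_eq h ht hx, RB_eq hx] at hRx
  have hsx0 : 0 < sx (1 - s) := sx_pos hx
  have hsq : 0 < Real.sqrt s := Real.sqrt_pos.2 g6
  have hψl : Real.exp (-M) * Real.sqrt s ≤ Real.exp (w t (1 - s)) * sx (1 - s) :=
    mul_le_mul (Real.exp_le_exp.2 (abs_le.1 b1).1) s1 hsq.le (Real.exp_pos _).le
  have hψu : Real.exp (w t (1 - s)) * sx (1 - s) ≤ Real.exp M * Real.sqrt (2 * s) :=
    mul_le_mul (Real.exp_le_exp.2 (abs_le.1 b1).2) s2 hsx0.le (Real.exp_pos _).le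
  have g2' := abs_le.1 g2
  have g1' := abs_le.1 g1
  have hle := RBx_le (w := w) (f := f) hq hτ hx
  have hone := RBx_one (q := q) (w := w) (f := f) (t := t)
  rw [← hK] at hle hone
  refine slope_aux (φ := Real.exp (f t (1 - s))) (ψ := Real.exp (w t (1 - s)) * sx (1 - s))
    hK0 hφ10 rfl hC hC' hM0 g6 hcon (by linarith only [g1', g1'.1]) hRx ?_ g2'.2 hψl
    (by linarith only [g3, hψu, g2', g2'.1]) g4
  rw [hone]
  linarith only [hle]

/-- `R < RB` near the tip. -/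
theorem tip_R (h : ConfSol 20 w f T) (hT : T ≤ 1) (hq : ParPos q) {t₀ : ℝ}
    (ht₀ : t₀ ∈ Ico 0 T)
    (hR : ∀ x ∈ Ico (0 : ℝ) 1, RR w f t₀ x ≤ q.RB t₀ (rr w f t₀ x) (uu w f t₀ x)) :
    ∃ δ > (0 : ℝ), ∀ t ∈ Ico 0 T, |t - t₀| < δ → ∀ x ∈ Ioo (1 - δ) 1,
      RR w f t x < q.RB t (rr w f t x) (uu w f t x) := by
  have hs := tip_strict h hT hq ht₀ hR
  have hc : ContinuousOn (fun z : ℝ × ℝ => RBx q w f z.1 z.2 - scal 20 (w z.1) (f z.1) z.2)
      (Ico 0 T ×ˢ Icc (-1) 1) := (RBx_cont h hT).sub (curv_cont h).2.2.2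
  have hm : ((t₀, 1) : ℝ × ℝ) ∈ Ico 0 T ×ˢ Icc (-1 : ℝ) 1 := ⟨ht₀, by norm_num, le_rfl⟩
  have h1 := (hc (t₀, 1) hm).tendsto.eventually_const_lt (u := 0) (by simpa using hs)
  rw [Metric.nhdsWithin_basis_ball.eventually_iff] at h1
  obtain ⟨δ, hδ, hb⟩ := h1
  refine ⟨min δ 1, lt_min hδ one_pos, fun t ht hd x hx => ?_⟩
  have hx1 : 1 - x < min δ 1 := by linarith only [hx, hx.1]
  have hxI : x ∈ Ioo (-1 : ℝ) 1 := ⟨by linarith only [hx1, hx1, min_le_right δ 1], hx.2⟩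
  have hmem : ((t, x) : ℝ × ℝ) ∈ Metric.ball ((t₀, 1) : ℝ × ℝ) δ ∩ (Ico 0 T ×ˢ Icc (-1 : ℝ) 1) := by
    refine ⟨?_, ht, hxI.1.le, hxI.2.le⟩
    rw [Metric.mem_ball, Prod.dist_eq, max_lt_iff]
    constructor
    · rw [Real.dist_eq]
      exact hd.trans_le (min_le_left _ _)
    · rw [Real.dist_eq, abs_sub_comm, abs_of_pos (by linarith only [hx, hx.2])]
      exact hx1.trans_le (min_le_left _ _)
  have := hb hmem
  rw [RR_eq h ht hxI, RB_eq hxI]
  linarith only [this]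

theorem fb_pos (hq : ParPos q) {t u : ℝ} (h0 : 0 ≤ t) (h1 : t < 1) (hu : 0 < u) :
    0 < q.fb t u := by
  have hT0 := (T0_bounds hq h0 h1).1
  have hτ : 0 < tau t := by
    unfold tau
    linarith only [h1]
  have h2 := Real.rpow_pos_of_pos (div_pos (tanh_pos' hu) hT0) aa
  have h3 := Real.rpow_pos_of_pos (Real.cosh_pos u) (-(1 - aa))
  have := hq.B
  unfold Par.fb
  positivity

theorem Vb_pos (hq : ParPos q) {t u : ℝ} (h0 : 0 ≤ t) (h1 : t < 1) (hu : 0 < u) :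
    0 < q.Vb t u := by
  have hT0 := (T0_bounds hq h0 h1).1
  have hτ : 0 < tau t := by
    unfold tau
    linarith only [h1]
  have h2 := Real.rpow_pos_of_pos (div_pos (tanh_pos' hu) hT0) aa
  have h3 := Real.rpow_pos_of_pos (Real.cosh_pos u) aa
  have := hq.BV
  have := tanh_pos' hu
  unfold Par.Vb
  positivity

/-- `f`, `V`, `y` near the tip, near a time. -/
theorem tip_fV (h : ConfSol 20 w f T) (hT : T ≤ 1) (hg : IsBub g) (hq : ParPos q) {t₀ : ℝ}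
    (ht₀ : t₀ ∈ Ico 0 T) {ε' : ℝ} (hε : 0 < ε') :
    ∃ δ > (0 : ℝ), ∀ t ∈ Ico 0 T, |t - t₀| < δ → ∀ x ∈ Ioo (1 - δ) 1,
      0 < uu w f t x ∧ yv w f t x < ε' ∧ |ff g w f t x| < q.fb t (uu w f t x) ∧
      |VV w f t x| < q.Vb t (uu w f t x) := by
  have hm : (t₀ + T) / 2 ∈ Ico 0 T := ⟨by linarith only [ht₀, ht₀.1, ht₀.2], by linarith only [ht₀, ht₀.2]⟩
  obtain ⟨d, hd, hu⟩ := tip_unif h hT hg hq hm (ε' := min ε' (1 / 2)) (lt_min hε (by norm_num))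
  refine ⟨min d ((T - t₀) / 2), lt_min hd.1 (by linarith only [ht₀, ht₀.2]), fun t ht hdt x hx => ?_⟩
  have h1 : t ∈ Icc 0 ((t₀ + T) / 2) := by
    refine ⟨ht.1, ?_⟩
    have h2 := hdt.trans_le (min_le_right _ _)
    have h3 := (abs_lt.1 h2).2
    linarith only [h3]
  have h4 : x ∈ Ioo (1 - d) 1 := ⟨by linarith only [hx, hx.1, min_le_left d ((T - t₀) / 2)], hx.2⟩
  obtain ⟨k1, k2, k3, k4⟩ := hu t h1 x h4
  have ht1 : t < 1 := ht.2.trans_le hT
  have p1 := fb_pos hq ht.1 ht1 k1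
  have p2 := Vb_pos hq ht.1 ht1 k1
  have hm2 : min ε' (1 / 2) ≤ 1 / 2 := min_le_right _ _
  refine ⟨k1, k4.trans_le (min_le_left _ _), ?_, ?_⟩
  · calc _ ≤ min ε' (1 / 2) * q.fb t (uu w f t x) := k2
      _ ≤ 1 / 2 * q.fb t (uu w f t x) := mul_le_mul_of_nonneg_right hm2 p1.le
      _ < _ := by linarith only [p1]
  · calc _ ≤ min ε' (1 / 2) * q.Vb t (uu w f t x) := k3
      _ ≤ 1 / 2 * q.Vb t (uu w f t x) := mul_le_mul_of_nonneg_right hm2 p2.le
      _ < _ := by linarith only [p2]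

/-- The strict bootstrap holds near the tip, near `t₀`. -/
theorem tip_open (h : ConfSol 20 w f T) (hT : T ≤ 1) (hg : IsBub g) (hq : ParPos q) {t₀ : ℝ}
    (ht₀ : t₀ ∈ Ico 0 T)
    (hR : ∀ x ∈ Ico (0 : ℝ) 1, RR w f t₀ x ≤ q.RB t₀ (rr w f t₀ x) (uu w f t₀ x)) :
    ∃ δ > (0 : ℝ), ∀ t ∈ Ico 0 T, |t - t₀| < δ → ∀ x ∈ Ioo (1 - δ) 1, BootAtS q g w f t x := by
  have hr0 := hq.rho0
  obtain ⟨δ1, h1, k1⟩ := tip_R h hT hq ht₀ hR
  obtain ⟨δ2, h2, k2⟩ := tip_fV h hT hg hq ht₀ (ε' := min q.rho0 25)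
    (lt_min hr0 (by norm_num))
  refine ⟨min δ1 δ2, lt_min h1 h2, fun t ht hd x hx => ?_⟩
  have hx1 : x ∈ Ioo (1 - δ1) 1 := ⟨by linarith only [hx, hx.1, min_le_left δ1 δ2], hx.2⟩
  have hx2 : x ∈ Ioo (1 - δ2) 1 := ⟨by linarith only [hx, hx.1, min_le_right δ1 δ2], hx.2⟩
  obtain ⟨m1, m2, m3, m4⟩ := k2 t ht (hd.trans_le (min_le_right _ _)) x hx2
  have m5 := k1 t ht (hd.trans_le (min_le_left _ _)) x hx1
  have m6 : yv w f t x < q.rho0 := m2.trans_le (min_le_left _ _)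
  have m7 : yv w f t x < 25 := m2.trans_le (min_le_right _ _)
  exact ⟨fun _ _ => ⟨m1, m3⟩, fun _ _ => m4, m5, fun h' => absurd h' (not_le.2 m6),
    fun h' => absurd h' (not_le.2 m7)⟩

end

end Vale.Agent.P244.ST.Tip
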